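-- KEEP
import Claimed.Agent.RW.Kaufman

/-! PACKED FILE (helper183, closed unit Re6 = Sec 6a of row 252, FROZEN): parts Re6.Defs, Re6.FitDefs.  Each part is wrapped in its own `section`. -/

section PkRe6Defs

/-!
# Row 252, unit Re6 (Sec. 6a "Retained-edge planar tools", 06a-retained-edge.tex).  Architect: helper183.  Prefix `re6`.

DEFINITIONS ONLY (interface file: do not change).   Everything is written in LATTICE UNITS: the mesh `h` of the paper is `1 / L`, a point `x ∈ h ℤ²`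
is its integer vector `a = x / h`, `N_h` is the number `re6N` of UNIT grid cells.  "subpower `K`" = explicit `K ≥ 1`; conclusions `C * K ^ C`.

MAP OF THE UNIT (each file = one closed contract, all leaves independent)
* `Bsg`     L re:graph-bsg (three paths, any abelian group)
* `Cell`    covering-number calculus (Ruzsa triangle, Pluennecke, covering) for finite subsets of `ℝ × ℝ`
* `Ind`     (re:individual-bsg)      * `Sel` selection of `κ₀`      * `Chain`, `Clos` Ruzsa chain and scalar closure      * `Common` L re:common-sets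
* `Ring*`   RING(S,e) from `RW.ex_W1` (replaces Orponen-de Saxce-Shmerkin Thm 1.5 and L re:flat-coefficients)
* `Strips`  L re:parallel-strips (shorter proof, polynomial in `K`)      * `Rigid` P re:retained-edge-rigidity
* `Core*`   finite core of L a06:row-fit      * `Fit` the exported L a06:row-fit (measure form)
-/

set_option autoImplicit false

namespace Claimed.Agent.R252

open Finset
open scoped Pointwise

/-- rounding to the unit grid -/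
noncomputable def re6Rd (p : ℝ × ℝ) : ℤ × ℤ := (⌊p.1⌋, ⌊p.2⌋)

/-- number of unit grid cells met by a finite planar set (`N_h` in lattice units) -/
noncomputable def re6N (U : Finset (ℝ × ℝ)) : ℕ := #(U.image re6Rd)

/-- the integer vector as a real vector -/
def re6Emb (a : ℤ × ℤ) : ℝ × ℝ := ((a.1 : ℝ), (a.2 : ℝ))

/-- a finite set of integer vectors as a finite subset of the plane -/
noncomputable def re6R (A : Finset (ℤ × ℤ)) : Finset (ℝ × ℝ) := A.image re6Emb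

/-- the cell of `a + s b` -/
noncomputable def re6Cl (s : ℝ) (p : (ℤ × ℤ) × (ℤ × ℤ)) : ℤ × ℤ := re6Rd (re6Emb p.1 + s • re6Emb p.2)

/-- sums of at most `H` products of at most `H` elements of `R` (the empty product `1` and the empty sum `0` are allowed) -/
def re6Gen (H : ℕ) (R : Set ℝ) : Set ℝ :=
  {c | ∃ l : List (List ℝ), l.length ≤ H ∧ (∀ m ∈ l, m.length ≤ H ∧ ∀ t ∈ m, t ∈ R) ∧ c = (l.map List.prod).sum}

/-- A re:graph-data (planar graph data) in lattice units.  `ι` = represented indices with law `ν`, `κ i` = the parameter of the index `i`.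
The first-coordinate cap (re:first-coordinate-cap) is written as a count (`#G ∼ L²` up to `K`). -/
structure Re6Planar {ι : Type} [Fintype ι] (L K S : ℝ) (A B : Finset (ℤ × ℤ)) (ν κ : ι → ℝ)
    (G : ι → Finset ((ℤ × ℤ) × (ℤ × ℤ))) : Prop where
  hAbd : ∀ a ∈ A, |(a.1 : ℝ)| ≤ K * L ∧ |(a.2 : ℝ)| ≤ K * L
  hBbd : ∀ b ∈ B, |(b.1 : ℝ)| ≤ K * L ∧ |(b.2 : ℝ)| ≤ K * L
  hAhi : (#A : ℝ) ≤ K * L
  hBhi : (#B : ℝ) ≤ K * L
  hν0 : ∀ i, 0 ≤ ν i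
  hν1 : ∑ i, ν i = 1
  hκlo : ∀ i, 1 / K ≤ |κ i|
  hκhi : ∀ i, |κ i| ≤ K
  hFr : RW.KfFrost ν κ K S (1 / L)
  hGsub : ∀ i, G i ⊆ A ×ˢ B
  hGlo : ∀ i, L ^ 2 / K ≤ (#(G i) : ℝ)
  hsum : ∀ i, (#((G i).image (re6Cl (κ i))) : ℝ) ≤ K * L
  hcap : ∀ i (m n : ℤ), (#{p ∈ G i | p.1.1 = m ∧ p.2.1 = n} : ℝ) ≤ K

/-- the source law of RING: a probability law on `[1/2, 2]`, Frostman of exponent `S` with loss `h^(-τ)` at the scales `[h, 1]` -/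
def Re6Src {ι : Type} [Fintype ι] (h τ S : ℝ) (ν T : ι → ℝ) : Prop :=
  (∀ i, 0 ≤ ν i) ∧ ∑ i, ν i = 1 ∧ (∀ i, 1 / 2 ≤ T i ∧ T i ≤ 2) ∧ RW.KfFrost ν T (h ^ (-τ)) S h

/-- the exponent `σ` is REACHED: some law generated from the source by `≤ H` sums of `≤ H` products has, at every scale `ρ ∈ [h, h^ε]` and outside an
event of probability `≤ ρ^c`, atoms `≤ ρ^σ`. -/
def Re6Reach (S σ : ℝ) : Prop :=
  ∃ H : ℕ, ∀ ε : ℝ, 0 < ε → ∃ c τ h₀ : ℝ, 0 < c ∧ 0 < τ ∧ 0 < h₀ ∧ ∀ h : ℝ, 0 < h → h < h₀ →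
    ∀ (ι : Type) [Fintype ι] (ν T : ι → ℝ), Re6Src h τ S ν T →
      ∃ (Ω : Type) (_ : Fintype Ω) (w X : Ω → ℝ), (∀ ω, 0 ≤ w ω) ∧ ∑ ω, w ω = 1 ∧
        (∀ ω, X ω ∈ re6Gen H (Set.range T) ∧ 1 / 2 ≤ X ω) ∧
        ∀ ρ : ℝ, h ≤ ρ → ρ ≤ h ^ ε → ∃ Gd : Finset Ω, 1 - ρ ^ c ≤ ∑ ω ∈ Gd, w ω ∧
          ∀ x : ℝ, ∑ ω ∈ Gd with |X ω - x| ≤ ρ, w ω ≤ ρ ^ σ

/-- the line projection `𝒫_u (z, V) = (z · J u, V · u)`, `u = (1, v)`, of a point cell `p = (z, V) = ((t, Z), (V₁, V₂))` -/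
def re6Pr (v : ℝ) (p : (ℤ × ℤ) × (ℤ × ℤ)) : ℝ × ℝ := ((p.1.2 : ℝ) - v * p.1.1, (p.2.1 : ℝ) + v * p.2.2)

/-- finite core data of L a06:row-fit in lattice units (`ξ = 1 / L`): `Pt` = occupied cells of `(z, V₀)`, `D` = slope bins with representative `vel d` and
palette weight `pal d`, `m p d` = incidence mass of the pair (point cell, slope bin). -/
structure Re6Core {D : Type} [Fintype D] (L K S : ℝ) (Pt : Finset ((ℤ × ℤ) × (ℤ × ℤ))) (vel pal : D → ℝ)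
    (m : (ℤ × ℤ) × (ℤ × ℤ) → D → ℝ) : Prop where
  hm0 : ∀ p d, 0 ≤ m p d
  hmass : 1 / K ≤ ∑ p ∈ Pt, ∑ d, m p d
  hbd : ∀ p ∈ Pt, |(p.1.1 : ℝ)| ≤ K * L ∧ |(p.1.2 : ℝ)| ≤ K * L ∧ |(p.2.1 : ℝ)| ≤ K * L ∧ |(p.2.2 : ℝ)| ≤ K * L
  hvel : ∀ d, |vel d| ≤ K
  hD : (Fintype.card D : ℝ) ≤ K * L
  hfib : ∀ q : ℤ × ℤ, (#{p ∈ Pt | p.1 = q} : ℝ) ≤ K
  hcap : ∀ (q : ℤ × ℤ) (d : D), ∑ p ∈ Pt with p.1 = q, m p d ≤ K * pal d / L ^ 2
  hpal0 : ∀ d, 0 ≤ pal d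
  hpal1 : ∑ d, pal d ≤ 1
  hFr : RW.KfFrost pal vel K S (1 / L)
  hcov : ∀ d, (#(({p ∈ Pt | 0 < m p d}).image fun p => re6Rd (re6Pr (vel d) p)) : ℝ) ≤ K * L

/-- every definition of this file is cited here (equation lemmas are generated in this module) -/
theorem re6_defs_eqns_cite (p : ℝ × ℝ) (U : Finset (ℝ × ℝ)) (a : ℤ × ℤ) (A : Finset (ℤ × ℤ)) (s : ℝ) (q : (ℤ × ℤ) × (ℤ × ℤ)) (H : ℕ) (R : Set ℝ) :
    re6Rd p = (⌊p.1⌋, ⌊p.2⌋) ∧ re6N U = #(U.image re6Rd) ∧ re6Emb a = ((a.1 : ℝ), (a.2 : ℝ)) ∧ re6R A = A.image re6Emb ∧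
    re6Cl s q = re6Rd (re6Emb q.1 + s • re6Emb q.2) ∧ re6Pr s q = ((q.1.2 : ℝ) - s * q.1.1, (q.2.1 : ℝ) + s * q.2.2) ∧
    re6Gen H R = {c | ∃ l : List (List ℝ), l.length ≤ H ∧ (∀ m ∈ l, m.length ≤ H ∧ ∀ t ∈ m, t ∈ R) ∧ c = (l.map List.prod).sum} := by
  refine ⟨?_, ?_, ?_, ?_, ?_, ?_, ?_⟩
  · rw [re6Rd]
  · rw [re6N]
  · rw [re6Emb]
  · rw [re6R]
  · rw [re6Cl]
  · rw [re6Pr]
  · rw [re6Gen]

theorem re6_defs_eqns_cite2 {ι : Type} [Fintype ι] (h τ S σ : ℝ) (ν T : ι → ℝ) :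
    (Re6Src h τ S ν T ↔ (∀ i, 0 ≤ ν i) ∧ ∑ i, ν i = 1 ∧ (∀ i, 1 / 2 ≤ T i ∧ T i ≤ 2) ∧ RW.KfFrost ν T (h ^ (-τ)) S h) ∧
    (Re6Reach S σ → Re6Reach S σ) := by
  refine ⟨?_, ?_⟩
  · rw [Re6Src]
  · intro hh
    rw [Re6Reach] at hh
    rw [Re6Reach]
    exact hh

end Claimed.Agent.R252

end PkRe6Defs

section PkRe6FitDefs

/-!
# Row 252, unit Re6.  DEFINITIONS of the exported L a06:row-fit (measure form).   Architect helper183.   Interface file: do not change.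

MODEL.  `Λ` = trajectory labels with prior `P` (any measurable space; a `Fintype` with `⊤` is a special case), time = Lebesgue on `[0,1]`, incidences `ω = (l, t) ∈ Λ × ℝ`.
The trajectory `l` is `z(t) = (t, Z0 l + vel l * t)`.   `μ` = incidence measure, concentrated on the measurable set `W`, on which all pointwise hypotheses hold.
`pal` = the law `π` on velocities.   `T ω` = the row, `cst l` = the constant of the trajectory.   Mesh `ξ`, row accuracy `E ≥ ξ`, all subpower losses = `K`.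
-/

set_option autoImplicit false

namespace Claimed.Agent.R252

open Finset MeasureTheory

/-- the position cell of the incidence `ω = (l, t)` at the mesh `ξ` -/
noncomputable def re6Zc {Λ : Type*} (ξ : ℝ) (Z0 vel : Λ → ℝ) (ω : Λ × ℝ) : ℤ × ℤ :=
  (⌊ω.2 / ξ⌋, ⌊(Z0 ω.1 + vel ω.1 * ω.2) / ξ⌋)

/-- the point cell (position cell at the mesh `ξ`, row bin at the mesh `E`); this is the `ξ`-cell of `(z, V₀)`, `V₀ = (ξ/E) T` -/
noncomputable def re6Pc {Λ : Type*} (ξ E : ℝ) (Z0 vel : Λ → ℝ) (T : Λ × ℝ → ℝ × ℝ) (ω : Λ × ℝ) : (ℤ × ℤ) × (ℤ × ℤ) :=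
  (re6Zc ξ Z0 vel ω, (⌊(T ω).1 / E⌋, ⌊(T ω).2 / E⌋))

/-- hypotheses of L a06:row-fit -/
structure Re6Fit {Λ : Type*} [MeasurableSpace Λ] (ξ E K S : ℝ) (P : Measure Λ) (Z0 vel cst : Λ → ℝ) (T : Λ × ℝ → ℝ × ℝ)
    (W : Set (Λ × ℝ)) (μ : Measure (Λ × ℝ)) (pal : Measure ℝ) : Prop where
  hP : P Set.univ ≤ 1
  hZ0m : Measurable Z0
  hvelm : Measurable vel
  hTm : Measurable T
  hWm : MeasurableSet W
  /-- dominated by `K` times prior times Lebesgue time -/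
  hdom : μ ≤ ENNReal.ofReal K • (P.prod (volume.restrict (Set.Icc (0 : ℝ) 1)))
  hW : μ Wᶜ = 0
  hmass : ENNReal.ofReal (1 / K) ≤ μ Set.univ
  hWt : ∀ ω ∈ W, 0 ≤ ω.2 ∧ ω.2 ≤ 1
  hbd : ∀ ω ∈ W, |Z0 ω.1 + vel ω.1 * ω.2| ≤ K ∧ |vel ω.1| ≤ K
  hpal1 : pal Set.univ ≤ 1
  hpal : ∀ a b : ℝ, ξ ≤ b - a → b - a ≤ 1 → pal (Set.Icc a b) ≤ ENNReal.ofReal (K * (b - a) ^ S)
  /-- joint cell cap `μ(z_ξ, v_ξ) ≤ K ξ² π(v_ξ)` -/
  hcap : ∀ (q : ℤ × ℤ) (k : ℤ), μ {ω | re6Zc ξ Z0 vel ω = q ∧ ⌊vel ω.1 / ξ⌋ = k} ≤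
    ENNReal.ofReal (K * ξ ^ 2) * pal (Set.Ico (k * ξ) ((k + 1) * ξ))
  hT : ∀ ω ∈ W, |(T ω).1| ≤ K ∧ |(T ω).2| ≤ K
  /-- at most `K` bins of width `E` per position cell -/
  hbins : ∀ q : ℤ × ℤ, ∃ bins : Finset (ℝ × ℝ), (#bins : ℝ) ≤ K ∧
    ∀ ω ∈ W, re6Zc ξ Z0 vel ω = q → ∃ b ∈ bins, |(T ω).1 - b.1| ≤ E ∧ |(T ω).2 - b.2| ≤ E
  /-- `T (1, v)` is within `K E` of a constant of the trajectory -/
  hrow : ∀ ω ∈ W, |(T ω).1 + vel ω.1 * (T ω).2 - cst ω.1| ≤ K * E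

theorem re6_fitdefs_eqns_cite {Λ : Type*} (ξ E : ℝ) (Z0 vel : Λ → ℝ) (T : Λ × ℝ → ℝ × ℝ) (ω : Λ × ℝ) :
    re6Zc ξ Z0 vel ω = (⌊ω.2 / ξ⌋, ⌊(Z0 ω.1 + vel ω.1 * ω.2) / ξ⌋) ∧
    re6Pc ξ E Z0 vel T ω = (re6Zc ξ Z0 vel ω, (⌊(T ω).1 / E⌋, ⌊(T ω).2 / E⌋)) := by
  refine ⟨?_, ?_⟩
  · rw [re6Zc]
  · rw [re6Pc]

end Claimed.Agent.R252

end PkRe6FitDefs
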