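-- KEEP
import Claimed.Agent.R252.Re6.FitDefs

/-! PACKED FILE (helper183, closed unit Re6 = Sec 6a of row 252, FROZEN): parts Re6.Cell, Re6.Chain, Re6.Clos, Re6.Bsg, Re6.Ind, Re6.Sel, Re6.Common.  Each part is wrapped in its own `section`. -/

section PkRe6Cell

/-!
# Row 252, unit Re6.  CONTRACT `Cell`: covering-number calculus for finite subsets of `ℝ × ℝ` (06a l.141-165).   Architect helper183.
Leaves L-252-RE6-CELL-A (section A: rounding, dilation, perturbation) and L-252-RE6-CELL-B (section B: Ruzsa triangle, Pluennecke, covering; uses section A).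

All proofs: pass to `P = U.image re6Rd ⊆ ℤ × ℤ` and use Mathlib (`Finset.ruzsa_triangle_inequality_sub_sub_sub`,
`Finset.pluennecke_ruzsa_inequality_nsmul_sub_nsmul_sub`, `Finset.ruzsa_covering_add`).   `⌊x - y⌋ ∈ {⌊x⌋ - ⌊y⌋ - 1, ⌊x⌋ - ⌊y⌋}`, `⌊x + y⌋ ∈ {⌊x⌋ + ⌊y⌋, ⌊x⌋ + ⌊y⌋ + 1}`.
-/

set_option autoImplicit false

namespace Claimed.Agent.R252

open Finset
open scoped Pointwise

/-! ## Section A -/

theorem re6_N_mono {U V : Finset (ℝ × ℝ)} (h : U ⊆ V) : re6N U ≤ re6N V := by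
  unfold re6N
  exact card_le_card (image_subset_image h)

theorem re6_N_le_card (U : Finset (ℝ × ℝ)) : re6N U ≤ #U := by
  unfold re6N
  exact card_image_le

theorem re6_N_pos {U : Finset (ℝ × ℝ)} (h : U.Nonempty) : 0 < re6N U := by
  unfold re6N
  exact card_pos.2 (h.image _)

theorem re6_N_R (A : Finset (ℤ × ℤ)) : re6N (re6R A) = #A := by
  unfold re6N re6R
  rw [image_image]
  have h : re6Rd ∘ re6Emb = id := by
    funext a
    simp [re6Rd, re6Emb]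
  rw [h, image_id]

/-- `a + ⌊y⌋ = ⌊a + y⌋` for integer vectors `a` -/
theorem re6_Rd_emb_add (a : ℤ × ℤ) (y : ℝ × ℝ) : re6Rd (re6Emb a + y) = a + re6Rd y := by
  unfold re6Rd re6Emb
  ext
  · simp [Int.floor_intCast_add]
  · simp [Int.floor_intCast_add]

/-- the four corrections of a rounded difference -/
noncomputable def re6cBox : Finset (ℤ × ℤ) := (Icc (-1 : ℤ) 0) ×ˢ (Icc (-1 : ℤ) 0)

theorem re6c_box_card : #re6cBox = 4 := by
  unfold re6cBox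
  rw [card_product, Int.card_Icc]
  rfl

theorem re6c_floor_sub (x y : ℝ) : ⌊x - y⌋ - (⌊x⌋ - ⌊y⌋) ∈ Icc (-1 : ℤ) 0 := by
  rw [mem_Icc]
  constructor
  · have h : ⌊x⌋ - ⌊y⌋ - 1 ≤ ⌊x - y⌋ := by
      rw [Int.le_floor]
      push_cast
      have h1 := Int.floor_le x
      have h2 := Int.lt_floor_add_one y
      linarith
    linarith
  · have h : ⌊x - y⌋ < ⌊x⌋ - ⌊y⌋ + 1 := by
      rw [Int.floor_lt]
      push_cast
      have h1 := Int.lt_floor_add_one x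
      have h2 := Int.floor_le y
      linarith
    linarith

theorem re6c_Rd_sub (u v : ℝ × ℝ) : re6Rd (u - v) - (re6Rd u - re6Rd v) ∈ re6cBox := by
  unfold re6cBox re6Rd
  rw [mem_product]
  exact ⟨re6c_floor_sub u.1 v.1, re6c_floor_sub u.2 v.2⟩

theorem re6_N_sub_le (U V : Finset (ℝ × ℝ)) : re6N (U - V) ≤ 4 * #(U.image re6Rd - V.image re6Rd) := by
  unfold re6N
  have h : (U - V).image re6Rd ⊆ re6cBox + (U.image re6Rd - V.image re6Rd) := by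
    intro c hc
    obtain ⟨w, hw, rfl⟩ := mem_image.1 hc
    obtain ⟨u, hu, v, hv, rfl⟩ := mem_sub.1 hw
    rw [mem_add]
    exact ⟨_, re6c_Rd_sub u v, _, sub_mem_sub (mem_image_of_mem _ hu) (mem_image_of_mem _ hv), by abel⟩
  calc #((U - V).image re6Rd) ≤ #(re6cBox + (U.image re6Rd - V.image re6Rd)) := card_le_card h
    _ ≤ #re6cBox * #(U.image re6Rd - V.image re6Rd) := card_add_le
    _ = 4 * #(U.image re6Rd - V.image re6Rd) := by rw [re6c_box_card]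

theorem re6_sub_le_N (U V : Finset (ℝ × ℝ)) : #(U.image re6Rd - V.image re6Rd) ≤ 4 * re6N (U - V) := by
  unfold re6N
  have h : U.image re6Rd - V.image re6Rd ⊆ (U - V).image re6Rd - re6cBox := by
    intro c hc
    obtain ⟨p, hp, q, hq, rfl⟩ := mem_sub.1 hc
    obtain ⟨u, hu, rfl⟩ := mem_image.1 hp
    obtain ⟨v, hv, rfl⟩ := mem_image.1 hq
    rw [mem_sub]
    exact ⟨_, mem_image_of_mem _ (sub_mem_sub hu hv), _, re6c_Rd_sub u v, by abel⟩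
  calc #(U.image re6Rd - V.image re6Rd) ≤ #((U - V).image re6Rd - re6cBox) := card_le_card h
    _ ≤ #((U - V).image re6Rd) * #re6cBox := card_sub_le
    _ = 4 * #((U - V).image re6Rd) := by rw [re6c_box_card, mul_comm]

/-- abstract counting: if `F x - φ (G x)` stays in `D`, then `F` has at most `#D` times as many values as `G` -/
theorem re6c_card_box {α : Type*} (s : Finset α) (F G : α → ℤ × ℤ) (φ : ℤ × ℤ → ℤ × ℤ) (D : Finset (ℤ × ℤ))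
    (h : ∀ x ∈ s, F x - φ (G x) ∈ D) : #(s.image F) ≤ #D * #(s.image G) := by
  have h1 : s.image F ⊆ D + (s.image G).image φ := by
    intro c hc
    obtain ⟨x, hx, rfl⟩ := mem_image.1 hc
    rw [mem_add]
    exact ⟨_, h x hx, _, mem_image_of_mem _ (mem_image_of_mem _ hx), by abel⟩
  calc #(s.image F) ≤ #(D + (s.image G).image φ) := card_le_card h1
    _ ≤ #D * #((s.image G).image φ) := card_add_le
    _ ≤ #D * #(s.image G) := Nat.mul_le_mul_left _ card_image_le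

theorem re6c_floor_pert (x y r : ℝ) (h : |x - y| ≤ r) : ⌊x⌋ - ⌊y⌋ ∈ Icc (-⌈r⌉) ⌈r⌉ := by
  rw [mem_Icc]
  have h0 := abs_le.1 h
  have hx1 := Int.floor_le x
  have hx2 := Int.lt_floor_add_one x
  have hy1 := Int.floor_le y
  have hy2 := Int.lt_floor_add_one y
  have hr := Int.le_ceil r
  constructor
  · have : ((-⌈r⌉ - 1 : ℤ) : ℝ) < ((⌊x⌋ - ⌊y⌋ : ℤ) : ℝ) := by
      push_cast
      linarith
    have := Int.cast_lt.1 this
    linarith
  · have : ((⌊x⌋ - ⌊y⌋ : ℤ) : ℝ) < ((⌈r⌉ + 1 : ℤ) : ℝ) := by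
      push_cast
      linarith
    have := Int.cast_lt.1 this
    linarith

/-- general perturbation: if `f` stays within `r` (sup norm) of `g`, the cells of `f` are at most `(2 r + 3)²` times the cells of `g` -/
theorem re6_card_pert {α : Type*} (s : Finset α) (f g : α → ℝ × ℝ) (r : ℝ) (hr : 0 ≤ r)
    (h : ∀ x ∈ s, |(f x).1 - (g x).1| ≤ r ∧ |(f x).2 - (g x).2| ≤ r) :
    (#(s.image fun x => re6Rd (f x)) : ℝ) ≤ (2 * r + 3) ^ 2 * #(s.image fun x => re6Rd (g x)) := by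
  have hm : 0 ≤ ⌈r⌉ := Int.ceil_nonneg hr
  have h1 := re6c_card_box s (fun x => re6Rd (f x)) (fun x => re6Rd (g x)) id ((Icc (-⌈r⌉) ⌈r⌉) ×ˢ (Icc (-⌈r⌉) ⌈r⌉)) (fun x hx => by
    rw [mem_product]
    exact ⟨re6c_floor_pert _ _ r (h x hx).1, re6c_floor_pert _ _ r (h x hx).2⟩)
  have h2 : (#((Icc (-⌈r⌉) ⌈r⌉) ×ˢ (Icc (-⌈r⌉) ⌈r⌉)) : ℝ) ≤ (2 * r + 3) ^ 2 := by
    rw [card_product, Int.card_Icc]
    have e : ((⌈r⌉ + 1 - -⌈r⌉).toNat : ℝ) = 2 * (⌈r⌉ : ℝ) + 1 := by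
      have e1 : ((⌈r⌉ + 1 - -⌈r⌉).toNat : ℤ) = 2 * ⌈r⌉ + 1 := by
        rw [Int.toNat_of_nonneg (by linarith)]
        ring
      have e2 : (((⌈r⌉ + 1 - -⌈r⌉).toNat : ℤ) : ℝ) = ((2 * ⌈r⌉ + 1 : ℤ) : ℝ) := by rw [e1]
      push_cast at e2
      exact e2
    push_cast
    rw [e, ← sq]
    have h3 := Int.ceil_lt_add_one r
    have h4 : (0 : ℝ) ≤ (⌈r⌉ : ℝ) := by exact_mod_cast hm
    exact pow_le_pow_left₀ (by linarith) (by linarith) 2
  calc (#(s.image fun x => re6Rd (f x)) : ℝ)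
      ≤ ((#((Icc (-⌈r⌉) ⌈r⌉) ×ˢ (Icc (-⌈r⌉) ⌈r⌉)) * #(s.image fun x => re6Rd (g x)) : ℕ) : ℝ) := by exact_mod_cast h1
    _ = (#((Icc (-⌈r⌉) ⌈r⌉) ×ˢ (Icc (-⌈r⌉) ⌈r⌉)) : ℝ) * #(s.image fun x => re6Rd (g x)) := by push_cast; ring
    _ ≤ (2 * r + 3) ^ 2 * #(s.image fun x => re6Rd (g x)) := mul_le_mul_of_nonneg_right h2 (Nat.cast_nonneg _)

theorem re6c_floor_smul_pos (t y : ℝ) (ht : 0 ≤ t) : ⌊t * y⌋ - ⌊t * (⌊y⌋ : ℝ)⌋ ∈ Icc (0 : ℤ) ⌈t⌉ := by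
  rw [mem_Icc]
  have hy1 := Int.floor_le y
  have hy2 := Int.lt_floor_add_one y
  have ht' := Int.le_ceil t
  have m1 : t * (⌊y⌋ : ℝ) ≤ t * y := mul_le_mul_of_nonneg_left hy1 ht
  have m2 : t * y ≤ t * ((⌊y⌋ : ℝ) + 1) := mul_le_mul_of_nonneg_left hy2.le ht
  constructor
  · have := Int.floor_le_floor m1
    linarith
  · have a1 := Int.floor_le (t * y)
    have a2 := Int.lt_floor_add_one (t * (⌊y⌋ : ℝ))
    have : ((⌊t * y⌋ - ⌊t * (⌊y⌋ : ℝ)⌋ : ℤ) : ℝ) < ((⌈t⌉ + 1 : ℤ) : ℝ) := by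
      push_cast
      nlinarith
    have := Int.cast_lt.1 this
    linarith

theorem re6c_floor_smul_neg (t y : ℝ) (ht : t ≤ 0) : ⌊t * y⌋ - ⌊t * (⌊y⌋ : ℝ)⌋ ∈ Icc (-⌈-t⌉) (0 : ℤ) := by
  rw [mem_Icc]
  have hy1 := Int.floor_le y
  have hy2 := Int.lt_floor_add_one y
  have ht' := Int.le_ceil (-t)
  have m1 : t * y ≤ t * (⌊y⌋ : ℝ) := mul_le_mul_of_nonpos_left hy1 ht
  have m2 : t * ((⌊y⌋ : ℝ) + 1) ≤ t * y := mul_le_mul_of_nonpos_left hy2.le ht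
  constructor
  · have a1 := Int.lt_floor_add_one (t * y)
    have a2 := Int.floor_le (t * (⌊y⌋ : ℝ))
    have : ((-⌈-t⌉ - 1 : ℤ) : ℝ) < ((⌊t * y⌋ - ⌊t * (⌊y⌋ : ℝ)⌋ : ℤ) : ℝ) := by
      push_cast
      nlinarith
    have := Int.cast_lt.1 this
    linarith
  · have := Int.floor_le_floor m1
    linarith

theorem re6c_card_Icc_le (t : ℝ) (ht : 0 ≤ t) : (#(Icc (0 : ℤ) ⌈t⌉) : ℝ) ≤ t + 2 ∧ (#(Icc (-⌈t⌉) (0 : ℤ)) : ℝ) ≤ t + 2 := by
  have hm : 0 ≤ ⌈t⌉ := Int.ceil_nonneg ht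
  have h3 := Int.ceil_lt_add_one t
  rw [Int.card_Icc, Int.card_Icc]
  have e : ∀ z : ℤ, z = ⌈t⌉ + 1 → (z.toNat : ℝ) = (⌈t⌉ : ℝ) + 1 := by
    intro z hz
    have e1 : (z.toNat : ℤ) = ⌈t⌉ + 1 := by
      rw [Int.toNat_of_nonneg (by linarith)]
      exact hz
    have e2 : ((z.toNat : ℤ) : ℝ) = ((⌈t⌉ + 1 : ℤ) : ℝ) := by rw [e1]
    push_cast at e2
    exact e2
  rw [e _ (by ring), e _ (by ring)]
  constructor <;> linarith

/-- general dilation: the cells of `t • g` are at most `(|t| + 2)²` times the cells of `g` -/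
theorem re6_card_smul {α : Type*} (s : Finset α) (g : α → ℝ × ℝ) (t : ℝ) :
    (#(s.image fun x => re6Rd (t • g x)) : ℝ) ≤ (|t| + 2) ^ 2 * #(s.image fun x => re6Rd (g x)) := by
  obtain ⟨D, hD, hc⟩ : ∃ D : Finset ℤ, (∀ y : ℝ, ⌊t * y⌋ - ⌊t * (⌊y⌋ : ℝ)⌋ ∈ D) ∧ (#D : ℝ) ≤ |t| + 2 := by
    rcases le_total 0 t with ht | ht
    · refine ⟨Icc (0 : ℤ) ⌈t⌉, fun y => re6c_floor_smul_pos t y ht, ?_⟩
      rw [abs_of_nonneg ht]
      exact (re6c_card_Icc_le t ht).1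
    · refine ⟨Icc (-⌈-t⌉) (0 : ℤ), fun y => re6c_floor_smul_neg t y ht, ?_⟩
      rw [abs_of_nonpos ht]
      exact (re6c_card_Icc_le (-t) (by linarith)).2
  have h1 := re6c_card_box s (fun x => re6Rd (t • g x)) (fun x => re6Rd (g x)) (fun c => re6Rd (t • re6Emb c)) (D ×ˢ D) (fun x _ => by
    rw [mem_product]
    exact ⟨hD (g x).1, hD (g x).2⟩)
  have h2 : (#(D ×ˢ D) : ℝ) ≤ (|t| + 2) ^ 2 := by
    rw [card_product]
    push_cast
    rw [← sq]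
    exact pow_le_pow_left₀ (Nat.cast_nonneg _) hc 2
  calc (#(s.image fun x => re6Rd (t • g x)) : ℝ)
      ≤ ((#(D ×ˢ D) * #(s.image fun x => re6Rd (g x)) : ℕ) : ℝ) := by exact_mod_cast h1
    _ = (#(D ×ˢ D) : ℝ) * #(s.image fun x => re6Rd (g x)) := by push_cast; ring
    _ ≤ (|t| + 2) ^ 2 * #(s.image fun x => re6Rd (g x)) := mul_le_mul_of_nonneg_right h2 (Nat.cast_nonneg _)

theorem re6_N_smul (t : ℝ) (U : Finset (ℝ × ℝ)) : (re6N (t • U) : ℝ) ≤ (|t| + 2) ^ 2 * re6N U := by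
  have h := re6_card_smul U id t
  unfold re6N
  have e : (t • U).image re6Rd = U.image fun x => re6Rd (t • id x) := by
    rw [← image_smul, image_image]
    rfl
  rw [e]
  exact h

theorem re6_N_neg (U : Finset (ℝ × ℝ)) : re6N (-U) ≤ 4 * re6N U := by
  have h := re6_N_sub_le {0} U
  have e1 : ({0} : Finset (ℝ × ℝ)) - U = -U := by
    rw [singleton_zero, zero_sub]
  have e2 : #(({0} : Finset (ℝ × ℝ)).image re6Rd - U.image re6Rd) ≤ re6N U := by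
    unfold re6N
    rw [image_singleton]
    calc #({re6Rd 0} - U.image re6Rd) ≤ #({re6Rd 0} : Finset (ℤ × ℤ)) * #(U.image re6Rd) := card_sub_le
      _ = #(U.image re6Rd) := by rw [card_singleton, one_mul]
  rw [e1] at h
  exact h.trans (Nat.mul_le_mul_left _ e2)

/-- a set is not larger than its difference set with a nonempty set, up to the factor `4` -/
theorem re6_N_le_sub (U V : Finset (ℝ × ℝ)) (hV : V.Nonempty) : re6N U ≤ 4 * re6N (U - V) := by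
  have h := re6_sub_le_N U V
  refine le_trans ?_ h
  unfold re6N
  exact card_le_card_sub_right (hV.image _)

/-! ## Section B -/

/-- (re:ruzsa-triangle) -/
theorem re6_N_triangle (U V W : Finset (ℝ × ℝ)) : re6N (U - W) * re6N V ≤ 64 * (re6N (U - V) * re6N (V - W)) := by
  have h1 := re6_N_sub_le U W
  have h2 := ruzsa_triangle_inequality_sub_sub_sub (U.image re6Rd) (V.image re6Rd) (W.image re6Rd)
  have h3 := re6_sub_le_N U V
  have h4 := re6_sub_le_N V W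
  have h5 : #(W.image re6Rd - V.image re6Rd) = #(V.image re6Rd - W.image re6Rd) := by
    rw [← card_neg, neg_sub]
  rw [h5] at h2
  have hV : re6N V = #(V.image re6Rd) := rfl
  calc re6N (U - W) * re6N V ≤ 4 * #(U.image re6Rd - W.image re6Rd) * #(V.image re6Rd) := by
        rw [hV]; exact Nat.mul_le_mul_right _ h1
    _ = 4 * (#(U.image re6Rd - W.image re6Rd) * #(V.image re6Rd)) := by ring
    _ ≤ 4 * (#(U.image re6Rd - V.image re6Rd) * #(V.image re6Rd - W.image re6Rd)) := Nat.mul_le_mul_left _ h2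
    _ ≤ 4 * ((4 * re6N (U - V)) * (4 * re6N (V - W))) := Nat.mul_le_mul_left _ (Nat.mul_le_mul h3 h4)
    _ = 64 * (re6N (U - V) * re6N (V - W)) := by ring

/-- Pluennecke in real form -/
theorem re6_pluennecke {G : Type*} [AddCommGroup G] [DecidableEq G] {P : Finset G} (hP : P.Nonempty) {K : ℝ}
    (hK : (#(P - P) : ℝ) ≤ K * #P) (m n : ℕ) : (#(m • P - n • P) : ℝ) ≤ K ^ (m + n) * #P := by
  have h := pluennecke_ruzsa_inequality_nsmul_sub_nsmul_sub hP P m n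
  have h' : ((#(m • P - n • P) : ℚ≥0) : ℝ) ≤ (((#(P - P) : ℚ≥0) / (#P : ℚ≥0)) ^ (m + n) * (#P : ℚ≥0) : ℚ≥0) := by
    exact_mod_cast h
  push_cast at h'
  have hpos : (0 : ℝ) < #P := by exact_mod_cast hP.card_pos
  refine h'.trans ?_
  gcongr
  rw [div_le_iff₀ hpos]
  exact hK

/-- covering of a sum of sets with small difference sets -/
theorem re6_cover_list {G : Type*} [AddCommGroup G] [DecidableEq G] {P : Finset G} (hP : P.Nonempty) {K : ℝ} (hK1 : 1 ≤ K) :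
    ∀ Ps : List (Finset G), (∀ X ∈ Ps, (#(X - P) : ℝ) ≤ K * #P) →
      ∃ F : Finset G, (#F : ℝ) ≤ K ^ Ps.length ∧ Ps.sum ⊆ F + (Ps.length • P - Ps.length • P) := by
  intro Ps
  induction Ps with
  | nil =>
    intro _
    refine ⟨{0}, by simp, ?_⟩
    rw [List.sum_nil, List.length_nil, zero_nsmul, sub_zero, add_zero]
    exact subset_of_eq singleton_zero.symm
  | cons X Ps ih =>
    intro h
    obtain ⟨F, hF, hsub⟩ := ih fun Y hY => h Y (List.mem_cons_of_mem _ hY)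
    have hX := h X List.mem_cons_self
    have hX' : (#(X + -P) : ℝ) ≤ K * #(-P) := by
      rw [← sub_eq_add_neg, card_neg]
      exact hX
    obtain ⟨F', -, hF', hsub'⟩ := ruzsa_covering_add hP.neg hX'
    rw [neg_sub_neg] at hsub'
    refine ⟨F' + F, ?_, ?_⟩
    · rw [List.length_cons, pow_succ']
      calc (#(F' + F) : ℝ) ≤ (#F' * #F : ℕ) := by exact_mod_cast card_add_le
        _ = (#F' : ℝ) * #F := by push_cast; ring
        _ ≤ K * K ^ Ps.length := by gcongr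
    · rw [List.sum_cons, List.length_cons, succ_nsmul', add_sub_add_comm]
      calc X + Ps.sum ⊆ (F' + (P - P)) + (F + (Ps.length • P - Ps.length • P)) := add_subset_add hsub' hsub
        _ = F' + F + (P - P + (Ps.length • P - Ps.length • P)) := add_add_add_comm _ _ _ _

/-- the abstract form of `re6_N_sum_cover` -/
theorem re6_card_sum_cover {G : Type*} [AddCommGroup G] [DecidableEq G] {P : Finset G} (hP : P.Nonempty) {K : ℝ} (hK1 : 1 ≤ K)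
    (hPP : (#(P - P) : ℝ) ≤ K * #P) (Ps : List (Finset G)) (h : ∀ X ∈ Ps, (#(X - P) : ℝ) ≤ K * #P) :
    (#(P + Ps.sum) : ℝ) ≤ K ^ (3 * Ps.length + 1) * #P := by
  obtain ⟨F, hF, hsub⟩ := re6_cover_list hP hK1 Ps h
  have h1 : P + Ps.sum ⊆ F + ((Ps.length + 1) • P - Ps.length • P) := by
    calc P + Ps.sum ⊆ P + (F + (Ps.length • P - Ps.length • P)) := add_subset_add_left hsub
      _ = F + ((Ps.length + 1) • P - Ps.length • P) := by
        rw [succ_nsmul', add_sub_assoc]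
        exact add_left_comm _ _ _
  have h2 := re6_pluennecke hP hPP (Ps.length + 1) Ps.length
  calc (#(P + Ps.sum) : ℝ) ≤ #(F + ((Ps.length + 1) • P - Ps.length • P)) := by exact_mod_cast card_le_card h1
    _ ≤ (#F * #((Ps.length + 1) • P - Ps.length • P) : ℕ) := by exact_mod_cast card_add_le
    _ = (#F : ℝ) * #((Ps.length + 1) • P - Ps.length • P) := by push_cast; ring
    _ ≤ K ^ Ps.length * (K ^ (Ps.length + 1 + Ps.length) * #P) := by gcongr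
    _ = K ^ (3 * Ps.length + 1) * #P := by
      rw [← mul_assoc, ← pow_add]
      congr 2
      ring

/-- the box `{0..n}²` -/
noncomputable def re6Box (n : ℕ) : Finset (ℤ × ℤ) := Finset.Icc (0 : ℤ) n ×ˢ Finset.Icc (0 : ℤ) n

theorem re6_box_eqns_cite (n : ℕ) : re6Box n = Finset.Icc (0 : ℤ) n ×ˢ Finset.Icc (0 : ℤ) n := by rw [re6Box]

theorem re6_card_box (n : ℕ) : #(re6Box n) = (n + 1) ^ 2 := by
  rw [re6Box, card_product, Int.card_Icc]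
  simp [sq]

theorem re6_Rd_add (x y : ℝ × ℝ) : re6Rd (x + y) ∈ ({re6Rd x + re6Rd y} : Finset (ℤ × ℤ)) + re6Box 1 := by
  rw [mem_add]
  refine ⟨_, mem_singleton_self _, re6Rd (x + y) - (re6Rd x + re6Rd y), ?_, by abel⟩
  have key : ∀ a b : ℝ, 0 ≤ ⌊a + b⌋ - (⌊a⌋ + ⌊b⌋) ∧ ⌊a + b⌋ - (⌊a⌋ + ⌊b⌋) ≤ 1 := by
    intro a b
    have h1 := Int.le_floor_add a b
    have h2 := Int.le_floor_add_floor a b
    constructor <;> omega
  rw [re6Box, mem_product, mem_Icc, mem_Icc]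
  simp only [re6Rd, Prod.fst_add, Prod.snd_add, Prod.fst_sub, Prod.snd_sub, Nat.cast_one]
  exact ⟨key _ _, key _ _⟩

theorem re6_box_add (m n : ℕ) : re6Box m + re6Box n ⊆ re6Box (m + n) := by
  intro x hx
  obtain ⟨a, ha, b, hb, rfl⟩ := mem_add.1 hx
  rw [re6Box, mem_product, mem_Icc, mem_Icc] at ha hb ⊢
  simp only [Prod.fst_add, Prod.snd_add]
  push_cast
  refine ⟨⟨?_, ?_⟩, ?_, ?_⟩ <;> omega

theorem re6_image_add (U V : Finset (ℝ × ℝ)) : (U + V).image re6Rd ⊆ U.image re6Rd + V.image re6Rd + re6Box 1 := by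
  intro z hz
  obtain ⟨x, hx, rfl⟩ := mem_image.1 hz
  obtain ⟨u, hu, v, hv, rfl⟩ := mem_add.1 hx
  obtain ⟨a, ha, b, hb, hab⟩ := mem_add.1 (re6_Rd_add u v)
  rw [mem_singleton] at ha
  rw [← hab, ha]
  exact add_mem_add (add_mem_add (mem_image_of_mem _ hu) (mem_image_of_mem _ hv)) hb

theorem re6_image_list_sum : ∀ Us : List (Finset (ℝ × ℝ)),
    Us.sum.image re6Rd ⊆ (Us.map fun U => U.image re6Rd).sum + re6Box Us.length := by
  intro Us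
  induction Us with
  | nil =>
    intro z hz
    simp only [List.sum_nil] at hz
    obtain ⟨x, hx, rfl⟩ := mem_image.1 hz
    rw [mem_zero] at hx
    subst hx
    simp [re6Rd, re6Box]
  | cons U Us ih =>
    rw [List.sum_cons, List.map_cons, List.sum_cons, List.length_cons]
    calc (U + Us.sum).image re6Rd ⊆ U.image re6Rd + Us.sum.image re6Rd + re6Box 1 := re6_image_add _ _
      _ ⊆ U.image re6Rd + ((Us.map fun U => U.image re6Rd).sum + re6Box Us.length) + re6Box 1 :=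
        add_subset_add_right (add_subset_add_left ih)
      _ = U.image re6Rd + (Us.map fun U => U.image re6Rd).sum + (re6Box Us.length + re6Box 1) := by
        rw [← add_assoc, add_assoc]
      _ ⊆ _ := add_subset_add_left (re6_box_add _ _)

/-- (re:covering) + (re:iterate) in the only form used: a sum of `E` and of `q` sets `U_l` with small `U_l - E` -/
theorem re6_N_sum_cover (q : ℕ) : ∃ C : ℕ, ∀ (K : ℝ) (E : Finset (ℝ × ℝ)) (Us : List (Finset (ℝ × ℝ))), 1 ≤ K → E.Nonempty → Us.length ≤ q →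
    (re6N (E - E) : ℝ) ≤ K * re6N E → (∀ U ∈ Us, (re6N (U - E) : ℝ) ≤ K * re6N E) →
    (re6N (E + Us.sum) : ℝ) ≤ C * K ^ C * re6N E := by
  refine ⟨(q + 2) ^ 2 * 4 ^ (3 * q + 1), ?_⟩
  intro K E Us hK hE hq hEE hU
  set P := E.image re6Rd with hPdef
  have hP : P.Nonempty := hE.image _
  have hNE : (re6N E : ℝ) = #P := rfl
  have hK4 : (1 : ℝ) ≤ 4 * K := by linarith
  have hPP : (#(P - P) : ℝ) ≤ 4 * K * #P := by
    have := re6_sub_le_N E E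
    calc (#(P - P) : ℝ) ≤ (4 * re6N (E - E) : ℕ) := by exact_mod_cast this
      _ = 4 * (re6N (E - E) : ℝ) := by push_cast; ring
      _ ≤ 4 * (K * re6N E) := by gcongr
      _ = 4 * K * #P := by rw [hNE]; ring
  have hPs : ∀ X ∈ Us.map fun U => U.image re6Rd, (#(X - P) : ℝ) ≤ 4 * K * #P := by
    intro X hX
    obtain ⟨U, hUm, rfl⟩ := List.mem_map.1 hX
    have := re6_sub_le_N U E
    calc (#(U.image re6Rd - P) : ℝ) ≤ (4 * re6N (U - E) : ℕ) := by exact_mod_cast this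
      _ = 4 * (re6N (U - E) : ℝ) := by push_cast; ring
      _ ≤ 4 * (K * re6N E) := by gcongr; exact hU U hUm
      _ = 4 * K * #P := by rw [hNE]; ring
  have h1 := re6_card_sum_cover hP hK4 hPP _ hPs
  rw [List.length_map] at h1
  have h2 : (E + Us.sum).image re6Rd ⊆ (P + (Us.map fun U => U.image re6Rd).sum) + re6Box (Us.length + 1) := by
    calc (E + Us.sum).image re6Rd ⊆ P + Us.sum.image re6Rd + re6Box 1 := re6_image_add _ _
      _ ⊆ P + ((Us.map fun U => U.image re6Rd).sum + re6Box Us.length) + re6Box 1 :=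
        add_subset_add_right (add_subset_add_left (re6_image_list_sum Us))
      _ = P + (Us.map fun U => U.image re6Rd).sum + (re6Box Us.length + re6Box 1) := by
        rw [← add_assoc, add_assoc]
      _ ⊆ _ := add_subset_add_left (re6_box_add _ _)
  have hq' : ((Us.length : ℝ) + 1 + 1) ≤ (q : ℝ) + 2 := by
    have : (Us.length : ℝ) ≤ q := by exact_mod_cast hq
    linarith
  have hC : 3 * q + 1 ≤ (q + 2) ^ 2 * 4 ^ (3 * q + 1) := by
    have h4 : 3 * q + 1 < 4 ^ (3 * q + 1) := (Nat.lt_pow_self (by norm_num))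
    have h5 : 1 ≤ (q + 2) ^ 2 := Nat.one_le_pow _ _ (by omega)
    nlinarith
  have hP0 : (0 : ℝ) ≤ #P := Nat.cast_nonneg _
  calc (re6N (E + Us.sum) : ℝ) = #((E + Us.sum).image re6Rd) := rfl
    _ ≤ #((P + (Us.map fun U => U.image re6Rd).sum) + re6Box (Us.length + 1)) := by exact_mod_cast card_le_card h2
    _ ≤ (#(P + (Us.map fun U => U.image re6Rd).sum) * #(re6Box (Us.length + 1)) : ℕ) := by exact_mod_cast card_add_le
    _ = (#(P + (Us.map fun U => U.image re6Rd).sum) : ℝ) * ((Us.length : ℝ) + 1 + 1) ^ 2 := by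
      rw [re6_card_box]; push_cast; ring
    _ ≤ ((4 * K) ^ (3 * Us.length + 1) * #P) * ((q : ℝ) + 2) ^ 2 := by gcongr
    _ ≤ ((4 * K) ^ (3 * q + 1) * #P) * ((q : ℝ) + 2) ^ 2 := by
      gcongr
    _ = (((q : ℝ) + 2) ^ 2 * 4 ^ (3 * q + 1)) * K ^ (3 * q + 1) * #P := by rw [mul_pow]; ring
    _ ≤ (((q : ℝ) + 2) ^ 2 * 4 ^ (3 * q + 1)) * K ^ ((q + 2) ^ 2 * 4 ^ (3 * q + 1)) * #P := by
      gcongr
    _ = (((q + 2) ^ 2 * 4 ^ (3 * q + 1) : ℕ) : ℝ) * K ^ ((q + 2) ^ 2 * 4 ^ (3 * q + 1)) * re6N E := by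
      rw [hNE]; push_cast; ring

end Claimed.Agent.R252

end PkRe6Cell

section PkRe6Chain

/-!
# Row 252, unit Re6.  CONTRACT `Chain`: the Ruzsa chain of L re:common-sets (06a l.216-262).   Architect helper183.  Leaf L-252-RE6-CHAIN.

`A0, B0 = A_*, B_*` (the sets of `κ₀`), `A1, B1 = A_κ, B_κ`, `t = κ / κ₀`, `E = re6R A0`, `F = (-κ₀) • re6R B0`; note `t • F = (-κ) • re6R B0`.
PROOF.  Only `re6_N_triangle`, `re6_N_smul`, `re6_N_neg`, `re6_N_mono`, `re6_N_R`.   All sets have between `L / K'` and `K' L` cells (`re6N (κ • re6R B) ≥ #B / (1/|κ| + 2)²`).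
1. self differences: `N(A1 - A1) N(-κB1) ≤ 64 N(A1 + κB1) N(-κB1 - A1)`, same for `κB1 - κB1`, and for the index `0`.
2. through `A0 ∩ A1`: `N(A1 - A0) N(A0 ∩ A1) ≤ 64 N(A1 - A1) N(A0 - A0)`;  through `κ(B0 ∩ B1)`: `N(κB1 - κB0) ≲ N(κB1 - κB1) N(κB0 - κB0)`, `κB0 - κB0 = t (κ₀B0 - κ₀B0)`.
3. `N(A0 + κB1) N(A1) ≤ 64 N(A0 - A1) N(A1 + κB1)`,  `N(A0 + κB0) N(κB1) ≤ 64 N(A0 + κB1) N(-κB1 + κB0)`: this is `N(E - tF)`.
4. `N(E - tE) N(tF) ≤ 64 N(E - tF) N(tF - tE)`, `tF - tE = t (F - E)`.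
-/

set_option autoImplicit false

namespace Claimed.Agent.R252

open Finset
open scoped Pointwise

/-- one Ruzsa step with polynomial constants -/
theorem re6_chain_step (m a b : ℕ) : ∃ c : ℕ, ∀ (K L x y p q : ℝ), 1 ≤ K → 0 < L → 0 ≤ x → 0 ≤ q →
    x * y ≤ 64 * (p * q) → L ≤ m * K ^ m * y → p ≤ a * K ^ a * L → q ≤ b * K ^ b * L → x ≤ c * K ^ c * L := by
  refine ⟨64 * m * a * b + m + a + b, fun K L x y p q hK hL hx hq h hy hp hq' => ?_⟩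
  have hK0 : 0 < K := by linarith
  have h1 : x * L ≤ (64 * m * a * b * K ^ (m + a + b) * L) * L := by
    calc x * L ≤ x * (m * K ^ m * y) := mul_le_mul_of_nonneg_left hy hx
      _ = m * K ^ m * (x * y) := by ring
      _ ≤ m * K ^ m * (64 * (p * q)) := mul_le_mul_of_nonneg_left h (by positivity)
      _ ≤ m * K ^ m * (64 * ((a * K ^ a * L) * (b * K ^ b * L))) := by
          refine mul_le_mul_of_nonneg_left (mul_le_mul_of_nonneg_left ?_ (by norm_num)) (by positivity)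
          exact mul_le_mul hp hq' hq (by positivity)
      _ = (64 * m * a * b * K ^ (m + a + b) * L) * L := by rw [pow_add, pow_add]; ring
  have h2 : x ≤ 64 * m * a * b * K ^ (m + a + b) * L := le_of_mul_le_mul_right h1 hL
  refine h2.trans ?_
  refine mul_le_mul_of_nonneg_right ?_ hL.le
  have h3 : K ^ (m + a + b) ≤ K ^ (64 * m * a * b + m + a + b) := pow_le_pow_right₀ hK (by omega)
  have h4 : (64 * m * a * b : ℝ) ≤ ((64 * m * a * b + m + a + b : ℕ) : ℝ) := by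
    push_cast
    have : (0 : ℝ) ≤ (m : ℝ) + a + b := by positivity
    linarith
  exact mul_le_mul h4 h3 (by positivity) (by positivity)

theorem re6_chain_scale (n c : ℕ) (hn : 1 ≤ n) (K L x x' : ℝ) (hK : 1 ≤ K) (hL : 0 < L) (h : x ≤ n * x') (h' : x' ≤ c * K ^ c * L) :
    x ≤ ((n * c : ℕ) : ℝ) * K ^ (n * c) * L := by
  have hK0 : 0 < K := by linarith
  have h3 : K ^ c ≤ K ^ (n * c) := pow_le_pow_right₀ hK (Nat.le_mul_of_pos_left c hn)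
  calc x ≤ n * x' := h
    _ ≤ n * (c * K ^ c * L) := mul_le_mul_of_nonneg_left h' (by positivity)
    _ = ((n * c : ℕ) : ℝ) * K ^ c * L := by push_cast; ring
    _ ≤ ((n * c : ℕ) : ℝ) * K ^ (n * c) * L := by gcongr

theorem re6_chain_mono (c d : ℕ) (hcd : c ≤ d) (K L x : ℝ) (hK : 1 ≤ K) (hL : 0 < L) (h : x ≤ c * K ^ c * L) : x ≤ d * K ^ d * L := by
  have hK0 : 0 < K := by linarith
  have h3 : K ^ c ≤ K ^ d := pow_le_pow_right₀ hK hcd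
  have h4 : (c : ℝ) ≤ d := by exact_mod_cast hcd
  refine h.trans ?_
  gcongr

theorem re6_chain_low (K L s : ℝ) (hK : 1 ≤ K) (hs : 1 / (2 * K) ≤ |s|) (B : Finset (ℤ × ℤ)) (hB : L ≤ K * #B) :
    L ≤ ((16 : ℕ) : ℝ) * K ^ 16 * re6N (s • re6R B) := by
  have hK0 : 0 < K := by linarith
  have hs0 : 0 < |s| := lt_of_lt_of_le (by positivity) hs
  have hsne : s ≠ 0 := abs_pos.1 hs0
  have h := re6_N_smul s⁻¹ (s • re6R B)
  rw [inv_smul_smul₀ hsne, re6_N_R, abs_inv] at h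
  have h1 : |s|⁻¹ ≤ 2 * K := by
    rw [inv_le_comm₀ hs0 (by positivity)]
    simpa [one_div] using hs
  have hN : (0 : ℝ) ≤ re6N (s • re6R B) := Nat.cast_nonneg _
  have h2 : (|s|⁻¹ + 2) ^ 2 ≤ 16 * K ^ 2 := by
    have h3 : |s|⁻¹ + 2 ≤ 4 * K := by linarith
    have h4 : 0 ≤ |s|⁻¹ + 2 := by positivity
    calc (|s|⁻¹ + 2) ^ 2 ≤ (4 * K) ^ 2 := pow_le_pow_left₀ h4 h3 2
      _ = 16 * K ^ 2 := by ring
  have h5 : K ^ 3 ≤ K ^ 16 := pow_le_pow_right₀ hK (by norm_num)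
  calc L ≤ K * #B := hB
    _ ≤ K * ((|s|⁻¹ + 2) ^ 2 * re6N (s • re6R B)) := mul_le_mul_of_nonneg_left h hK0.le
    _ ≤ K * (16 * K ^ 2 * re6N (s • re6R B)) := by gcongr
    _ = 16 * K ^ 3 * re6N (s • re6R B) := by ring
    _ ≤ ((16 : ℕ) : ℝ) * K ^ 16 * re6N (s • re6R B) := by
        push_cast
        gcongr

theorem re6_chain_smul_sub (t : ℝ) (X Y : Finset (ℝ × ℝ)) : t • X - t • Y = t • (X - Y) := by
  rw [sub_eq_add_neg, sub_eq_add_neg, smul_add, Finset.smul_finset_neg]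

theorem re6_chain_N_smul2 (t : ℝ) (h1 : 1 / 2 ≤ t) (h2 : t ≤ 2) (X : Finset (ℝ × ℝ)) : (re6N (t • X) : ℝ) ≤ ((16 : ℕ) : ℝ) * re6N X := by
  have h := re6_N_smul t X
  have ht : |t| = t := abs_of_nonneg (by linarith)
  rw [ht] at h
  have hN : (0 : ℝ) ≤ re6N X := Nat.cast_nonneg _
  have : (t + 2) ^ 2 ≤ 16 := by nlinarith
  push_cast
  nlinarith

theorem re6_chain_N_swap (X Y : Finset (ℝ × ℝ)) : (re6N (X - Y) : ℝ) ≤ ((4 : ℕ) : ℝ) * re6N (Y - X) := by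
  have h := re6_N_neg (Y - X)
  rw [neg_sub] at h
  exact_mod_cast h

theorem re6_chain_tri (U V W : Finset (ℝ × ℝ)) : (re6N (U - W) : ℝ) * re6N V ≤ 64 * ((re6N (U - V) : ℝ) * re6N (V - W)) := by
  exact_mod_cast re6_N_triangle U V W

theorem re6_chain : ∃ C : ℕ, ∀ (L K κ₀ κ : ℝ) (A0 B0 A1 B1 : Finset (ℤ × ℤ)), 1 ≤ L → 1 ≤ K →
    1 / K ≤ |κ₀| → |κ₀| ≤ K → 1 / 2 ≤ κ / κ₀ → κ / κ₀ ≤ 2 →
    (#A0 : ℝ) ≤ K * L → (#B0 : ℝ) ≤ K * L → (#A1 : ℝ) ≤ K * L → (#B1 : ℝ) ≤ K * L →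
    (re6N (re6R A0 + κ₀ • re6R B0) : ℝ) ≤ K * L → (re6N (re6R A1 + κ • re6R B1) : ℝ) ≤ K * L →
    L ≤ K * #(A1 ∩ A0) → L ≤ K * #(B1 ∩ B0) →
    (re6N (re6R A0 - re6R A0) : ℝ) ≤ C * K ^ C * L ∧
    (re6N (re6R A0 - (-κ₀) • re6R B0) : ℝ) ≤ C * K ^ C * L ∧
    (re6N (re6R A0 - (κ / κ₀) • re6R A0) : ℝ) ≤ C * K ^ C * L := by
  obtain ⟨c1, s1⟩ := re6_chain_step 16 1 4
  obtain ⟨c2, s2⟩ := re6_chain_step 1 4 1
  obtain ⟨c5, s5⟩ := re6_chain_step 1 c1 c1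
  obtain ⟨c6, s6⟩ := re6_chain_step 16 c2 (16 * c2)
  obtain ⟨c7, s7⟩ := re6_chain_step 1 (4 * c5) 1
  obtain ⟨c8, s8⟩ := re6_chain_step 16 c7 c6
  obtain ⟨c9, s9⟩ := re6_chain_step 16 c8 (16 * 4)
  refine ⟨c1 + c9 + 1, fun L K κ₀ κ A0 B0 A1 B1 hL hK hκlo hκhi ht1 ht2 hA0 hB0 hA1 hB1 hS0 hS1 hAA hBB => ?_⟩
  have hL0 : 0 < L := by linarith
  have hK0 : 0 < K := by linarith
  have hκ₀pos : 0 < |κ₀| := lt_of_lt_of_le (by positivity) hκlo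
  have hκ₀ne : κ₀ ≠ 0 := abs_pos.1 hκ₀pos
  set t := κ / κ₀ with ht
  have hκt : κ = t * κ₀ := by rw [ht]; field_simp
  have hlo0 : 1 / (2 * K) ≤ |(-κ₀)| := by
    rw [abs_neg]
    refine le_trans ?_ hκlo
    apply one_div_le_one_div_of_le hK0
    linarith
  have hlo1 : 1 / (2 * K) ≤ |(-κ)| := by
    rw [abs_neg, hκt, abs_mul, abs_of_nonneg (by linarith : (0 : ℝ) ≤ t)]
    calc 1 / (2 * K) = 1 / 2 * (1 / K) := by field_simp
      _ ≤ t * |κ₀| := mul_le_mul ht1 hκlo (by positivity) (by linarith)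
  -- the sets
  set a0 := re6R A0 with ha0
  set a1 := re6R A1 with ha1
  set F := (-κ₀) • re6R B0 with hF
  set G1 := (-κ) • re6R B1 with hG1
  set G0 := (-κ) • re6R B0 with hG0
  set a01 := re6R (A1 ∩ A0) with ha01
  set G01 := (-κ) • re6R (B1 ∩ B0) with hG01
  have eF : a0 - F = a0 + κ₀ • re6R B0 := by rw [hF, Finset.neg_smul_finset, sub_neg_eq_add]
  have eG1 : a1 - G1 = a1 + κ • re6R B1 := by rw [hG1, Finset.neg_smul_finset, sub_neg_eq_add]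
  have eG0 : G0 = t • F := by
    rw [hG0, hF, smul_smul, hκt]
    congr 1
    ring
  have sub1 : a01 ⊆ a1 := Finset.image_subset_image Finset.inter_subset_left
  have sub0 : a01 ⊆ a0 := Finset.image_subset_image Finset.inter_subset_right
  have subG1 : G01 ⊆ G1 := Finset.smul_finset_subset_smul_finset (Finset.image_subset_image Finset.inter_subset_left)
  have subG0 : G01 ⊆ G0 := Finset.smul_finset_subset_smul_finset (Finset.image_subset_image Finset.inter_subset_right)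
  -- cardinalities from below
  have cA0 : (#(A1 ∩ A0) : ℝ) ≤ #A0 := by exact_mod_cast Finset.card_le_card Finset.inter_subset_right
  have cA1 : (#(A1 ∩ A0) : ℝ) ≤ #A1 := by exact_mod_cast Finset.card_le_card Finset.inter_subset_left
  have cB0 : (#(B1 ∩ B0) : ℝ) ≤ #B0 := by exact_mod_cast Finset.card_le_card Finset.inter_subset_right
  have cB1 : (#(B1 ∩ B0) : ℝ) ≤ #B1 := by exact_mod_cast Finset.card_le_card Finset.inter_subset_left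
  have lowa : ∀ A : Finset (ℤ × ℤ), L ≤ K * #A → L ≤ ((1 : ℕ) : ℝ) * K ^ 1 * re6N (re6R A) := by
    intro A h
    rw [re6_N_R]
    simpa using h
  have la0 : L ≤ ((1 : ℕ) : ℝ) * K ^ 1 * re6N a0 := lowa A0 (hAA.trans (mul_le_mul_of_nonneg_left cA0 hK0.le))
  have la1 : L ≤ ((1 : ℕ) : ℝ) * K ^ 1 * re6N a1 := lowa A1 (hAA.trans (mul_le_mul_of_nonneg_left cA1 hK0.le))
  have la01 : L ≤ ((1 : ℕ) : ℝ) * K ^ 1 * re6N a01 := lowa _ hAA
  have lF : L ≤ ((16 : ℕ) : ℝ) * K ^ 16 * re6N F :=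
    re6_chain_low K L _ hK hlo0 B0 (hBB.trans (mul_le_mul_of_nonneg_left cB0 hK0.le))
  have lG1 : L ≤ ((16 : ℕ) : ℝ) * K ^ 16 * re6N G1 :=
    re6_chain_low K L _ hK hlo1 B1 (hBB.trans (mul_le_mul_of_nonneg_left cB1 hK0.le))
  have lG0 : L ≤ ((16 : ℕ) : ℝ) * K ^ 16 * re6N G0 :=
    re6_chain_low K L _ hK hlo1 B0 (hBB.trans (mul_le_mul_of_nonneg_left cB0 hK0.le))
  have lG01 : L ≤ ((16 : ℕ) : ℝ) * K ^ 16 * re6N G01 := re6_chain_low K L _ hK hlo1 _ hBB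
  -- the two sum sets
  have u0 : (re6N (a0 - F) : ℝ) ≤ ((1 : ℕ) : ℝ) * K ^ 1 * L := by rw [eF]; simpa using hS0
  have u1 : (re6N (a1 - G1) : ℝ) ≤ ((1 : ℕ) : ℝ) * K ^ 1 * L := by rw [eG1]; simpa using hS1
  have v0 : (re6N (F - a0) : ℝ) ≤ ((4 : ℕ) : ℝ) * K ^ 4 * L := by
    have := re6_chain_scale 4 1 (by norm_num) K L _ _ hK hL0 (re6_chain_N_swap F a0) u0
    simpa using this
  have v1 : (re6N (G1 - a1) : ℝ) ≤ ((4 : ℕ) : ℝ) * K ^ 4 * L := by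
    have := re6_chain_scale 4 1 (by norm_num) K L _ _ hK hL0 (re6_chain_N_swap G1 a1) u1
    simpa using this
  have nn : ∀ X : Finset (ℝ × ℝ), (0 : ℝ) ≤ re6N X := fun X => Nat.cast_nonneg _
  -- 1. self differences
  have d_a0 : (re6N (a0 - a0) : ℝ) ≤ c1 * K ^ c1 * L :=
    s1 K L _ _ _ _ hK hL0 (nn _) (nn _) (re6_chain_tri a0 F a0) lF u0 v0
  have d_a1 : (re6N (a1 - a1) : ℝ) ≤ c1 * K ^ c1 * L :=
    s1 K L _ _ _ _ hK hL0 (nn _) (nn _) (re6_chain_tri a1 G1 a1) lG1 u1 v1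
  have d_F : (re6N (F - F) : ℝ) ≤ c2 * K ^ c2 * L :=
    s2 K L _ _ _ _ hK hL0 (nn _) (nn _) (re6_chain_tri F a0 F) la0 v0 u0
  have d_G1 : (re6N (G1 - G1) : ℝ) ≤ c2 * K ^ c2 * L :=
    s2 K L _ _ _ _ hK hL0 (nn _) (nn _) (re6_chain_tri G1 a1 G1) la1 v1 u1
  have d_G0 : (re6N (G0 - G0) : ℝ) ≤ ((16 * c2 : ℕ) : ℝ) * K ^ (16 * c2) * L := by
    refine re6_chain_scale 16 c2 (by norm_num) K L _ _ hK hL0 ?_ d_F
    rw [eG0, re6_chain_smul_sub]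
    exact re6_chain_N_smul2 t ht1 ht2 _
  -- 2. through the intersections
  have mono : ∀ {X Y : Finset (ℝ × ℝ)}, X ⊆ Y → (re6N X : ℝ) ≤ re6N Y := fun h => by exact_mod_cast re6_N_mono h
  have e_a : (re6N (a1 - a0) : ℝ) ≤ c5 * K ^ c5 * L :=
    s5 K L _ _ _ _ hK hL0 (nn _) (nn _) (re6_chain_tri a1 a01 a0) la01
      ((mono (Finset.sub_subset_sub_left sub1)).trans d_a1) ((mono (Finset.sub_subset_sub_right sub0)).trans d_a0)
  have e_G : (re6N (G1 - G0) : ℝ) ≤ c6 * K ^ c6 * L :=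
    s6 K L _ _ _ _ hK hL0 (nn _) (nn _) (re6_chain_tri G1 G01 G0) lG01
      ((mono (Finset.sub_subset_sub_left subG1)).trans d_G1) ((mono (Finset.sub_subset_sub_right subG0)).trans d_G0)
  -- 3.
  have e_a' : (re6N (a0 - a1) : ℝ) ≤ ((4 * c5 : ℕ) : ℝ) * K ^ (4 * c5) * L :=
    re6_chain_scale 4 c5 (by norm_num) K L _ _ hK hL0 (re6_chain_N_swap a0 a1) e_a
  have f1 : (re6N (a0 - G1) : ℝ) ≤ c7 * K ^ c7 * L :=
    s7 K L _ _ _ _ hK hL0 (nn _) (nn _) (re6_chain_tri a0 a1 G1) la1 e_a' u1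
  have f2 : (re6N (a0 - G0) : ℝ) ≤ c8 * K ^ c8 * L :=
    s8 K L _ _ _ _ hK hL0 (nn _) (nn _) (re6_chain_tri a0 G1 G0) lG1 f1 e_G
  -- 4.
  have g1 : (re6N (G0 - t • a0) : ℝ) ≤ ((16 * 4 : ℕ) : ℝ) * K ^ (16 * 4) * L := by
    refine re6_chain_scale 16 4 (by norm_num) K L _ _ hK hL0 ?_ v0
    rw [eG0, re6_chain_smul_sub]
    exact re6_chain_N_smul2 t ht1 ht2 _
  have g2 : (re6N (a0 - t • a0) : ℝ) ≤ c9 * K ^ c9 * L :=
    s9 K L _ _ _ _ hK hL0 (nn _) (nn _) (re6_chain_tri a0 G0 (t • a0)) lG0 f2 g1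
  exact ⟨re6_chain_mono c1 _ (by omega) K L _ hK hL0 d_a0, re6_chain_mono 1 _ (by omega) K L _ hK hL0 u0,
    re6_chain_mono c9 _ (by omega) K L _ hK hL0 g2⟩

end Claimed.Agent.R252

end PkRe6Chain

section PkRe6Clos

/-!
# Row 252, unit Re6.  CONTRACT `Clos`: scalar closure (re:scalar-support), 06a l.263-312, only positive sums of products, coefficients `(1, c)`.
Architect helper183.  Leaf L-252-RE6-CLOS.

PROOF.  `p_j = t_1 ⋯ t_j ∈ [2^-j, 2^j]`.   Induction on `j ≤ H`:  `N(E - p_j E) N(p_(j-1) E) ≤ 64 N(E - p_(j-1) E) N(p_(j-1)(E - t_j E))`,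
`N(p X) ≤ (|p|+2)² N(X)`, `N(E) ≤ (1/|p| + 2)² N(p E)`.   Then `N(E - p_j F) N(p_j E) ≤ 64 N(E - p_j E) N(p_j (E - F))`.
For `c = α_1 + ⋯ + α_q` (`q ≤ H`, `α_l` products): `c • F ⊆ α_1 • F + ⋯ + α_q • F` (same point of `F` in every summand), `N(α_l F - E) ≤ 4 N(E - α_l F)` (`re6_N_neg`),
and `re6_N_sum_cover H` with `U_l = α_l • F`.
-/

set_option autoImplicit false

namespace Claimed.Agent.R252

open Finset
open scoped Pointwise

/-- one factor `t ∈ [1/2, 2]` -/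
theorem re6_clos_step {K : ℝ} {E X : Finset (ℝ × ℝ)} (hE : E.Nonempty) {t : ℝ} (ht : 1 / 2 ≤ t ∧ t ≤ 2)
    (hK : (re6N (E - t • E) : ℝ) ≤ K * re6N E) :
    (re6N (E - t • X) : ℝ) ≤ 2 ^ 14 * K * re6N (E - X) := by
  have ht0 : 0 < t := by linarith [ht.1]
  have hn : (0 : ℝ) < re6N E := by exact_mod_cast re6_N_pos hE
  have h1 : (re6N (E - t • X) : ℝ) * re6N (t • E) ≤ 64 * ((re6N (E - t • E) : ℝ) * re6N (t • E - t • X)) := by
    exact_mod_cast re6_N_triangle E (t • E) (t • X)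
  have h2 : (re6N (t • E - t • X) : ℝ) ≤ 16 * re6N (E - X) := by
    have hsub : t • E - t • X ⊆ t • (E - X) := by
      intro z hz
      obtain ⟨u, hu, v, hv, rfl⟩ := mem_sub.1 hz
      obtain ⟨u', hu', rfl⟩ := mem_smul_finset.1 hu
      obtain ⟨v', hv', rfl⟩ := mem_smul_finset.1 hv
      rw [← smul_sub]
      exact smul_mem_smul_finset (sub_mem_sub hu' hv')
    have h3 : (re6N (t • E - t • X) : ℝ) ≤ re6N (t • (E - X)) := by exact_mod_cast re6_N_mono hsub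
    have h4 := re6_N_smul t (E - X)
    have h5 : (|t| + 2) ^ 2 ≤ 16 := by
      rw [abs_of_pos ht0]
      nlinarith [ht.2]
    calc (re6N (t • E - t • X) : ℝ) ≤ re6N (t • (E - X)) := h3
      _ ≤ (|t| + 2) ^ 2 * re6N (E - X) := h4
      _ ≤ 16 * re6N (E - X) := by gcongr
  have h6 : (re6N E : ℝ) ≤ 16 * re6N (t • E) := by
    have h4 := re6_N_smul t⁻¹ (t • E)
    rw [inv_smul_smul₀ ht0.ne'] at h4
    have h5 : (|t⁻¹| + 2) ^ 2 ≤ 16 := by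
      have : t⁻¹ ≤ 2 := by
        rw [inv_le_comm₀ ht0 (by norm_num)]
        linarith [ht.1]
      have h0 : 0 < t⁻¹ := inv_pos.2 ht0
      rw [abs_of_pos h0]
      nlinarith
    exact h4.trans (by gcongr)
  have hx0 : (0 : ℝ) ≤ re6N (E - t • X) := Nat.cast_nonneg _
  have hz0 : (0 : ℝ) ≤ re6N (E - X) := Nat.cast_nonneg _
  have hK0 : 0 ≤ K * re6N E := le_trans (Nat.cast_nonneg _) hK
  have h7 : (re6N (E - t • X) : ℝ) * re6N E ≤ (2 ^ 14 * K * re6N (E - X)) * re6N E := by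
    calc (re6N (E - t • X) : ℝ) * re6N E ≤ re6N (E - t • X) * (16 * re6N (t • E)) := by gcongr
      _ = 16 * ((re6N (E - t • X) : ℝ) * re6N (t • E)) := by ring
      _ ≤ 16 * (64 * ((re6N (E - t • E) : ℝ) * re6N (t • E - t • X))) := by gcongr
      _ ≤ 16 * (64 * ((K * re6N E) * (16 * re6N (E - X)))) := by gcongr
      _ = _ := by ring
  exact le_of_mul_le_mul_right h7 hn

/-- products -/
theorem re6_clos_prod {K : ℝ} {E F : Finset (ℝ × ℝ)} {R : Set ℝ} (hK1 : 1 ≤ K) (hE : E.Nonempty)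
    (hR : ∀ t ∈ R, 1 / 2 ≤ t ∧ t ≤ 2) (hF : (re6N (E - F) : ℝ) ≤ K * re6N E)
    (hRE : ∀ t ∈ R, (re6N (E - t • E) : ℝ) ≤ K * re6N E) :
    ∀ m : List ℝ, (∀ t ∈ m, t ∈ R) → (re6N (E - m.prod • F) : ℝ) ≤ (2 ^ 14 * K) ^ m.length * (K * re6N E) := by
  intro m
  induction m with
  | nil =>
    intro _
    simpa using hF
  | cons t m ih =>
    intro h
    have ht := h t List.mem_cons_self
    have ih' := ih fun s hs => h s (List.mem_cons_of_mem _ hs)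
    rw [List.prod_cons, mul_smul, List.length_cons, pow_succ']
    calc (re6N (E - t • m.prod • F) : ℝ) ≤ 2 ^ 14 * K * re6N (E - m.prod • F) := re6_clos_step hE (hR t ht) (hRE t ht)
      _ ≤ 2 ^ 14 * K * ((2 ^ 14 * K) ^ m.length * (K * re6N E)) := by gcongr
      _ = _ := by ring

theorem re6_smul_mem_list_sum (F : Finset (ℝ × ℝ)) {x : ℝ × ℝ} (hx : x ∈ F) :
    ∀ l : List (List ℝ), (l.map List.prod).sum • x ∈ (l.map fun m => m.prod • F).sum := by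
  intro l
  induction l with
  | nil => simp
  | cons m l ih =>
    rw [List.map_cons, List.sum_cons, List.map_cons, List.sum_cons, add_smul]
    exact add_mem_add (smul_mem_smul_finset hx) ih

theorem re6_clos (H : ℕ) : ∃ C : ℕ, ∀ (K : ℝ) (E F : Finset (ℝ × ℝ)) (R : Set ℝ), 1 ≤ K → E.Nonempty →
    (∀ t ∈ R, 1 / 2 ≤ t ∧ t ≤ 2) → (re6N (E - E) : ℝ) ≤ K * re6N E → (re6N (E - F) : ℝ) ≤ K * re6N E →
    (∀ t ∈ R, (re6N (E - t • E) : ℝ) ≤ K * re6N E) →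
    ∀ c ∈ re6Gen H R, (re6N (E + c • F) : ℝ) ≤ C * K ^ C * re6N E := by
  obtain ⟨C', hC'⟩ := re6_N_sum_cover H
  refine ⟨C' * (4 * 2 ^ (14 * H)) ^ C' + (H + 1) * C', ?_⟩
  intro K E F R hK hE hR hEE hEF hRE c hc
  obtain ⟨l, hl, hlm, rfl⟩ := hc
  have hK0 : 0 < K := by linarith
  have hn0 : (0 : ℝ) ≤ re6N E := Nat.cast_nonneg _
  obtain ⟨K', hK'⟩ : ∃ K' : ℝ, K' = 4 * (2 ^ 14 * K) ^ H * K := ⟨_, rfl⟩
  have hb1 : (1 : ℝ) ≤ 2 ^ 14 * K := by nlinarith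
  have hbH : (1 : ℝ) ≤ (2 ^ 14 * K) ^ H := one_le_pow₀ hb1
  have hKK' : K ≤ K' := by
    rw [hK']
    nlinarith
  have hK'1 : 1 ≤ K' := hK.trans hKK'
  have hU : ∀ U ∈ l.map fun m => m.prod • F, (re6N (U - E) : ℝ) ≤ K' * re6N E := by
    intro U hU
    obtain ⟨m, hm, rfl⟩ := List.mem_map.1 hU
    have h1 := re6_clos_prod hK hE hR hEF hRE m (hlm m hm).2
    have h2 : (re6N (m.prod • F - E) : ℝ) ≤ 4 * re6N (E - m.prod • F) := by
      have := re6_N_neg (E - m.prod • F)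
      rw [neg_sub] at this
      exact_mod_cast this
    have h3 : (2 ^ 14 * K) ^ m.length ≤ (2 ^ 14 * K) ^ H := pow_le_pow_right₀ hb1 (hlm m hm).1
    calc (re6N (m.prod • F - E) : ℝ) ≤ 4 * re6N (E - m.prod • F) := h2
      _ ≤ 4 * ((2 ^ 14 * K) ^ m.length * (K * re6N E)) := by gcongr
      _ ≤ 4 * ((2 ^ 14 * K) ^ H * (K * re6N E)) := by gcongr
      _ = K' * re6N E := by rw [hK']; ring
  have h1 := hC' K' E (l.map fun m => m.prod • F) hK'1 hE (by rw [List.length_map]; exact hl)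
    (hEE.trans (by gcongr)) hU
  have hsub : E + (l.map List.prod).sum • F ⊆ E + (l.map fun m => m.prod • F).sum := by
    refine add_subset_add_left ?_
    intro z hz
    obtain ⟨x, hx, rfl⟩ := mem_smul_finset.1 hz
    exact re6_smul_mem_list_sum F hx l
  have h2 : (re6N (E + (l.map List.prod).sum • F) : ℝ) ≤ re6N (E + (l.map fun m => m.prod • F).sum) := by
    exact_mod_cast re6_N_mono hsub
  refine h2.trans (h1.trans ?_)
  refine mul_le_mul_of_nonneg_right ?_ hn0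
  have e1 : K' = (4 * 2 ^ (14 * H)) * K ^ (H + 1) := by
    rw [hK', mul_pow, ← pow_mul]
    ring
  have hD0 : (0 : ℝ) ≤ (C' : ℝ) * (4 * 2 ^ (14 * H)) ^ C' := by positivity
  calc (C' : ℝ) * K' ^ C' = ((C' : ℝ) * (4 * 2 ^ (14 * H)) ^ C') * K ^ ((H + 1) * C') := by
        rw [e1, mul_pow, ← pow_mul]
        ring
    _ ≤ ((C' : ℝ) * (4 * 2 ^ (14 * H)) ^ C') * K ^ (C' * (4 * 2 ^ (14 * H)) ^ C' + (H + 1) * C') := by
        gcongr
        exact Nat.le_add_left _ _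
    _ ≤ ((C' * (4 * 2 ^ (14 * H)) ^ C' + (H + 1) * C' : ℕ) : ℝ) * K ^ (C' * (4 * 2 ^ (14 * H)) ^ C' + (H + 1) * C') := by
        gcongr
        push_cast
        have : (0 : ℝ) ≤ ((H : ℝ) + 1) * C' := by positivity
        linarith

theorem re6_prod_bd {R : Set ℝ} (hR : ∀ t ∈ R, 1 / 2 ≤ t ∧ t ≤ 2) :
    ∀ m : List ℝ, (∀ t ∈ m, t ∈ R) → 0 ≤ m.prod ∧ m.prod ≤ 2 ^ m.length := by
  intro m
  induction m with
  | nil => intro _; simp
  | cons t m ih =>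
    intro h
    obtain ⟨h1, h2⟩ := ih fun s hs => h s (List.mem_cons_of_mem _ hs)
    obtain ⟨h3, h4⟩ := hR t (h t List.mem_cons_self)
    have ht0 : 0 ≤ t := by linarith
    rw [List.prod_cons, List.length_cons, pow_succ']
    exact ⟨mul_nonneg ht0 h1, mul_le_mul h4 h2 h1 (by norm_num)⟩

theorem re6_sum_bd {M : ℝ} : ∀ l : List ℝ, (∀ x ∈ l, 0 ≤ x ∧ x ≤ M) → 0 ≤ l.sum ∧ l.sum ≤ l.length * M := by
  intro l
  induction l with
  | nil => intro _; simp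
  | cons x l ih =>
    intro h
    obtain ⟨h1, h2⟩ := ih fun s hs => h s (List.mem_cons_of_mem _ hs)
    obtain ⟨h3, h4⟩ := h x List.mem_cons_self
    rw [List.sum_cons, List.length_cons]
    push_cast
    exact ⟨add_nonneg h3 h1, by linarith⟩

/-- elements of `re6Gen H R`, `R ⊆ [1/2, 2]`, are bounded -/
theorem re6_gen_le (H : ℕ) (R : Set ℝ) (hR : ∀ t ∈ R, 1 / 2 ≤ t ∧ t ≤ 2) (c : ℝ) (hc : c ∈ re6Gen H R) : 0 ≤ c ∧ c ≤ H * 2 ^ H := by
  obtain ⟨l, hl, hlm, rfl⟩ := hc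
  have h := re6_sum_bd (M := 2 ^ H) (l.map List.prod) (by
    intro x hx
    obtain ⟨m, hm, rfl⟩ := List.mem_map.1 hx
    obtain ⟨h1, h2⟩ := re6_prod_bd hR m (hlm m hm).2
    exact ⟨h1, h2.trans (pow_le_pow_right₀ (by norm_num) (hlm m hm).1)⟩)
  rw [List.length_map] at h
  refine ⟨h.1, h.2.trans ?_⟩
  gcongr

/-- `c + t c'` -/
theorem re6_gen_step (H H' : ℕ) (R : Set ℝ) (c c' t : ℝ) (hc : c ∈ re6Gen H R) (hc' : c' ∈ re6Gen H' R) (ht : t ∈ R) :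
    c + t * c' ∈ re6Gen (H + H' + 1) R := by
  obtain ⟨l, hl, hlm, rfl⟩ := hc
  obtain ⟨l', hl', hlm', rfl⟩ := hc'
  refine ⟨l ++ l'.map (List.cons t), ?_, ?_, ?_⟩
  · rw [List.length_append, List.length_map]
    omega
  · intro m hm
    rcases List.mem_append.1 hm with hm | hm
    · exact ⟨by have := (hlm m hm).1; omega, (hlm m hm).2⟩
    · obtain ⟨m', hm', rfl⟩ := List.mem_map.1 hm
      refine ⟨by have := (hlm' m' hm').1; rw [List.length_cons]; omega, ?_⟩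
      intro s hs
      rcases List.mem_cons.1 hs with rfl | hs
      · exact ht
      · exact (hlm' m' hm').2 s hs
  · rw [List.map_append, List.sum_append, List.map_map]
    congr 1
    rw [← List.sum_map_mul_left]
    rfl

theorem re6_gen_mono {H H' : ℕ} (h : H ≤ H') {R R' : Set ℝ} (hR : R ⊆ R') : re6Gen H R ⊆ re6Gen H' R' := by
  rintro c ⟨l, hl, hlm, rfl⟩
  exact ⟨l, hl.trans h, fun m hm => ⟨(hlm m hm).1.trans h, fun t ht => hR ((hlm m hm).2 t ht)⟩, rfl⟩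

theorem re6_gen_self (R : Set ℝ) (t : ℝ) (ht : t ∈ R) : t ∈ re6Gen 1 R := by
  refine ⟨[[t]], by simp, ?_, by simp⟩
  intro m hm
  rw [List.mem_singleton] at hm
  subst hm
  refine ⟨by simp, ?_⟩
  intro s hs
  rw [List.mem_singleton] at hs
  subst hs
  exact ht

end Claimed.Agent.R252

end PkRe6Clos

section PkRe6Bsg

/-!
# Row 252, unit Re6.  CONTRACT `Bsg`: L re:graph-bsg (three paths retain graph edges).   Architect helper183.  Leaf L-252-RE6-BSG.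

PROOF (06a l.39-108, constants checked).  `a₀ = #A`, `b₀ = #B`, `N(x)` neighbourhoods in `G`.
1. `A₀` = vertices of `A` of degree `≥ θ b₀ / 2`; the edges from `A₀` are `≥ θ a₀ b₀ / 2`.
2. an ordered pair of `A₀²` is BAD if it has `< τ b₀` common neighbours, `τ = θ³ / 512`.  For `v₀ ∈ B` put `U(v₀) = N(v₀) ∩ A₀`.
   `∑_{v₀} #U ≥ θ a₀ b₀ / 2`, so (Cauchy-Schwarz) `∑_{v₀} #U² ≥ θ² a₀² b₀ / 4`;  `∑_{v₀} Bad(U) ≤ τ a₀² b₀` (a bad pair lies in `U(v₀)²` for `< τ b₀` values of `v₀`).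
   Hence one `v₀` has `#U² - (32/θ) Bad(U) ≥ 3 θ² a₀² / 16`:  `#U ≥ θ a₀ / (2√2)`, `Bad(U) ≤ θ #U² / 32`.
3. delete from `U` the vertices with more than `θ #U / 16` bad partners in `U`: at most half is deleted; rest `A'`.   `B' = {v ∈ B : #(N(v) ∩ A') ≥ θ #A' / 4}`.
   Each `u ∈ A'` has degree `≥ θ b₀ / 2`; edges from `A'` to `B \ B'` are `≤ θ #A' b₀ / 4`; so `#(G ∩ A' × B') ≥ θ #A' b₀ / 4` and `#B' ≥ θ b₀ / 4`.
4. `u ∈ A'`, `v ∈ B'`: of the `≥ θ #A' / 4 ≥ θ #U / 8` vertices `u₁ ∈ N(v) ∩ A'` at most `θ #U / 16` are bad partners of `u`; every other has `≥ τ b₀` common neighbours `v₁` with `u`: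
   `≥ (θ #U / 16)(τ b₀) ≥ θ⁵ a₀ b₀ / 2¹⁵` walks `u v₁ u₁ v`; `(u+v₁, u₁+v₁, u₁+v) ∈ C³` is injective in `(v₁,u₁)` and has alternating sum `u + v`:
   choose one pair `(u,v)` per element of `A' + B'`: the triples are disjoint.
-/

set_option autoImplicit false

namespace Claimed.Agent.R252

open Finset
open scoped Pointwise

/-- double counting, real form -/
theorem re6_bsg_dc {α β : Type*} (s : Finset α) (t : Finset β) (r : α → β → Prop) [∀ a b, Decidable (r a b)] :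
    (∑ a ∈ s, (#(t.filter fun b => r a b) : ℝ)) = ∑ b ∈ t, (#(s.filter fun a => r a b) : ℝ) := by
  exact_mod_cast Finset.sum_card_bipartiteAbove_eq_sum_card_bipartiteBelow r (s := s) (t := t)

/-- the cardinality of a subset of a product, by rows -/
theorem re6_bsg_rows {α β : Type*} (s : Finset α) (t : Finset β) (p : α × β → Prop) [DecidablePred p] :
    (#((s ×ˢ t).filter p) : ℝ) = ∑ a ∈ s, (#(t.filter fun b => p (a, b)) : ℝ) := by
  have : #((s ×ˢ t).filter p) = ∑ a ∈ s, #(t.filter fun b => p (a, b)) := by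
    simp only [Finset.card_filter, Finset.sum_product]
  exact_mod_cast this

/-- step 3 of the proof: deletion of the vertices with many bad partners -/
theorem re6_bsg_refine {α : Type*} [DecidableEq α] (U : Finset α) (bad : α → α → Prop) [∀ a b, Decidable (bad a b)] (θ : ℝ) (hθ : 0 < θ)
    (hbad : (#((U ×ˢ U).filter fun p => bad p.1 p.2) : ℝ) ≤ θ / 32 * (#U : ℝ) ^ 2) :
    ∃ A' ⊆ U, (#U : ℝ) / 2 ≤ #A' ∧ ∀ u ∈ A', (#(U.filter (bad u)) : ℝ) ≤ θ * #U / 16 := by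
  classical
  refine ⟨U.filter fun u => (#(U.filter (bad u)) : ℝ) ≤ θ * #U / 16, Finset.filter_subset _ _, ?_, fun u hu => (Finset.mem_filter.1 hu).2⟩
  set A' := U.filter fun u => (#(U.filter (bad u)) : ℝ) ≤ θ * #U / 16 with hA'
  set D := U.filter fun u => ¬ (#(U.filter (bad u)) : ℝ) ≤ θ * #U / 16 with hD
  have hsum : (#A' : ℝ) + #D = #U := by
    exact_mod_cast Finset.card_filter_add_card_filter_not (s := U) (fun u => (#(U.filter (bad u)) : ℝ) ≤ θ * #U / 16)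
  rcases Nat.eq_zero_or_pos #U with h0 | h0
  · rw [h0]; simp
  have hU : (0 : ℝ) < #U := by exact_mod_cast h0
  have h1 : (#D : ℝ) * (θ * #U / 16) ≤ ∑ u ∈ D, (#(U.filter (bad u)) : ℝ) := by
    rw [← nsmul_eq_mul]
    exact Finset.card_nsmul_le_sum _ _ _ fun u hu => (not_le.1 (Finset.mem_filter.1 hu).2).le
  have h2 : ∑ u ∈ D, (#(U.filter (bad u)) : ℝ) ≤ ∑ u ∈ U, (#(U.filter (bad u)) : ℝ) :=
    Finset.sum_le_sum_of_subset_of_nonneg (Finset.filter_subset _ _) fun _ _ _ => Nat.cast_nonneg _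
  have h3 := re6_bsg_rows U U (fun p => bad p.1 p.2)
  have h4 : (#D : ℝ) * (θ * #U / 16) ≤ (#U / 2) * (θ * #U / 16) := by
    calc (#D : ℝ) * (θ * #U / 16) ≤ θ / 32 * (#U : ℝ) ^ 2 := by linarith
      _ = (#U / 2) * (θ * #U / 16) := by ring
  have h5 : (#D : ℝ) ≤ #U / 2 := le_of_mul_le_mul_right h4 (by positivity)
  linarith

/-- step 3b: the popular part of `B` -/
theorem re6_bsg_dense {α : Type*} [DecidableEq α] (A' B B' : Finset α) (G : Finset (α × α)) (θ : ℝ) (hA' : A'.Nonempty)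
    (hdeg : ∀ u ∈ A', θ * #B / 2 ≤ (#(B.filter fun v => (u, v) ∈ G) : ℝ)) (hB' : B' ⊆ B) (hθ : 0 ≤ θ)
    (hout : ∀ v ∈ B, v ∉ B' → (#(A'.filter fun u => (u, v) ∈ G) : ℝ) ≤ θ * #A' / 4) :
    θ * #A' * #B / 4 ≤ (#(G ∩ A' ×ˢ B') : ℝ) ∧ θ / 4 * #B ≤ #B' := by
  have hA0 : (0 : ℝ) < #A' := by exact_mod_cast hA'.card_pos
  have h1 : (#A' : ℝ) * (θ * #B / 2) ≤ ∑ u ∈ A', (#(B.filter fun v => (u, v) ∈ G) : ℝ) := by
    rw [← nsmul_eq_mul]
    exact Finset.card_nsmul_le_sum _ _ _ hdeg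
  have h2 := re6_bsg_dc A' B (fun u v => (u, v) ∈ G)
  have h3 : ∑ v ∈ B, (#(A'.filter fun u => (u, v) ∈ G) : ℝ) =
      ∑ v ∈ B \ B', (#(A'.filter fun u => (u, v) ∈ G) : ℝ) + ∑ v ∈ B', (#(A'.filter fun u => (u, v) ∈ G) : ℝ) :=
    (Finset.sum_sdiff hB').symm
  have h4 : ∑ v ∈ B \ B', (#(A'.filter fun u => (u, v) ∈ G) : ℝ) ≤ (#B : ℝ) * (θ * #A' / 4) := by
    calc ∑ v ∈ B \ B', (#(A'.filter fun u => (u, v) ∈ G) : ℝ) ≤ #(B \ B') • (θ * #A' / 4) :=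
          Finset.sum_le_card_nsmul _ _ _ fun v hv => hout v (Finset.mem_sdiff.1 hv).1 (Finset.mem_sdiff.1 hv).2
      _ = (#(B \ B') : ℝ) * (θ * #A' / 4) := nsmul_eq_mul _ _
      _ ≤ (#B : ℝ) * (θ * #A' / 4) := by
          refine mul_le_mul_of_nonneg_right ?_ (by positivity)
          exact_mod_cast Finset.card_le_card Finset.sdiff_subset
  have h5 : (#(G ∩ A' ×ˢ B') : ℝ) = ∑ v ∈ B', (#(A'.filter fun u => (u, v) ∈ G) : ℝ) := by
    rw [← re6_bsg_dc A' B' (fun u v => (u, v) ∈ G), ← re6_bsg_rows A' B' (fun p => p ∈ G), Finset.filter_mem_eq_inter, Finset.inter_comm]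
  have h6 : θ * #A' * #B / 4 ≤ (#(G ∩ A' ×ˢ B') : ℝ) := by
    rw [h5]
    nlinarith
  refine ⟨h6, ?_⟩
  have h7 : (#(G ∩ A' ×ˢ B') : ℝ) ≤ #A' * #B' := by
    have : #(G ∩ A' ×ˢ B') ≤ #A' * #B' := by
      rw [← Finset.card_product]
      exact Finset.card_le_card Finset.inter_subset_right
    exact_mod_cast this
  have h8 : (θ / 4 * #B) * #A' ≤ #B' * #A' := by nlinarith
  exact le_of_mul_le_mul_right h8 hA0

/-- step 4: many walks of length three -/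
theorem re6_bsg_walks {α : Type*} [DecidableEq α] (U A' B : Finset α) (G : Finset (α × α)) (θ m : ℝ) (hθ : 0 ≤ θ) (hm : 0 ≤ m)
    (bad : α → α → Prop) [∀ a b, Decidable (bad a b)]
    (hbad : ∀ u u', ¬ bad u u' → m ≤ (#(B.filter fun w => (u, w) ∈ G ∧ (u', w) ∈ G) : ℝ))
    (hA'U : A' ⊆ U) (hU2 : (#U : ℝ) / 2 ≤ #A') (u v : α) (hu : (#(U.filter (bad u)) : ℝ) ≤ θ * #U / 16)
    (hv : θ * #A' / 4 ≤ (#(A'.filter fun u₁ => (u₁, v) ∈ G) : ℝ)) :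
    θ * #U / 16 * m ≤ (#((A' ×ˢ B).filter fun p => (u, p.2) ∈ G ∧ (p.1, p.2) ∈ G ∧ (p.1, v) ∈ G) : ℝ) := by
  classical
  set N := A'.filter fun u₁ => (u₁, v) ∈ G with hN
  set Good := N.filter fun u₁ => ¬ bad u u₁ with hGood
  have h1 : (#(N.filter fun u₁ => bad u u₁) : ℝ) + #Good = #N := by
    exact_mod_cast Finset.card_filter_add_card_filter_not (s := N) (fun u₁ => bad u u₁)
  have h2 : (#(N.filter fun u₁ => bad u u₁) : ℝ) ≤ #(U.filter (bad u)) := by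
    have : N.filter (fun u₁ => bad u u₁) ⊆ U.filter (bad u) :=
      Finset.filter_subset_filter _ ((Finset.filter_subset _ _).trans hA'U)
    exact_mod_cast Finset.card_le_card this
  have h3 : θ * #U / 16 ≤ #Good := by nlinarith
  rw [re6_bsg_rows]
  have hsub : Good ⊆ A' := (Finset.filter_subset _ _).trans (Finset.filter_subset _ _)
  calc θ * #U / 16 * m ≤ #Good * m := mul_le_mul_of_nonneg_right h3 hm
    _ = #Good • m := (nsmul_eq_mul _ _).symm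
    _ ≤ ∑ u₁ ∈ Good, (#(B.filter fun b => (u, b) ∈ G ∧ (u₁, b) ∈ G ∧ (u₁, v) ∈ G) : ℝ) := by
        refine Finset.card_nsmul_le_sum _ _ _ fun u₁ hu₁ => ?_
        obtain ⟨q1, q2⟩ := Finset.mem_filter.1 hu₁
        have q3 : (u₁, v) ∈ G := (Finset.mem_filter.1 q1).2
        have e : (B.filter fun b => (u, b) ∈ G ∧ (u₁, b) ∈ G ∧ (u₁, v) ∈ G) = B.filter fun w => (u, w) ∈ G ∧ (u₁, w) ∈ G := by
          refine Finset.filter_congr fun b _ => ?_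
          simp only [q3, and_true]
        rw [e]
        exact hbad u u₁ q2
    _ ≤ ∑ u₁ ∈ A', (#(B.filter fun b => (u, b) ∈ G ∧ (u₁, b) ∈ G ∧ (u₁, v) ∈ G) : ℝ) :=
        Finset.sum_le_sum_of_subset_of_nonneg hsub fun _ _ _ => Nat.cast_nonneg _

/-- step 4, the end: disjoint families of triples of sums along edges -/
theorem re6_bsg_count {α : Type*} [AddCommGroup α] [DecidableEq α] (A' B' B : Finset α) (G : Finset (α × α)) (m : ℝ)
    (hW : ∀ u ∈ A', ∀ v ∈ B', m ≤ (#((A' ×ˢ B).filter fun p => (u, p.2) ∈ G ∧ (p.1, p.2) ∈ G ∧ (p.1, v) ∈ G) : ℝ)) :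
    (#(A' + B') : ℝ) * m ≤ (#(G.image fun p => p.1 + p.2) : ℝ) ^ 3 := by
  set C := G.image fun p => p.1 + p.2 with hC
  set T := C ×ˢ C ×ˢ C with hT
  have hmem : ∀ x y, (x, y) ∈ G → x + y ∈ C := fun x y h => Finset.mem_image.2 ⟨(x, y), h, rfl⟩
  have h1 : ∀ s ∈ A' + B', m ≤ (#(T.filter fun t => t.1 - t.2.1 + t.2.2 = s) : ℝ) := by
    intro s hs
    obtain ⟨u, hu, v, hv, rfl⟩ := Finset.mem_add.1 hs
    refine (hW u hu v hv).trans ?_
    have : #((A' ×ˢ B).filter fun p => (u, p.2) ∈ G ∧ (p.1, p.2) ∈ G ∧ (p.1, v) ∈ G) ≤ #(T.filter fun t => t.1 - t.2.1 + t.2.2 = u + v) := by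
      refine Finset.card_le_card_of_injOn (fun p => (u + p.2, p.1 + p.2, p.1 + v)) ?_ ?_
      · intro p hp
        obtain ⟨-, q1, q2, q3⟩ := Finset.mem_filter.1 (Finset.mem_coe.1 hp)
        refine Finset.mem_coe.2 (Finset.mem_filter.2 ⟨?_, ?_⟩)
        · exact Finset.mem_product.2 ⟨hmem _ _ q1, Finset.mem_product.2 ⟨hmem _ _ q2, hmem _ _ q3⟩⟩
        · simp only
          abel
      · intro p _ p' _ e
        simp only [Prod.mk.injEq] at e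
        exact Prod.ext (add_right_cancel e.2.2) (add_left_cancel e.1)
    exact_mod_cast this
  have h2 : ∑ s ∈ A' + B', #(T.filter fun t => t.1 - t.2.1 + t.2.2 = s) = #(T.filter fun t => t.1 - t.2.1 + t.2.2 ∈ A' + B') :=
    Finset.sum_card_fiberwise_eq_card_filter _ _ _
  have h3 : (∑ s ∈ A' + B', (#(T.filter fun t => t.1 - t.2.1 + t.2.2 = s) : ℝ)) ≤ (#C : ℝ) ^ 3 := by
    have : ∑ s ∈ A' + B', #(T.filter fun t => t.1 - t.2.1 + t.2.2 = s) ≤ #C ^ 3 := by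
      rw [h2]
      refine (Finset.card_filter_le _ _).trans ?_
      rw [hT, Finset.card_product, Finset.card_product]
      exact le_of_eq (by ring)
    exact_mod_cast this
  calc (#(A' + B') : ℝ) * m = #(A' + B') • m := (nsmul_eq_mul _ _).symm
    _ ≤ ∑ s ∈ A' + B', (#(T.filter fun t => t.1 - t.2.1 + t.2.2 = s) : ℝ) := Finset.card_nsmul_le_sum _ _ _ h1
    _ ≤ _ := h3

/-- steps 1, 2: a neighbourhood with few bad pairs -/
theorem re6_bsg_popular {α : Type*} [DecidableEq α] (A B : Finset α) (G : Finset (α × α)) (θ : ℝ)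
    (hB : B.Nonempty) (hθ0 : 0 < θ) (hG : G ⊆ A ×ˢ B) (hcard : θ * #A * #B ≤ (#G : ℝ))
    (bad : α → α → Prop) [∀ a b, Decidable (bad a b)]
    (hbad : ∀ u u', bad u u' → (#(B.filter fun w => (u, w) ∈ G ∧ (u', w) ∈ G) : ℝ) ≤ θ ^ 3 / 512 * #B) :
    ∃ U ⊆ A, (∀ u ∈ U, θ * #B / 2 ≤ (#(B.filter fun v => (u, v) ∈ G) : ℝ)) ∧ θ * #A / 4 ≤ (#U : ℝ) ∧
      (#((U ×ˢ U).filter fun p => bad p.1 p.2) : ℝ) ≤ θ / 32 * (#U : ℝ) ^ 2 := by
  classical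
  have hB0 : (0 : ℝ) < #B := by exact_mod_cast hB.card_pos
  have hA0 : (0 : ℝ) ≤ #A := Nat.cast_nonneg _
  set deg : α → ℝ := fun u => (#(B.filter fun v => (u, v) ∈ G) : ℝ) with hdeg
  set A₀ := A.filter fun u => θ * #B / 2 ≤ deg u with hA₀
  set badp : α × α → Prop := fun p => bad p.1 p.2 with hbadp
  -- step 1
  have e1 : (#G : ℝ) = ∑ u ∈ A, deg u := by
    rw [← re6_bsg_rows A B (fun p => p ∈ G), Finset.filter_mem_eq_inter, Finset.inter_eq_right.2 hG]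
  have e2 : ∑ u ∈ A, deg u = ∑ u ∈ A₀, deg u + ∑ u ∈ A.filter (fun u => ¬ θ * #B / 2 ≤ deg u), deg u :=
    (Finset.sum_filter_add_sum_filter_not _ _ _).symm
  have e3 : ∑ u ∈ A.filter (fun u => ¬ θ * #B / 2 ≤ deg u), deg u ≤ (#A : ℝ) * (θ * #B / 2) := by
    calc ∑ u ∈ A.filter (fun u => ¬ θ * #B / 2 ≤ deg u), deg u ≤ #(A.filter (fun u => ¬ θ * #B / 2 ≤ deg u)) • (θ * #B / 2) :=
          Finset.sum_le_card_nsmul _ _ _ fun u hu => (not_le.1 (Finset.mem_filter.1 hu).2).le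
      _ = (#(A.filter (fun u => ¬ θ * #B / 2 ≤ deg u)) : ℝ) * (θ * #B / 2) := nsmul_eq_mul _ _
      _ ≤ (#A : ℝ) * (θ * #B / 2) := by
          refine mul_le_mul_of_nonneg_right ?_ (by positivity)
          exact_mod_cast Finset.card_filter_le _ _
  have e4 : θ * #A * #B / 2 ≤ ∑ u ∈ A₀, deg u := by linarith
  -- step 2
  set Uf : α → Finset α := fun v => A₀.filter fun u => (u, v) ∈ G with hUf
  have e5 : ∑ u ∈ A₀, deg u = ∑ v ∈ B, (#(Uf v) : ℝ) := re6_bsg_dc A₀ B (fun u v => (u, v) ∈ G)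
  have e6 : (∑ v ∈ B, (#(Uf v) : ℝ)) ^ 2 ≤ #B * ∑ v ∈ B, (#(Uf v) : ℝ) ^ 2 := sq_sum_le_card_mul_sum_sq
  have e7 : θ ^ 2 * (#A : ℝ) ^ 2 * #B / 4 ≤ ∑ v ∈ B, (#(Uf v) : ℝ) ^ 2 := by
    have q1 : (θ * #A * #B / 2) ^ 2 ≤ (∑ v ∈ B, (#(Uf v) : ℝ)) ^ 2 := by
      rw [← e5]
      exact pow_le_pow_left₀ (by positivity) e4 2
    have q2 : (θ ^ 2 * (#A : ℝ) ^ 2 * #B / 4) * #B ≤ (∑ v ∈ B, (#(Uf v) : ℝ) ^ 2) * #B := by
      calc (θ ^ 2 * (#A : ℝ) ^ 2 * #B / 4) * #B = (θ * #A * #B / 2) ^ 2 := by ring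
        _ ≤ _ := q1.trans e6
        _ = _ := mul_comm _ _
    exact le_of_mul_le_mul_right q2 hB0
  set P := (A₀ ×ˢ A₀).filter badp with hP
  have e8 : ∀ v, ((Uf v ×ˢ Uf v).filter badp) = P.filter fun p => (p.1, v) ∈ G ∧ (p.2, v) ∈ G := by
    intro v
    ext p
    simp only [hUf, hP, Finset.mem_filter, Finset.mem_product]
    tauto
  have e9 : ∑ v ∈ B, (#((Uf v ×ˢ Uf v).filter badp) : ℝ) ≤ (#A : ℝ) ^ 2 * (θ ^ 3 / 512 * #B) := by
    simp only [e8]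
    rw [← re6_bsg_dc P B (fun p v => (p.1, v) ∈ G ∧ (p.2, v) ∈ G)]
    calc ∑ p ∈ P, (#(B.filter fun v => (p.1, v) ∈ G ∧ (p.2, v) ∈ G) : ℝ) ≤ #P • (θ ^ 3 / 512 * #B) :=
          Finset.sum_le_card_nsmul _ _ _ fun p hp => hbad _ _ (Finset.mem_filter.1 hp).2
      _ = (#P : ℝ) * (θ ^ 3 / 512 * #B) := nsmul_eq_mul _ _
      _ ≤ (#A : ℝ) ^ 2 * (θ ^ 3 / 512 * #B) := by
          refine mul_le_mul_of_nonneg_right ?_ (by positivity)
          have : #P ≤ #A ^ 2 := by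
            refine (Finset.card_filter_le _ _).trans ?_
            rw [Finset.card_product, sq]
            exact Nat.mul_le_mul (Finset.card_filter_le _ _) (Finset.card_filter_le _ _)
          exact_mod_cast this
  have e10 : ∑ v ∈ B, (3 * θ ^ 2 * (#A : ℝ) ^ 2 / 16) ≤ ∑ v ∈ B, ((#(Uf v) : ℝ) ^ 2 - 32 / θ * #((Uf v ×ˢ Uf v).filter badp)) := by
    rw [Finset.sum_const, nsmul_eq_mul, Finset.sum_sub_distrib, ← Finset.mul_sum]
    have q : 32 / θ * ∑ v ∈ B, (#((Uf v ×ˢ Uf v).filter badp) : ℝ) ≤ 32 / θ * ((#A : ℝ) ^ 2 * (θ ^ 3 / 512 * #B)) :=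
      mul_le_mul_of_nonneg_left e9 (by positivity)
    have q' : 32 / θ * ((#A : ℝ) ^ 2 * (θ ^ 3 / 512 * #B)) = θ ^ 2 * (#A : ℝ) ^ 2 * #B / 16 := by
      field_simp
      ring
    rw [q'] at q
    linarith
  obtain ⟨v₀, -, hv₀⟩ := Finset.exists_le_of_sum_le hB e10
  have hbn : (0 : ℝ) ≤ 32 / θ * #((Uf v₀ ×ˢ Uf v₀).filter badp) := by positivity
  refine ⟨Uf v₀, (Finset.filter_subset _ _).trans (Finset.filter_subset _ _), fun u hu => (Finset.mem_filter.1 (Finset.mem_filter.1 hu).1).2, ?_, ?_⟩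
  · by_contra hc
    have hc' := not_le.1 hc
    have := pow_lt_pow_left₀ hc' (Nat.cast_nonneg _) two_ne_zero
    nlinarith [sq_nonneg (θ * (#A : ℝ))]
  · have q1 : 32 / θ * (#((Uf v₀ ×ˢ Uf v₀).filter badp) : ℝ) ≤ (#(Uf v₀) : ℝ) ^ 2 := by
      have : (0 : ℝ) ≤ 3 * θ ^ 2 * (#A : ℝ) ^ 2 / 16 := by positivity
      linarith
    have q2 := mul_le_mul_of_nonneg_left q1 (show (0 : ℝ) ≤ θ / 32 by positivity)
    have q3 : θ / 32 * (32 / θ * (#((Uf v₀ ×ˢ Uf v₀).filter badp) : ℝ)) = #((Uf v₀ ×ˢ Uf v₀).filter badp) := by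
      field_simp
    rw [q3] at q2
    exact q2

theorem re6_bsg {α : Type*} [AddCommGroup α] [DecidableEq α] (A B : Finset α) (G : Finset (α × α)) (θ : ℝ)
    (hA : A.Nonempty) (hB : B.Nonempty) (hθ0 : 0 < θ) (hθ1 : θ ≤ 1) (hG : G ⊆ A ×ˢ B) (hcard : θ * #A * #B ≤ (#G : ℝ)) :
    ∃ A' ⊆ A, ∃ B' ⊆ B, θ / 8 * #A ≤ (#A' : ℝ) ∧ θ / 4 * #B ≤ (#B' : ℝ) ∧
      θ ^ 2 / 32 * #A * #B ≤ (#(G ∩ A' ×ˢ B') : ℝ) ∧
      (#(A' + B') : ℝ) * (θ ^ 5 * #A * #B) ≤ 2 ^ 15 * (#(G.image fun p => p.1 + p.2) : ℝ) ^ 3 := by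
  classical
  have hA0 : (0 : ℝ) < #A := by exact_mod_cast hA.card_pos
  have hB0 : (0 : ℝ) < #B := by exact_mod_cast hB.card_pos
  set bad : α → α → Prop := fun u u' => (#(B.filter fun w => (u, w) ∈ G ∧ (u', w) ∈ G) : ℝ) < θ ^ 3 / 512 * #B with hbad
  obtain ⟨U, hUA, hUdeg, hUcard, hUbad⟩ := re6_bsg_popular A B G θ hB hθ0 hG hcard bad fun u u' h => le_of_lt h
  obtain ⟨A', hA'U, hA'card, hA'bad⟩ := re6_bsg_refine U bad θ hθ0 hUbad
  have hA'1 : θ / 8 * #A ≤ (#A' : ℝ) := by linarith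
  have hA'ne : A'.Nonempty := by
    rw [← Finset.card_pos]
    have : (0 : ℝ) < #A' := lt_of_lt_of_le (by positivity) hA'1
    exact_mod_cast this
  set B' := B.filter fun v => θ * #A' / 4 ≤ (#(A'.filter fun u => (u, v) ∈ G) : ℝ) with hB'
  obtain ⟨hd1, hd2⟩ := re6_bsg_dense A' B B' G θ hA'ne (fun u hu => hUdeg u (hA'U hu)) (Finset.filter_subset _ _) hθ0.le
    (fun v hv hv' => (not_le.1 fun h => hv' (Finset.mem_filter.2 ⟨hv, h⟩)).le)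
  refine ⟨A', hA'U.trans hUA, B', Finset.filter_subset _ _, hA'1, hd2, ?_, ?_⟩
  · refine le_trans ?_ hd1
    have : θ * (θ / 8 * #A) * #B / 4 ≤ θ * #A' * #B / 4 := by
      have := mul_le_mul_of_nonneg_left hA'1 hθ0.le
      have := mul_le_mul_of_nonneg_right this hB0.le
      linarith
    calc θ ^ 2 / 32 * #A * #B = θ * (θ / 8 * #A) * #B / 4 := by ring
      _ ≤ _ := this
  · have hW := re6_bsg_count A' B' B G (θ * #U / 16 * (θ ^ 3 / 512 * #B)) fun u hu v hv =>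
      re6_bsg_walks U A' B G θ (θ ^ 3 / 512 * #B) hθ0.le (by positivity) bad (fun u u' h => not_lt.1 h) hA'U hA'card u v
        (hA'bad u hu) (Finset.mem_filter.1 hv).2
    have h1 : θ ^ 5 * #A * #B ≤ 2 ^ 15 * (θ * #U / 16 * (θ ^ 3 / 512 * #B)) := by
      have : θ * (θ * #A / 4) / 16 * (θ ^ 3 / 512 * #B) ≤ θ * #U / 16 * (θ ^ 3 / 512 * #B) := by
        refine mul_le_mul_of_nonneg_right ?_ (by positivity)
        have := mul_le_mul_of_nonneg_left hUcard hθ0.le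
        linarith
      calc θ ^ 5 * #A * #B = 2 ^ 15 * (θ * (θ * #A / 4) / 16 * (θ ^ 3 / 512 * #B)) := by ring
        _ ≤ _ := mul_le_mul_of_nonneg_left this (by norm_num)
    calc (#(A' + B') : ℝ) * (θ ^ 5 * #A * #B) ≤ (#(A' + B') : ℝ) * (2 ^ 15 * (θ * #U / 16 * (θ ^ 3 / 512 * #B))) :=
          mul_le_mul_of_nonneg_left h1 (Nat.cast_nonneg _)
      _ = 2 ^ 15 * ((#(A' + B') : ℝ) * (θ * #U / 16 * (θ ^ 3 / 512 * #B))) := by ring
      _ ≤ _ := mul_le_mul_of_nonneg_left hW (by norm_num)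

end Claimed.Agent.R252

end PkRe6Bsg

section PkRe6Ind

/-!
# Row 252, unit Re6.  CONTRACT `Ind`: (re:individual-bsg), 06a l.123-138.   Architect helper183.  Leaf L-252-RE6-IND.

PROOF.  `β(b) = re6Rd (κ • re6Emb b)`; a value of `β` has at most `(1/|κ| + 2)² ≤ (K+2)²` preimages in `ℤ × ℤ`.  Image graph `G~ = {(a, β b) : (a,b) ∈ G} ⊆ A × β(B)`,
`#G~ ≥ #G / (K+2)²`, `#β(B) ≤ #B`.  By `re6_Rd_emb_add` the sums of `G~` are EXACTLY the cells `re6Cl κ p`, `p ∈ G`.   Apply `re6_bsg` in `ℤ × ℤ` with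
`θ = #G~ / (#A #β(B)) ≥ 1 / (K³ (K+2)²)`.   `A' ` as given, `B' = {b ∈ B : β b ∈ B~'}`.   `re6N (re6R A' + κ • re6R B') = #(A' + B~')` (again `re6_Rd_emb_add`);
every edge of `G~ ∩ A' × B~'` has a preimage in `G ∩ A' × B'`;  `#B' ≥ #B~'`.   `#A #β(B) ≥ #G~`.
-/

set_option autoImplicit false

namespace Claimed.Agent.R252

open Finset
open scoped Pointwise

theorem re6_Rd_emb (a : ℤ × ℤ) : re6Rd (re6Emb a) = a := by
  simp [re6Rd, re6Emb]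

/-- a value of `b ↦ ⌊κ b⌋` has at most `(1/|κ| + 2)²` preimages -/
theorem re6_fibre_le {K κ : ℝ} (hK : 1 ≤ K) (hκ : 1 / K ≤ |κ|) (B : Finset (ℤ × ℤ)) (c : ℤ × ℤ) :
    (#{b ∈ B | re6Rd (κ • re6Emb b) = c} : ℝ) ≤ (K + 2) ^ 2 := by
  have hK0 : 0 < K := by linarith
  have hκ0 : 0 < |κ| := lt_of_lt_of_le (by positivity) hκ
  have hκne : κ ≠ 0 := abs_pos.1 hκ0
  have h := re6_card_smul {b ∈ B | re6Rd (κ • re6Emb b) = c} (fun x => κ • re6Emb x) κ⁻¹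
  have e1 : ({b ∈ B | re6Rd (κ • re6Emb b) = c}.image fun x => re6Rd (κ⁻¹ • (fun x => κ • re6Emb x) x)) =
      {b ∈ B | re6Rd (κ • re6Emb b) = c} := by
    have : (fun x : ℤ × ℤ => re6Rd (κ⁻¹ • (fun x => κ • re6Emb x) x)) = id := by
      funext x
      simp only [inv_smul_smul₀ hκne, re6_Rd_emb, id]
    rw [this, image_id]
  rw [e1] at h
  have e2 : #({b ∈ B | re6Rd (κ • re6Emb b) = c}.image fun x => re6Rd ((fun x => κ • re6Emb x) x)) ≤ 1 := by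
    refine card_le_one.2 ?_
    intro x hx y hy
    obtain ⟨u, hu, rfl⟩ := mem_image.1 hx
    obtain ⟨v, hv, rfl⟩ := mem_image.1 hy
    rw [(mem_filter.1 hu).2, (mem_filter.1 hv).2]
  have e3 : |κ⁻¹| ≤ K := by
    rw [abs_inv, inv_le_comm₀ hκ0 hK0]
    simpa using hκ
  calc (#{b ∈ B | re6Rd (κ • re6Emb b) = c} : ℝ) ≤ (|κ⁻¹| + 2) ^ 2 * _ := h
    _ ≤ (K + 2) ^ 2 * 1 := by
      gcongr
      exact_mod_cast e2
    _ = _ := mul_one _

theorem re6_ind : ∃ C : ℕ, ∀ (L K κ : ℝ) (A B : Finset (ℤ × ℤ)) (G : Finset ((ℤ × ℤ) × (ℤ × ℤ))), 1 ≤ L → 1 ≤ K →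
    1 / K ≤ |κ| → |κ| ≤ K → (#A : ℝ) ≤ K * L → (#B : ℝ) ≤ K * L → G ⊆ A ×ˢ B → L ^ 2 / K ≤ (#G : ℝ) →
    (#(G.image (re6Cl κ)) : ℝ) ≤ K * L →
    ∃ A' ⊆ A, ∃ B' ⊆ B, L ≤ C * K ^ C * #A' ∧ L ≤ C * K ^ C * #B' ∧
      (re6N (re6R A' + κ • re6R B') : ℝ) ≤ C * K ^ C * L ∧ L ^ 2 ≤ C * K ^ C * #(G ∩ A' ×ˢ B') := by
  obtain ⟨C, hC35, hCr⟩ : ∃ C : ℕ, 35 ≤ C ∧ (C : ℝ) = 2 ^ 15 * 9 ^ 7 := ⟨2 ^ 15 * 9 ^ 7, by norm_num, by push_cast; norm_num⟩
  refine ⟨C, ?_⟩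
  intro L K κ A B G hL hK hκlo _ hA hB hG hGlo hsum
  have hK0 : 0 < K := by linarith
  have hL0 : 0 < L := by linarith
  obtain ⟨β, hβ⟩ : ∃ β : ℤ × ℤ → ℤ × ℤ, ∀ b, β b = re6Rd (κ • re6Emb b) := ⟨_, fun _ => rfl⟩
  obtain ⟨f, hf⟩ : ∃ f : (ℤ × ℤ) × (ℤ × ℤ) → (ℤ × ℤ) × (ℤ × ℤ), ∀ p, f p = (p.1, β p.2) := ⟨_, fun _ => rfl⟩
  obtain ⟨T, hT⟩ : ∃ T : ℝ, T = K ^ 3 * (K + 2) ^ 2 := ⟨_, rfl⟩
  have hT1 : 1 ≤ T := by
    rw [hT]
    have h1 : 1 ≤ K ^ 3 := one_le_pow₀ hK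
    have h2 : 1 ≤ (K + 2) ^ 2 := one_le_pow₀ (by linarith)
    exact one_le_mul_of_one_le_of_one_le h1 h2
  have hT0 : 0 < T := by linarith
  -- the fibres of `f`
  have hGf : (#G : ℝ) ≤ (K + 2) ^ 2 * #(G.image f) := by
    have h1 : #G ≤ ⌊(K + 2) ^ 2⌋₊ * #(G.image f) := by
      refine card_le_mul_card_image G _ fun y _ => ?_
      refine Nat.le_floor ?_
      refine le_trans ?_ (re6_fibre_le hK hκlo B y.2)
      have : #{p ∈ G | f p = y} ≤ #{b ∈ B | re6Rd (κ • re6Emb b) = y.2} := by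
        refine card_le_card_of_injOn (fun p => p.2) ?_ ?_
        · intro p hp
          have hp' := mem_filter.1 (mem_coe.1 hp)
          refine mem_coe.2 (mem_filter.2 ⟨(mem_product.1 (hG hp'.1)).2, ?_⟩)
          rw [← hβ, ← hp'.2, hf]
        · intro p hp q hq hpq
          have hp' := (mem_filter.1 (mem_coe.1 hp)).2
          have hq' := (mem_filter.1 (mem_coe.1 hq)).2
          rw [hf] at hp' hq'
          refine Prod.ext ?_ hpq
          rw [show p.1 = y.1 by rw [← hp'], show q.1 = y.1 by rw [← hq']]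
      exact_mod_cast this
    calc (#G : ℝ) ≤ (⌊(K + 2) ^ 2⌋₊ * #(G.image f) : ℕ) := by exact_mod_cast h1
      _ = (⌊(K + 2) ^ 2⌋₊ : ℝ) * #(G.image f) := by push_cast; ring
      _ ≤ _ := by
        gcongr
        exact Nat.floor_le (by positivity)
  have hGpos : 0 < #G := by
    have : (0 : ℝ) < #G := lt_of_lt_of_le (by positivity) hGlo
    exact_mod_cast this
  obtain ⟨p₀, hp₀⟩ := card_pos.1 hGpos
  have hAne : A.Nonempty := ⟨p₀.1, (mem_product.1 (hG hp₀)).1⟩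
  have hBne : (B.image β).Nonempty := ⟨β p₀.2, mem_image_of_mem _ (mem_product.1 (hG hp₀)).2⟩
  have hGt : G.image f ⊆ A ×ˢ B.image β := by
    intro y hy
    obtain ⟨p, hp, rfl⟩ := mem_image.1 hy
    rw [hf]
    exact mem_product.2 ⟨(mem_product.1 (hG hp)).1, mem_image_of_mem _ (mem_product.1 (hG hp)).2⟩
  have hb_le : (#(B.image β) : ℝ) ≤ K * L := le_trans (by exact_mod_cast card_image_le) hB
  have hgt_le : (#(G.image f) : ℝ) ≤ #A * #(B.image β) := by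
    have := card_le_card hGt
    rw [card_product] at this
    exact_mod_cast this
  -- `L² ≤ K (K+2)² #G~`
  have hL2 : L ^ 2 ≤ K * (K + 2) ^ 2 * #(G.image f) := by
    rw [div_le_iff₀ hK0] at hGlo
    calc L ^ 2 ≤ #G * K := hGlo
      _ ≤ ((K + 2) ^ 2 * #(G.image f)) * K := by gcongr
      _ = _ := by ring
  have hcard : T⁻¹ * #A * #(B.image β) ≤ (#(G.image f) : ℝ) := by
    rw [mul_assoc, inv_mul_le_iff₀ hT0]
    have h1 : (#A : ℝ) * #(B.image β) ≤ (K * L) * (K * L) := by gcongr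
    have h2 : K ^ 2 * L ^ 2 ≤ K ^ 2 * (K * (K + 2) ^ 2 * #(G.image f)) := by gcongr
    calc (#A : ℝ) * #(B.image β) ≤ K ^ 2 * L ^ 2 := h1.trans (le_of_eq (by ring))
      _ ≤ K ^ 2 * (K * (K + 2) ^ 2 * #(G.image f)) := h2
      _ = T * #(G.image f) := by rw [hT]; ring
  obtain ⟨A', hA', Bt', hBt', c1, c2, c3, c4⟩ := re6_bsg A (B.image β) (G.image f) T⁻¹ hAne hBne (by positivity)
    (inv_le_one_of_one_le₀ hT1) hGt hcard
  have hsums : (G.image f).image (fun p => p.1 + p.2) = G.image (re6Cl κ) := by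
    rw [image_image]
    refine image_congr fun p _ => ?_
    simp only [Function.comp, hf, hβ, re6Cl, re6_Rd_emb_add]
  rw [hsums] at c4
  -- clean forms
  obtain ⟨a, ha⟩ : ∃ a : ℝ, a = #A := ⟨_, rfl⟩
  obtain ⟨b, hb⟩ : ∃ b : ℝ, b = #(B.image β) := ⟨_, rfl⟩
  obtain ⟨S, hS⟩ : ∃ S : ℝ, S = #(G.image (re6Cl κ)) := ⟨_, rfl⟩
  rw [← ha] at c1 c3 c4 hgt_le hA
  rw [← hb] at c2 c3 c4 hgt_le hb_le
  rw [← hS] at c4 hsum
  have ha0 : 0 ≤ a := by rw [ha]; positivity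
  have hb0 : 0 ≤ b := by rw [hb]; positivity
  have hS0 : 0 ≤ S := by rw [hS]; positivity
  have d1 : a ≤ 8 * T * #A' := by
    have : T⁻¹ / 8 * a = a / (8 * T) := by field_simp
    rw [this, div_le_iff₀ (by positivity)] at c1
    linarith
  have d2 : b ≤ 4 * T * #Bt' := by
    have : T⁻¹ / 4 * b = b / (4 * T) := by field_simp
    rw [this, div_le_iff₀ (by positivity)] at c2
    linarith
  have d3 : a * b ≤ 32 * T ^ 2 * #(G.image f ∩ A' ×ˢ Bt') := by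
    have : T⁻¹ ^ 2 / 32 * a * b = a * b / (32 * T ^ 2) := by field_simp
    rw [this, div_le_iff₀ (by positivity)] at c3
    linarith
  have d4 : (#(A' + Bt') : ℝ) * (a * b) ≤ 2 ^ 15 * T ^ 5 * S ^ 3 := by
    have : (#(A' + Bt') : ℝ) * (T⁻¹ ^ 5 * a * b) = (#(A' + Bt') : ℝ) * (a * b) / T ^ 5 := by field_simp
    rw [this, div_le_iff₀ (by positivity)] at c4
    linarith
  have hKK : K * (K + 2) ^ 2 ≤ T := by
    rw [hT]
    have : K ≤ K ^ 3 := le_self_pow₀ hK (by norm_num)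
    gcongr
  have hKK2 : K ^ 2 * (K + 2) ^ 2 ≤ T := by
    rw [hT]
    have : K ^ 2 ≤ K ^ 3 := pow_le_pow_right₀ hK (by norm_num)
    gcongr
  have hK3 : K ^ 3 ≤ T := by
    rw [hT]
    have h2 : 1 ≤ (K + 2) ^ 2 := one_le_pow₀ (by linarith)
    exact le_mul_of_one_le_right (pow_pos hK0 3).le h2
  have hab0 : 0 ≤ a * b := mul_nonneg ha0 hb0
  have d5' : L ^ 2 ≤ K * (K + 2) ^ 2 * (a * b) := hL2.trans (by gcongr)
  have d5 : L ^ 2 ≤ T * (a * b) := d5'.trans (by gcongr)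
  have d6 : L ≤ T * a := by
    have h1 : L ^ 2 ≤ (K ^ 2 * (K + 2) ^ 2 * a) * L := by
      calc L ^ 2 ≤ K * (K + 2) ^ 2 * (a * b) := d5'
        _ ≤ K * (K + 2) ^ 2 * (a * (K * L)) := by gcongr
        _ = _ := by ring
    have h2 : L ≤ K ^ 2 * (K + 2) ^ 2 * a := by
      rw [sq] at h1
      exact le_of_mul_le_mul_right h1 hL0
    exact h2.trans (by gcongr)
  have d7 : L ≤ T * b := by
    have h1 : L ^ 2 ≤ (K ^ 2 * (K + 2) ^ 2 * b) * L := by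
      calc L ^ 2 ≤ K * (K + 2) ^ 2 * (a * b) := d5'
        _ ≤ K * (K + 2) ^ 2 * ((K * L) * b) := by gcongr
        _ = _ := by ring
    have h2 : L ≤ K ^ 2 * (K + 2) ^ 2 * b := by
      rw [sq] at h1
      exact le_of_mul_le_mul_right h1 hL0
    exact h2.trans (by gcongr)
  -- the constant
  obtain ⟨Cc, hCc⟩ : ∃ Cc : ℝ, Cc = (C : ℝ) * K ^ C := ⟨_, rfl⟩
  rw [← hCc]
  have hC7 : 2 ^ 15 * T ^ 7 ≤ Cc := by
    have h1 : T ≤ 9 * K ^ 5 := by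
      rw [hT]
      have : (K + 2) ^ 2 ≤ (3 * K) ^ 2 := by gcongr; linarith
      calc K ^ 3 * (K + 2) ^ 2 ≤ K ^ 3 * (3 * K) ^ 2 := by gcongr
        _ = 9 * K ^ 5 := by ring
    calc 2 ^ 15 * T ^ 7 ≤ 2 ^ 15 * (9 * K ^ 5) ^ 7 := by gcongr
      _ = 2 ^ 15 * 9 ^ 7 * K ^ 35 := by ring
      _ ≤ 2 ^ 15 * 9 ^ 7 * K ^ C := by
        gcongr
      _ = Cc := by rw [hCc, hCr]
  have hTp : ∀ n : ℕ, n ≤ 7 → T ^ n ≤ T ^ 7 := fun n hn => pow_le_pow_right₀ hT1 hn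
  have hT7 := pow_pos hT0 7
  have hCc0 : 0 ≤ Cc := by linarith
  have hC2 : 8 * T ^ 2 ≤ Cc := by
    have := hTp 2 (by norm_num)
    linarith
  have hC3 : 32 * T ^ 3 ≤ Cc := by
    have := hTp 3 (by norm_num)
    linarith
  -- the sets
  refine ⟨A', hA', {b ∈ B | β b ∈ Bt'}, filter_subset _ _, ?_, ?_, ?_, ?_⟩
  · calc L ≤ T * a := d6
      _ ≤ T * (8 * T * #A') := by gcongr
      _ = 8 * T ^ 2 * #A' := by ring
      _ ≤ Cc * #A' := by gcongr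
  · have h1 : #Bt' ≤ #{b ∈ B | β b ∈ Bt'} := by
      have : Bt' ⊆ {b ∈ B | β b ∈ Bt'}.image β := by
        intro c hc
        obtain ⟨b', hb', rfl⟩ := mem_image.1 (hBt' hc)
        exact mem_image_of_mem _ (mem_filter.2 ⟨hb', hc⟩)
      exact (card_le_card this).trans card_image_le
    have h1' : (#Bt' : ℝ) ≤ #{b ∈ B | β b ∈ Bt'} := by exact_mod_cast h1
    calc L ≤ T * b := d7
      _ ≤ T * (4 * T * #Bt') := by gcongr
      _ = 4 * T ^ 2 * #Bt' := by ring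
      _ ≤ Cc * #{b ∈ B | β b ∈ Bt'} := by
        have : 4 * T ^ 2 ≤ Cc := by
          have := pow_pos hT0 2
          linarith
        gcongr
  · have h1 : re6N (re6R A' + κ • re6R {b ∈ B | β b ∈ Bt'}) ≤ #(A' + Bt') := by
      refine card_le_card ?_
      intro z hz
      obtain ⟨x, hx, rfl⟩ := mem_image.1 hz
      obtain ⟨u, hu, v, hv, rfl⟩ := mem_add.1 hx
      obtain ⟨a₁, ha₁, rfl⟩ := mem_image.1 hu
      obtain ⟨v', hv', rfl⟩ := mem_smul_finset.1 hv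
      obtain ⟨b₁, hb₁, rfl⟩ := mem_image.1 hv'
      rw [re6_Rd_emb_add, ← hβ]
      exact add_mem_add ha₁ (mem_filter.1 hb₁).2
    have h1' : (re6N (re6R A' + κ • re6R {b ∈ B | β b ∈ Bt'}) : ℝ) ≤ #(A' + Bt') := by exact_mod_cast h1
    refine h1'.trans ?_
    have hs0 : (0 : ℝ) ≤ #(A' + Bt') := by positivity
    have h2 : (#(A' + Bt') : ℝ) * L ^ 2 ≤ (2 ^ 15 * T ^ 7 * L) * L ^ 2 := by
      calc (#(A' + Bt') : ℝ) * L ^ 2 ≤ #(A' + Bt') * (T * (a * b)) := by gcongr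
        _ = T * (#(A' + Bt') * (a * b)) := by ring
        _ ≤ T * (2 ^ 15 * T ^ 5 * S ^ 3) := by gcongr
        _ ≤ T * (2 ^ 15 * T ^ 5 * (K * L) ^ 3) := by gcongr
        _ = 2 ^ 15 * T ^ 6 * K ^ 3 * L ^ 3 := by ring
        _ ≤ 2 ^ 15 * T ^ 6 * T * L ^ 3 := by gcongr
        _ = _ := by ring
    have h3 := le_of_mul_le_mul_right h2 (by positivity)
    exact h3.trans (by gcongr)
  · have h1 : #(G.image f ∩ A' ×ˢ Bt') ≤ #(G ∩ A' ×ˢ {b ∈ B | β b ∈ Bt'}) := by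
      have : G.image f ∩ A' ×ˢ Bt' ⊆ (G ∩ A' ×ˢ {b ∈ B | β b ∈ Bt'}).image f := by
        intro y hy
        obtain ⟨hy1, hy2⟩ := mem_inter.1 hy
        obtain ⟨p, hp, rfl⟩ := mem_image.1 hy1
        rw [hf, mem_product] at hy2
        refine mem_image_of_mem _ (mem_inter.2 ⟨hp, mem_product.2 ⟨hy2.1, mem_filter.2 ⟨(mem_product.1 (hG hp)).2, hy2.2⟩⟩⟩)
      exact (card_le_card this).trans card_image_le
    have h1' : (#(G.image f ∩ A' ×ˢ Bt') : ℝ) ≤ #(G ∩ A' ×ˢ {b ∈ B | β b ∈ Bt'}) := by exact_mod_cast h1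
    calc L ^ 2 ≤ T * (a * b) := d5
      _ ≤ T * (32 * T ^ 2 * #(G.image f ∩ A' ×ˢ Bt')) := by gcongr
      _ = 32 * T ^ 3 * #(G.image f ∩ A' ×ˢ Bt') := by ring
      _ ≤ Cc * #(G ∩ A' ×ˢ {b ∈ B | β b ∈ Bt'}) := by gcongr

end Claimed.Agent.R252

end PkRe6Ind

section PkRe6Sel

/-!
# Row 252, unit Re6.  CONTRACT `Sel`: the selection of `κ₀` in L re:common-sets (06a l.196-214), with a preliminary dyadic block.   Architect helper183.  Leaf L-252-RE6-SEL.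

PROOF.  (0) the blocks `{i : sign κ_i = ±, 2^k ≤ |κ_i| < 2^(k+1)}`, `|k| ≤ log₂ K + 1`, are at most `10 K`: one block `J` has `ν(J) ≥ 1/(10 K)`; ratios inside a block lie in `(1/2, 2)`.
(1) `f(p) = ∑_{i ∈ J} ν_i 1[p ∈ R_i]`:  `∑_{p ∈ U} f = ∑_{i∈J} ν_i #R_i ≥ ν(J) #U / K`,  Cauchy-Schwarz `∑_p f² ≥ ν(J)² #U / K²`,  `∑_p f² = ∑_{i,i' ∈ J} ν_i ν_i' #(R_i ∩ R_i')`:
one `i₀ ∈ J` has `∑_{i ∈ J} ν_i #(R_i ∩ R_i₀) ≥ ν(J) #U / K²`.   (2) `Rt = {i ∈ J : #(R_i ∩ R_i₀) ≥ #U / (2 K²)}` has `ν(Rt) ≥ ν(J) / (2 K²) ≥ 1 / (20 K³)`.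
-/

set_option autoImplicit false

namespace Claimed.Agent.R252

open Finset

/-- (0) a dyadic block of large mass -/
theorem re6_sel_block {ι : Type*} [Fintype ι] (K : ℝ) (ν κ : ι → ℝ) (hK : 1 ≤ K)
    (hν1 : ∑ i, ν i = 1) (hκlo : ∀ i, 1 / K ≤ |κ i|) (hκhi : ∀ i, |κ i| ≤ K) :
    ∃ J : Finset ι, 1 ≤ 8 * K * ∑ i ∈ J, ν i ∧ ∀ i ∈ J, ∀ i' ∈ J, 1 / 2 ≤ κ i / κ i' ∧ κ i / κ i' ≤ 2 := by
  classical
  have hK0 : 0 < K := by linarith
  set m : ℕ := ⌈K⌉₊ with hm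
  have hKm : K ≤ m := Nat.le_ceil K
  have hm0 : (0 : ℝ) < m := lt_of_lt_of_le hK0 hKm
  have hmK : (m : ℝ) ≤ K + 1 := (Nat.ceil_lt_add_one hK0.le).le
  have h2m : K < (2 : ℝ) ^ (m : ℤ) := by
    rw [zpow_natCast]
    exact lt_of_le_of_lt hKm (by exact_mod_cast Nat.lt_two_pow_self)
  have hpos : ∀ i, 0 < |κ i| := fun i => lt_of_lt_of_le (by positivity) (hκlo i)
  have hlo : ∀ i, (2 : ℝ) ^ Int.log 2 |κ i| ≤ |κ i| := fun i => by
    have := Int.zpow_log_le_self (b := 2) (by norm_num) (hpos i)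
    simpa using this
  have hhi : ∀ i, |κ i| < (2 : ℝ) ^ (Int.log 2 |κ i| + 1) := fun i => by
    have := Int.lt_zpow_succ_log_self (b := 2) (by norm_num) |κ i|
    simpa using this
  let c : ι → Bool × ℤ := fun i => (decide (0 < κ i), Int.log 2 |κ i|)
  let T : Finset (Bool × ℤ) := Finset.univ ×ˢ Finset.Ico (-(m : ℤ)) m
  have hcT : ∀ i ∈ (Finset.univ : Finset ι), c i ∈ T := by
    intro i _
    refine Finset.mem_product.2 ⟨Finset.mem_univ _, Finset.mem_Ico.2 ⟨?_, ?_⟩⟩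
    · have h1 : (2 : ℝ) ^ (-(m : ℤ)) < (2 : ℝ) ^ (Int.log 2 |κ i| + 1) := by
        refine lt_trans ?_ (hhi i)
        refine lt_of_lt_of_le ?_ (hκlo i)
        rw [zpow_neg, one_div]
        exact inv_strictAnti₀ hK0 h2m
      have := (zpow_lt_zpow_iff_right₀ (by norm_num : (1 : ℝ) < 2)).1 h1
      show -(m : ℤ) ≤ Int.log 2 |κ i|
      omega
    · have h1 : (2 : ℝ) ^ Int.log 2 |κ i| < (2 : ℝ) ^ (m : ℤ) := lt_of_le_of_lt ((hlo i).trans (hκhi i)) h2m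
      exact (zpow_lt_zpow_iff_right₀ (by norm_num : (1 : ℝ) < 2)).1 h1
  have hTcard : (#T : ℝ) = 4 * m := by
    have : #T = 2 * (2 * m) := by
      simp only [T, Finset.card_product, Finset.card_univ, Fintype.card_bool, Int.card_Ico]
      congr 1
      omega
    rw [this]; push_cast; ring
  have hTne : T.Nonempty := by
    rw [← Finset.card_pos]
    have : (0 : ℝ) < #T := by rw [hTcard]; positivity
    exact_mod_cast this
  obtain ⟨y, -, hy⟩ := Finset.exists_le_sum_fiber_of_maps_to_of_nsmul_le_sum (w := ν) (b := 1 / (4 * (m : ℝ))) hcT hTne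
    (by rw [hν1, nsmul_eq_mul, hTcard]; field_simp; exact le_refl _)
  refine ⟨Finset.univ.filter fun i => c i = y, ?_, ?_⟩
  · have h1 : 1 / (8 * K) ≤ 1 / (4 * (m : ℝ)) := by
      apply one_div_le_one_div_of_le (by positivity)
      linarith
    have h2 := h1.trans hy
    rw [div_le_iff₀ (by positivity)] at h2
    linarith
  · intro i hi i' hi'
    have e : c i = c i' := ((Finset.mem_filter.1 hi).2).trans ((Finset.mem_filter.1 hi').2).symm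
    have e1 : decide (0 < κ i) = decide (0 < κ i') := congrArg Prod.fst e
    have e2 : Int.log 2 |κ i| = Int.log 2 |κ i'| := congrArg Prod.snd e
    have hr : κ i / κ i' = |κ i| / |κ i'| := by
      by_cases h : 0 < κ i
      · have h' : 0 < κ i' := by simpa [h] using e1
        rw [abs_of_pos h, abs_of_pos h']
      · have h' : ¬ 0 < κ i' := by simpa [h] using e1
        rw [abs_of_nonpos (not_lt.1 h), abs_of_nonpos (not_lt.1 h'), neg_div_neg_eq]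
    have a1 := hlo i
    have a2 := hhi i
    have b1 := hlo i'
    have b2 := hhi i'
    rw [e2] at a1 a2
    have hz : (2 : ℝ) ^ (Int.log 2 |κ i'| + 1) = 2 * (2 : ℝ) ^ Int.log 2 |κ i'| := by
      rw [zpow_add_one₀ (by norm_num)]; ring
    rw [hz] at a2 b2
    rw [hr, le_div_iff₀ (hpos i'), div_le_iff₀ (hpos i')]
    constructor <;> linarith

/-- (1) Cauchy-Schwarz selection -/
theorem re6_sel_cs {ι α : Type*} [DecidableEq α] (K : ℝ) (ν : ι → ℝ) (U : Finset α) (R : ι → Finset α) (J : Finset ι) (hK : 1 ≤ K)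
    (hν0 : ∀ i, 0 ≤ ν i) (hJ : 0 < ∑ i ∈ J, ν i) (hRU : ∀ i, R i ⊆ U) (hR : ∀ i, (#U : ℝ) ≤ K * #(R i)) :
    ∃ i₀ ∈ J, (∑ i ∈ J, ν i) * #U ≤ K ^ 2 * ∑ i ∈ J, ν i * #(R i ∩ R i₀) := by
  classical
  have hK0 : 0 < K := by linarith
  set νJ := ∑ i ∈ J, ν i with hνJ
  let f : α → ℝ := fun p => ∑ i ∈ J, ν i * (if p ∈ R i then 1 else 0)
  have hcard : ∀ i, ∑ p ∈ U, (if p ∈ R i then (1 : ℝ) else 0) = #(R i) := by
    intro i
    rw [Finset.sum_ite_mem, Finset.sum_const, nsmul_eq_mul, mul_one, Finset.inter_eq_right.2 (hRU i)]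
  have hcard2 : ∀ i i', ∑ p ∈ U, (if p ∈ R i then (1 : ℝ) else 0) * (if p ∈ R i' then 1 else 0) = #(R i ∩ R i') := by
    intro i i'
    have : ∀ p, (if p ∈ R i then (1 : ℝ) else 0) * (if p ∈ R i' then 1 else 0) = if p ∈ R i ∩ R i' then 1 else 0 := by
      intro p
      by_cases h1 : p ∈ R i <;> by_cases h2 : p ∈ R i' <;> simp [h1, h2]
    simp only [this]
    rw [Finset.sum_ite_mem, Finset.sum_const, nsmul_eq_mul, mul_one,
      Finset.inter_eq_right.2 (Finset.inter_subset_left.trans (hRU i))]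
  have hsum : ∑ p ∈ U, f p = ∑ i ∈ J, ν i * #(R i) := by
    simp only [f]
    rw [Finset.sum_comm]
    refine Finset.sum_congr rfl fun i _ => ?_
    rw [← Finset.mul_sum, hcard]
  have hsq : ∑ p ∈ U, f p ^ 2 = ∑ i' ∈ J, ν i' * ∑ i ∈ J, ν i * #(R i ∩ R i') := by
    have e1 : ∀ p, f p ^ 2 = ∑ i' ∈ J, ∑ i ∈ J, ν i' * (ν i * ((if p ∈ R i then (1 : ℝ) else 0) * (if p ∈ R i' then 1 else 0))) := by
      intro p
      simp only [f]
      rw [sq, Finset.sum_mul_sum]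
      refine Finset.sum_congr rfl fun i' _ => Finset.sum_congr rfl fun i _ => ?_
      ring
    simp only [e1]
    rw [Finset.sum_comm]
    refine Finset.sum_congr rfl fun i' _ => ?_
    rw [Finset.sum_comm, Finset.mul_sum]
    refine Finset.sum_congr rfl fun i _ => ?_
    rw [← Finset.mul_sum, ← Finset.mul_sum, hcard2]
  have hlow : νJ * #U ≤ K * ∑ p ∈ U, f p := by
    rw [hsum, hνJ, Finset.sum_mul, Finset.mul_sum]
    refine Finset.sum_le_sum fun i _ => ?_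
    have := mul_le_mul_of_nonneg_left (hR i) (hν0 i)
    linarith
  have hcs : (∑ p ∈ U, f p) ^ 2 ≤ #U * ∑ p ∈ U, f p ^ 2 := sq_sum_le_card_mul_sum_sq
  by_contra hcon
  push Not at hcon
  -- all `S i' < νJ #U / K²`
  have hlt : K ^ 2 * ∑ i' ∈ J, ν i' * ∑ i ∈ J, ν i * #(R i ∩ R i') < νJ * (νJ * #U) := by
    obtain ⟨j, hjJ, hj⟩ : ∃ j ∈ J, 0 < ν j := by
      by_contra h
      push Not at h
      exact absurd hJ (not_lt.2 (Finset.sum_nonpos h))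
    have : ∑ i' ∈ J, ν i' * (K ^ 2 * ∑ i ∈ J, ν i * #(R i ∩ R i')) < ∑ i' ∈ J, ν i' * (νJ * #U) := by
      refine Finset.sum_lt_sum (fun i' hi' => mul_le_mul_of_nonneg_left (hcon i' hi').le (hν0 i')) ⟨j, hjJ, ?_⟩
      exact mul_lt_mul_of_pos_left (hcon j hjJ) hj
    rw [← Finset.sum_mul] at this
    calc K ^ 2 * ∑ i' ∈ J, ν i' * ∑ i ∈ J, ν i * #(R i ∩ R i')
        = ∑ i' ∈ J, ν i' * (K ^ 2 * ∑ i ∈ J, ν i * #(R i ∩ R i')) := by
          rw [Finset.mul_sum]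
          exact Finset.sum_congr rfl fun i' _ => by ring
      _ < νJ * (νJ * #U) := this
  rw [← hsq] at hlt
  have hU0 : (0 : ℝ) ≤ #U := Nat.cast_nonneg _
  have hf0 : 0 ≤ ∑ p ∈ U, f p := Finset.sum_nonneg fun p _ => Finset.sum_nonneg fun i _ =>
    mul_nonneg (hν0 i) (by split_ifs <;> norm_num)
  have h1 : (νJ * #U) ^ 2 ≤ K ^ 2 * (#U * ∑ p ∈ U, f p ^ 2) := by
    calc (νJ * #U) ^ 2 ≤ (K * ∑ p ∈ U, f p) ^ 2 := pow_le_pow_left₀ (by positivity) hlow 2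
      _ = K ^ 2 * (∑ p ∈ U, f p) ^ 2 := by ring
      _ ≤ K ^ 2 * (#U * ∑ p ∈ U, f p ^ 2) := mul_le_mul_of_nonneg_left hcs (by positivity)
  have h2 : #U * (K ^ 2 * ∑ p ∈ U, f p ^ 2) ≤ #U * (νJ * (νJ * #U)) := mul_le_mul_of_nonneg_left hlt.le hU0
  rcases eq_or_lt_of_le hU0 with h0 | h0
  · rw [← h0] at hlt
    have : 0 ≤ K ^ 2 * ∑ p ∈ U, f p ^ 2 := by positivity
    simp at hlt
    linarith
  · have h3 : #U * (K ^ 2 * ∑ p ∈ U, f p ^ 2) < #U * (νJ * (νJ * #U)) := mul_lt_mul_of_pos_left hlt h0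
    nlinarith

theorem re6_sel {ι α : Type*} [Fintype ι] [DecidableEq α] (K : ℝ) (ν κ : ι → ℝ) (U : Finset α) (R : ι → Finset α) (hK : 1 ≤ K)
    (hν0 : ∀ i, 0 ≤ ν i) (hν1 : ∑ i, ν i = 1) (hκlo : ∀ i, 1 / K ≤ |κ i|) (hκhi : ∀ i, |κ i| ≤ K)
    (hRU : ∀ i, R i ⊆ U) (hR : ∀ i, (#U : ℝ) ≤ K * #(R i)) :
    ∃ (i₀ : ι) (Rt : Finset ι), 1 ≤ 20 * K ^ 3 * ∑ i ∈ Rt, ν i ∧
      ∀ i ∈ Rt, 1 / 2 ≤ κ i / κ i₀ ∧ κ i / κ i₀ ≤ 2 ∧ (#U : ℝ) ≤ 2 * K ^ 2 * #(R i ∩ R i₀) := by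
  classical
  have hK0 : 0 < K := by linarith
  obtain ⟨J, hJ, hJr⟩ := re6_sel_block K ν κ hK hν1 hκlo hκhi
  have hJpos : 0 < ∑ i ∈ J, ν i := by
    by_contra h
    have : 8 * K * ∑ i ∈ J, ν i ≤ 0 := mul_nonpos_of_nonneg_of_nonpos (by positivity) (not_lt.1 h)
    linarith
  obtain ⟨i₀, hi₀, hS⟩ := re6_sel_cs K ν U R J hK hν0 hJpos hRU hR
  refine ⟨i₀, J.filter fun i => (#U : ℝ) ≤ 2 * K ^ 2 * #(R i ∩ R i₀), ?_, fun i hi => ?_⟩
  swap
  · obtain ⟨hiJ, hi2⟩ := Finset.mem_filter.1 hi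
    exact ⟨(hJr i hiJ i₀ hi₀).1, (hJr i hiJ i₀ hi₀).2, hi2⟩
  set νJ := ∑ i ∈ J, ν i with hνJ
  set Rt := J.filter fun i => (#U : ℝ) ≤ 2 * K ^ 2 * #(R i ∩ R i₀) with hRt
  have hU0 : (0 : ℝ) ≤ #U := Nat.cast_nonneg _
  have hK3 : K ≤ K ^ 3 := by
    calc K = K ^ 1 := (pow_one K).symm
      _ ≤ K ^ 3 := pow_le_pow_right₀ hK (by norm_num)
  rcases eq_or_lt_of_le hU0 with h0 | h0
  · have : Rt = J := by
      rw [hRt]
      refine Finset.filter_true_of_mem fun i _ => ?_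
      rw [← h0]; positivity
    rw [this]
    nlinarith
  · -- split the sum
    have hsplit : ∑ i ∈ J, ν i * #(R i ∩ R i₀)
        = ∑ i ∈ Rt, ν i * #(R i ∩ R i₀) + ∑ i ∈ J.filter (fun i => ¬ (#U : ℝ) ≤ 2 * K ^ 2 * #(R i ∩ R i₀)), ν i * #(R i ∩ R i₀) :=
      (Finset.sum_filter_add_sum_filter_not J _ _).symm
    have h1 : ∑ i ∈ Rt, ν i * #(R i ∩ R i₀) ≤ (∑ i ∈ Rt, ν i) * #U := by
      rw [Finset.sum_mul]
      refine Finset.sum_le_sum fun i _ => mul_le_mul_of_nonneg_left ?_ (hν0 i)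
      exact_mod_cast Finset.card_le_card (Finset.inter_subset_left.trans (hRU i))
    have h2 : K ^ 2 * ∑ i ∈ J.filter (fun i => ¬ (#U : ℝ) ≤ 2 * K ^ 2 * #(R i ∩ R i₀)), ν i * #(R i ∩ R i₀) ≤ νJ * #U / 2 := by
      calc K ^ 2 * ∑ i ∈ J.filter (fun i => ¬ (#U : ℝ) ≤ 2 * K ^ 2 * #(R i ∩ R i₀)), ν i * #(R i ∩ R i₀)
          = ∑ i ∈ J.filter (fun i => ¬ (#U : ℝ) ≤ 2 * K ^ 2 * #(R i ∩ R i₀)), ν i * (K ^ 2 * #(R i ∩ R i₀)) := by
            rw [Finset.mul_sum]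
            exact Finset.sum_congr rfl fun i _ => by ring
        _ ≤ ∑ i ∈ J.filter (fun i => ¬ (#U : ℝ) ≤ 2 * K ^ 2 * #(R i ∩ R i₀)), ν i * (#U / 2) := by
            refine Finset.sum_le_sum fun i hi => mul_le_mul_of_nonneg_left ?_ (hν0 i)
            have := not_le.1 (Finset.mem_filter.1 hi).2
            linarith
        _ ≤ ∑ i ∈ J, ν i * (#U / 2) :=
            Finset.sum_le_sum_of_subset_of_nonneg (Finset.filter_subset _ _) fun i _ _ => mul_nonneg (hν0 i) (by positivity)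
        _ = νJ * #U / 2 := by rw [← Finset.sum_mul]; ring
    rw [hsplit, mul_add] at hS
    have h3 : νJ * #U / 2 ≤ K ^ 2 * ((∑ i ∈ Rt, ν i) * #U) := by
      have := mul_le_mul_of_nonneg_left h1 (by positivity : (0 : ℝ) ≤ K ^ 2)
      linarith
    have h4 : νJ / 2 ≤ K ^ 2 * ∑ i ∈ Rt, ν i := by
      have : (νJ / 2) * #U ≤ (K ^ 2 * ∑ i ∈ Rt, ν i) * #U := by linarith
      exact le_of_mul_le_mul_right this h0
    have h5 : 8 * K * (νJ / 2) ≤ 8 * K * (K ^ 2 * ∑ i ∈ Rt, ν i) := mul_le_mul_of_nonneg_left h4 (by positivity)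
    have h6 : 0 ≤ K ^ 3 * ∑ i ∈ Rt, ν i := mul_nonneg (by positivity) (Finset.sum_nonneg fun i _ => hν0 i)
    nlinarith

end Claimed.Agent.R252

end PkRe6Sel

section PkRe6Common

/-!
# Row 252, unit Re6.  CONTRACT `Common`: L re:common-sets (a common pair and scalar closure).   Architect helper183.  GLUE (leaf L-252-RE6-COMMON).

From `re6_ind` (for every index), `re6_sel` (universe `A ×ˢ B`, `R i = A_i ×ˢ B_i`; `(A_i ×ˢ B_i) ∩ (A_0 ×ˢ B_0) = (A_i ∩ A_0) ×ˢ (B_i ∩ B_0)`, each factor has `≤ K L` points),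
`re6_chain` (for every `i ∈ Rt`), `re6_clos H`.
-/

set_option autoImplicit false

namespace Claimed.Agent.R252

open Finset
open scoped Pointwise

theorem re6_P_le (K : ℝ) (hK : 1 ≤ K) (a e n : ℕ) (ha : a ≤ n) (he : e ≤ n) : (a : ℝ) * K ^ e ≤ n * K ^ n :=
  mul_le_mul (by exact_mod_cast ha) (pow_le_pow_right₀ hK he) (by positivity) (by positivity)

theorem re6_P_one_le (K : ℝ) (hK : 1 ≤ K) (n : ℕ) (hn : 1 ≤ n) : 1 ≤ (n : ℝ) * K ^ n := by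
  have := re6_P_le K hK 1 0 n hn (Nat.zero_le _)
  simpa using this

theorem re6_common_aux (L c K x y : ℝ) (hL : 0 < L) (hc : 0 ≤ c) (hx : 0 ≤ x) (h : L ^ 2 ≤ c * (x * y)) (hy : y ≤ K * L) : L ≤ c * K * x := by
  have h1 : c * (x * y) ≤ c * (x * (K * L)) := mul_le_mul_of_nonneg_left (mul_le_mul_of_nonneg_left hy hx) hc
  have h2 : L * L ≤ (c * K * x) * L := by
    calc L * L = L ^ 2 := (sq L).symm
      _ ≤ c * (x * (K * L)) := h.trans h1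
      _ = (c * K * x) * L := by ring
  exact le_of_mul_le_mul_right h2 hL

theorem re6_common (H : ℕ) : ∃ C : ℕ, ∀ (L K S : ℝ) (ι : Type) [Fintype ι] (A B : Finset (ℤ × ℤ)) (ν κ : ι → ℝ)
    (G : ι → Finset ((ℤ × ℤ) × (ℤ × ℤ))), 1 ≤ L → 1 ≤ K → Re6Planar L K S A B ν κ G →
    ∃ (i₀ : ι) (Rt : Finset ι), ∃ A' ⊆ A, ∃ B' ⊆ B, 1 ≤ C * K ^ C * ∑ i ∈ Rt, ν i ∧
      (∀ i ∈ Rt, 1 / 2 ≤ κ i / κ i₀ ∧ κ i / κ i₀ ≤ 2) ∧ L ^ 2 ≤ C * K ^ C * #(G i₀ ∩ A' ×ˢ B') ∧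
      ∀ c ∈ re6Gen H {t | ∃ i ∈ Rt, t = κ i / κ i₀}, (re6N (re6R A' + c • ((-κ i₀) • re6R B')) : ℝ) ≤ C * K ^ C * L := by
  classical
  obtain ⟨C₁, h₁⟩ := re6_ind
  obtain ⟨C₃, h₃⟩ := re6_chain
  obtain ⟨C₄, h₄⟩ := re6_clos H
  obtain ⟨n₁, hn₁⟩ : ∃ n₁ : ℕ, n₁ = C₁ + 1 := ⟨_, rfl⟩
  obtain ⟨n₂, hn₂⟩ : ∃ n₂ : ℕ, n₂ = n₁ ^ 2 + 2 * n₁ + 2 := ⟨_, rfl⟩
  obtain ⟨n₃, hn₃⟩ : ∃ n₃ : ℕ, n₃ = 2 * n₁ ^ 2 * n₂ ^ 2 + 2 * n₁ + 2 * n₂ + 1 := ⟨_, rfl⟩
  obtain ⟨n₇, hn₇⟩ : ∃ n₇ : ℕ, n₇ = C₃ * n₃ ^ C₃ * n₁ + n₃ * C₃ + n₁ := ⟨_, rfl⟩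
  obtain ⟨C, hC⟩ : ∃ C : ℕ, C = (20 * n₂ ^ 3 + 3 * n₂) + n₁ + (C₄ * n₇ ^ C₄ + n₇ * C₄ + 1) := ⟨_, rfl⟩
  refine ⟨C, ?_⟩
  intro L K S ι _ A B ν κ G hL hK hP
  have hL0 : 0 < L := by linarith
  have hK0 : 0 < K := by linarith
  obtain ⟨K₁, hK₁⟩ : ∃ K₁ : ℝ, K₁ = n₁ * K ^ n₁ := ⟨_, rfl⟩
  obtain ⟨K₂, hK₂⟩ : ∃ K₂ : ℝ, K₂ = n₂ * K ^ n₂ := ⟨_, rfl⟩
  obtain ⟨K₅, hK₅⟩ : ∃ K₅ : ℝ, K₅ = n₃ * K ^ n₃ := ⟨_, rfl⟩
  obtain ⟨K₇, hK₇⟩ : ∃ K₇ : ℝ, K₇ = n₇ * K ^ n₇ := ⟨_, rfl⟩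
  obtain ⟨KC, hKC⟩ : ∃ KC : ℝ, KC = C * K ^ C := ⟨_, rfl⟩
  rw [← hKC]
  -- relations between the constants
  have c1 : (C₁ : ℝ) * K ^ C₁ ≤ K₁ := by rw [hK₁]; exact re6_P_le K hK _ _ _ (by omega) (by omega)
  have o1 : 1 ≤ K₁ := by rw [hK₁]; exact re6_P_one_le K hK _ (by omega)
  have o2 : 1 ≤ K₂ := by rw [hK₂]; exact re6_P_one_le K hK _ (by omega)
  have o5 : 1 ≤ K₅ := by rw [hK₅]; exact re6_P_one_le K hK _ (by omega)
  have o7 : 1 ≤ K₇ := by rw [hK₇]; exact re6_P_one_le K hK _ (by omega)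
  have kK2 : K ≤ K₂ := by
    have := re6_P_le K hK 1 1 n₂ (by omega) (by omega)
    rw [hK₂]; simpa using this
  have kK5 : K ≤ K₅ := by
    have := re6_P_le K hK 1 1 n₃ (by omega) (by omega)
    rw [hK₅]; simpa using this
  have k15 : K₁ ≤ K₅ := by rw [hK₁, hK₅]; exact re6_P_le K hK _ _ _ (by omega) (by omega)
  have c2 : K ^ 2 * K₁ ^ 2 ≤ K₂ := by
    have e : K ^ 2 * K₁ ^ 2 = ((n₁ ^ 2 : ℕ) : ℝ) * K ^ (2 * n₁ + 2) := by
      rw [hK₁]; push_cast; ring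
    rw [e, hK₂]
    exact re6_P_le K hK _ _ _ (by omega) (by omega)
  have c3 : K₁ ^ 2 * (2 * K₂ ^ 2) * K ≤ K₅ := by
    have e : K₁ ^ 2 * (2 * K₂ ^ 2) * K = ((2 * n₁ ^ 2 * n₂ ^ 2 : ℕ) : ℝ) * K ^ (2 * n₁ + 2 * n₂ + 1) := by
      rw [hK₁, hK₂]; push_cast; ring
    rw [e, hK₅]
    exact re6_P_le K hK _ _ _ (by omega) (by omega)
  have c7 : (C₃ : ℝ) * K₅ ^ C₃ * K₁ ≤ K₇ := by
    have e : (C₃ : ℝ) * K₅ ^ C₃ * K₁ = ((C₃ * n₃ ^ C₃ * n₁ : ℕ) : ℝ) * K ^ (n₃ * C₃ + n₁) := by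
      rw [hK₁, hK₅, mul_pow, ← pow_mul]; push_cast; ring
    rw [e, hK₇]
    exact re6_P_le K hK _ _ _ (by omega) (by omega)
  have ca : 20 * K₂ ^ 3 ≤ KC := by
    have e : 20 * K₂ ^ 3 = ((20 * n₂ ^ 3 : ℕ) : ℝ) * K ^ (3 * n₂) := by
      rw [hK₂]; push_cast; ring
    rw [e, hKC]
    exact re6_P_le K hK _ _ _ (by omega) (by omega)
  have cb : K₁ ≤ KC := by rw [hK₁, hKC]; exact re6_P_le K hK _ _ _ (by omega) (by omega)
  have cc : (C₄ : ℝ) * K₇ ^ C₄ * K ≤ KC := by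
    have e : (C₄ : ℝ) * K₇ ^ C₄ * K = ((C₄ * n₇ ^ C₄ : ℕ) : ℝ) * K ^ (n₇ * C₄ + 1) := by
      rw [hK₇, mul_pow, ← pow_mul]; push_cast; ring
    rw [e, hKC]
    exact re6_P_le K hK _ _ _ (by omega) (by omega)
  -- step 1
  have hind : ∀ i, ∃ A' ⊆ A, ∃ B' ⊆ B, L ≤ K₁ * #A' ∧ L ≤ K₁ * #B' ∧
      (re6N (re6R A' + κ i • re6R B') : ℝ) ≤ K₁ * L ∧ L ^ 2 ≤ K₁ * #(G i ∩ A' ×ˢ B') := by
    intro i
    obtain ⟨A', hA', B', hB', a1, a2, a3, a4⟩ := h₁ L K (κ i) A B (G i) hL hK (hP.hκlo i) (hP.hκhi i) hP.hAhi hP.hBhi (hP.hGsub i)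
      (hP.hGlo i) (hP.hsum i)
    exact ⟨A', hA', B', hB', a1.trans (mul_le_mul_of_nonneg_right c1 (Nat.cast_nonneg _)),
      a2.trans (mul_le_mul_of_nonneg_right c1 (Nat.cast_nonneg _)), a3.trans (mul_le_mul_of_nonneg_right c1 hL0.le),
      a4.trans (mul_le_mul_of_nonneg_right c1 (Nat.cast_nonneg _))⟩
  choose Ai hAi Bi hBi hA1 hB1 hN1 hG1 using hind
  have hcA : ∀ i, (#(Ai i) : ℝ) ≤ K * L := fun i => le_trans (by exact_mod_cast card_le_card (hAi i)) hP.hAhi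
  have hcB : ∀ i, (#(Bi i) : ℝ) ≤ K * L := fun i => le_trans (by exact_mod_cast card_le_card (hBi i)) hP.hBhi
  have hLL : ∀ i, L ^ 2 ≤ K₁ ^ 2 * ((#(Ai i) : ℝ) * #(Bi i)) := by
    intro i
    calc L ^ 2 = L * L := sq L
      _ ≤ (K₁ * #(Ai i)) * (K₁ * #(Bi i)) := mul_le_mul (hA1 i) (hB1 i) hL0.le (by positivity)
      _ = _ := by ring
  -- step 2
  obtain ⟨i₀, Rt, hRt, hsel⟩ := re6_sel K₂ ν κ (A ×ˢ B) (fun i => Ai i ×ˢ Bi i) o2 hP.hν0 hP.hν1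
    (fun i => le_trans (one_div_le_one_div_of_le hK0 kK2) (hP.hκlo i)) (fun i => (hP.hκhi i).trans kK2)
    (fun i => product_subset_product (hAi i) (hBi i)) (fun i => by
      rw [card_product, card_product]
      push_cast
      calc (#A : ℝ) * #B ≤ (K * L) * (K * L) := mul_le_mul hP.hAhi hP.hBhi (Nat.cast_nonneg _) (by positivity)
        _ = K ^ 2 * L ^ 2 := by ring
        _ ≤ K ^ 2 * (K₁ ^ 2 * ((#(Ai i) : ℝ) * #(Bi i))) := mul_le_mul_of_nonneg_left (hLL i) (by positivity)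
        _ = (K ^ 2 * K₁ ^ 2) * ((#(Ai i) : ℝ) * #(Bi i)) := by ring
        _ ≤ K₂ * ((#(Ai i) : ℝ) * #(Bi i)) := mul_le_mul_of_nonneg_right c2 (by positivity))
  have hne : Rt.Nonempty := by
    rcases Rt.eq_empty_or_nonempty with h | h
    · rw [h, sum_empty, mul_zero] at hRt
      linarith
    · exact h
  -- step 3
  have hint : ∀ i ∈ Rt, L ≤ K₅ * #(Ai i ∩ Ai i₀) ∧ L ≤ K₅ * #(Bi i ∩ Bi i₀) := by
    intro i hi
    have h1 := (hsel i hi).2.2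
    rw [product_inter_product, card_product, card_product] at h1
    push_cast at h1
    have h2 : (#(Ai i₀) : ℝ) * #(Bi i₀) ≤ (#A : ℝ) * #B :=
      mul_le_mul (by exact_mod_cast card_le_card (hAi i₀)) (by exact_mod_cast card_le_card (hBi i₀)) (Nat.cast_nonneg _) (Nat.cast_nonneg _)
    have h3 : L ^ 2 ≤ (K₁ ^ 2 * (2 * K₂ ^ 2)) * ((#(Ai i ∩ Ai i₀) : ℝ) * #(Bi i ∩ Bi i₀)) := by
      calc L ^ 2 ≤ K₁ ^ 2 * ((#(Ai i₀) : ℝ) * #(Bi i₀)) := hLL i₀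
        _ ≤ K₁ ^ 2 * (2 * K₂ ^ 2 * ((#(Ai i ∩ Ai i₀) : ℝ) * #(Bi i ∩ Bi i₀))) := mul_le_mul_of_nonneg_left (h2.trans h1) (by positivity)
        _ = _ := by ring
    have hyB : (#(Bi i ∩ Bi i₀) : ℝ) ≤ K * L := le_trans (by exact_mod_cast card_le_card inter_subset_left) (hcB i)
    have hyA : (#(Ai i ∩ Ai i₀) : ℝ) ≤ K * L := le_trans (by exact_mod_cast card_le_card inter_subset_left) (hcA i)
    refine ⟨?_, ?_⟩
    · exact (re6_common_aux L _ K _ _ hL0 (by positivity) (Nat.cast_nonneg _) h3 hyB).trans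
        (mul_le_mul_of_nonneg_right c3 (Nat.cast_nonneg _))
    · rw [mul_comm (#(Ai i ∩ Ai i₀) : ℝ)] at h3
      exact (re6_common_aux L _ K _ _ hL0 (by positivity) (Nat.cast_nonneg _) h3 hyA).trans
        (mul_le_mul_of_nonneg_right c3 (Nat.cast_nonneg _))
  -- step 4
  have hKL5 : K * L ≤ K₅ * L := mul_le_mul_of_nonneg_right kK5 hL0.le
  have hK1L5 : K₁ * L ≤ K₅ * L := mul_le_mul_of_nonneg_right k15 hL0.le
  have hch : ∀ i ∈ Rt, (re6N (re6R (Ai i₀) - re6R (Ai i₀)) : ℝ) ≤ C₃ * K₅ ^ C₃ * L ∧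
      (re6N (re6R (Ai i₀) - (-κ i₀) • re6R (Bi i₀)) : ℝ) ≤ C₃ * K₅ ^ C₃ * L ∧
      (re6N (re6R (Ai i₀) - (κ i / κ i₀) • re6R (Ai i₀)) : ℝ) ≤ C₃ * K₅ ^ C₃ * L := by
    intro i hi
    exact h₃ L K₅ (κ i₀) (κ i) (Ai i₀) (Bi i₀) (Ai i) (Bi i) hL o5
      (le_trans (one_div_le_one_div_of_le hK0 kK5) (hP.hκlo i₀)) ((hP.hκhi i₀).trans kK5) (hsel i hi).1 (hsel i hi).2.1
      ((hcA i₀).trans hKL5) ((hcB i₀).trans hKL5) ((hcA i).trans hKL5) ((hcB i).trans hKL5)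
      ((hN1 i₀).trans hK1L5) ((hN1 i).trans hK1L5) (hint i hi).1 (hint i hi).2
  -- step 5
  have hNE : (re6N (re6R (Ai i₀)) : ℝ) = #(Ai i₀) := by rw [re6_N_R]
  have hup : ∀ x : ℝ, x ≤ C₃ * K₅ ^ C₃ * L → x ≤ K₇ * re6N (re6R (Ai i₀)) := by
    intro x hx
    rw [hNE]
    calc x ≤ C₃ * K₅ ^ C₃ * L := hx
      _ ≤ C₃ * K₅ ^ C₃ * (K₁ * #(Ai i₀)) := mul_le_mul_of_nonneg_left (hA1 i₀) (by positivity)
      _ = (C₃ * K₅ ^ C₃ * K₁) * #(Ai i₀) := by ring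
      _ ≤ K₇ * #(Ai i₀) := mul_le_mul_of_nonneg_right c7 (Nat.cast_nonneg _)
  have hEne : (re6R (Ai i₀)).Nonempty := by
    have h1 : (0 : ℝ) < #(Ai i₀) := by
      by_contra hcon
      have h2 : (#(Ai i₀) : ℝ) = 0 := le_antisymm (not_lt.1 hcon) (Nat.cast_nonneg _)
      have h3 := hA1 i₀
      rw [h2, mul_zero] at h3
      linarith
    have h2 : 0 < #(Ai i₀) := by exact_mod_cast h1
    unfold re6R
    exact (card_pos.1 h2).image _
  obtain ⟨j, hj⟩ := hne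
  have hclos := h₄ K₇ (re6R (Ai i₀)) ((-κ i₀) • re6R (Bi i₀)) {t | ∃ i ∈ Rt, t = κ i / κ i₀} o7 hEne
    (by
      rintro t ⟨i, hi, rfl⟩
      exact ⟨(hsel i hi).1, (hsel i hi).2.1⟩)
    (hup _ (hch j hj).1) (hup _ (hch j hj).2.1)
    (by
      rintro t ⟨i, hi, rfl⟩
      exact hup _ (hch i hi).2.2)
  refine ⟨i₀, Rt, Ai i₀, hAi i₀, Bi i₀, hBi i₀, ?_, fun i hi => ⟨(hsel i hi).1, (hsel i hi).2.1⟩, ?_, ?_⟩
  · exact hRt.trans (mul_le_mul_of_nonneg_right ca (sum_nonneg fun i _ => hP.hν0 i))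
  · exact (hG1 i₀).trans (mul_le_mul_of_nonneg_right cb (Nat.cast_nonneg _))
  · intro c hc
    calc (re6N (re6R (Ai i₀) + c • ((-κ i₀) • re6R (Bi i₀))) : ℝ) ≤ C₄ * K₇ ^ C₄ * re6N (re6R (Ai i₀)) := hclos c hc
      _ ≤ C₄ * K₇ ^ C₄ * (K * L) := by
          rw [hNE]
          exact mul_le_mul_of_nonneg_left (hcA i₀) (by positivity)
      _ = (C₄ * K₇ ^ C₄ * K) * L := by ring
      _ ≤ KC * L := mul_le_mul_of_nonneg_right cc hL0.le

end Claimed.Agent.R252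

end PkRe6Common
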