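-- KEEP
import Claimed.Agent.R252.Re6.FitDefs
import Claimed.Agent.RW.Export
import Claimed.Agent.R252.Re6.PkA

/-! PACKED FILE (helper183, closed unit Re6 = Sec 6a of row 252, FROZEN): parts Re6.RingGain, Re6.RingGainA, Re6.RingNet, Re6.RingStep, Re6.Ring, Re6.StrA, Re6.StrB, Re6.Strips.  Each part is wrapped in its own `section`. -/

section PkRe6RingGain

/-!
# Row 252, unit Re6.  `RingGain` (PROVED, helper270): the single-scale gain from `RW.ex_W1`.   Architect helper183.  Leaf L-252-RE6-RING-GAIN.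

Three independent finite (sub)laws: `(Ω₁, w₁, X₁)` Frostman `β = σ - min S σ / 2` at all scales `[ρ, 1]`, `(Ω₂, w₂, X₂)` with atoms `≤ ρ^(σ-χ)` at the scale `ρ`, `(ι, ν, T)` Frostman `S`.
Then, on an event `Gd` whose complement `Bad` has mass `≤ ρ^χ`, the law of `X₂ + T X₁` has atoms `≤ 3 ρ^(σ+χ/2)` at the scale `ρ`.

PROOF.  `χ, ρ₁` from `RW.ex_W1 β S σ 2` (`σ < min 1 (β + S)`); shrink `ρ₁ ≤ 1`.   Points `X = Ω₁ × Ω₂`, `pt = (X₁, X₂)`, `μ = w₁ w₂`, tags `ι`, `sl = -T` (`kfProj a (x,y) = y - a x`; `KfFrost ν (-T)` from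
`KfFrost ν T` by reflection), reference law `(lam, xr) = (w₁, X₁)`; `hU`: the sup-metric ball is a product.   For a tag `i` and `k : ℤ` let `λ_i(k)` = the `μ`-mass of `⌊(X₂ + T_i X₁)/ρ⌋ = k`;
`Heavy_i = {k : λ_i(k) > thr}`, `thr = ρ^(σ+χ/2)`: `#Heavy_i ≤ 1/thr`.   `Bad = {(ω₂, i, ω₁) : ⌊(X₂+T_i X₁)/ρ⌋ ∈ Heavy_i}`, `cov i = {k ρ : k ∈ Heavy_i}`, `M = ⌊1/thr⌋`.
If `mass Bad ≥ ρ^χ`, `ex_W1` gives `ρ^(-σ-χ) ≤ M ≤ ρ^(-σ-χ/2)`: absurd (`ρ < 1`).   An interval `[x-ρ, x+ρ]` meets `≤ 3` cells, each not heavy off `Bad`; sum over `i` with `∑ ν ≤ 1`.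
-/

set_option autoImplicit false

namespace Claimed.Agent.R252

open Finset

/-- number of heavy fibres -/
theorem re6_rg_heavy_card {X : Type} [Fintype X] (μ : X → ℝ) (f : X → ℤ) (thr : ℝ) (hμ0 : ∀ x, 0 ≤ μ x) (hμ1 : ∑ x, μ x ≤ 1)
    (hthr : 0 < thr) :
    #((univ.image f).filter fun k => thr < ∑ x with f x = k, μ x) ≤ ⌊1 / thr⌋₊ := by
  classical
  apply Nat.le_floor
  rw [le_div_iff₀ hthr]
  calc (#((univ.image f).filter fun k => thr < ∑ x with f x = k, μ x) : ℝ) * thr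
      = ∑ k ∈ (univ.image f).filter (fun k => thr < ∑ x with f x = k, μ x), thr := by
        rw [Finset.sum_const, nsmul_eq_mul]
    _ ≤ ∑ k ∈ (univ.image f).filter (fun k => thr < ∑ x with f x = k, μ x), ∑ x with f x = k, μ x := by
        apply Finset.sum_le_sum
        intro k hk
        exact (Finset.mem_filter.1 hk).2.le
    _ ≤ ∑ k ∈ univ.image f, ∑ x with f x = k, μ x := by
        apply Finset.sum_le_sum_of_subset_of_nonneg (Finset.filter_subset _ _)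
        intro k _ _
        exact Finset.sum_nonneg fun x _ => hμ0 x
    _ = ∑ x, μ x := by
        exact Finset.sum_fiberwise_of_maps_to (fun x _ => Finset.mem_image_of_mem f (Finset.mem_univ x)) μ
    _ ≤ 1 := hμ1

/-- an interval of length `2ρ` meets at most three `ρ`-cells -/
theorem re6_rg_three {ρ t x : ℝ} (hρ : 0 < ρ) (h : |t - x| ≤ ρ) :
    ⌊t / ρ⌋ = ⌊x / ρ⌋ - 1 ∨ ⌊t / ρ⌋ = ⌊x / ρ⌋ ∨ ⌊t / ρ⌋ = ⌊x / ρ⌋ + 1 := by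
  obtain ⟨h1, h2⟩ := abs_le.1 h
  have h3 : ⌊x / ρ⌋ - 1 ≤ ⌊t / ρ⌋ := by
    rw [← Int.floor_sub_one]
    apply Int.floor_le_floor
    rw [div_sub_one hρ.ne']
    apply div_le_div_of_nonneg_right _ hρ.le
    linarith
  have h4 : ⌊t / ρ⌋ ≤ ⌊x / ρ⌋ + 1 := by
    rw [← Int.floor_add_one]
    apply Int.floor_le_floor
    rw [div_add_one hρ.ne']
    apply div_le_div_of_nonneg_right _ hρ.le
    linarith
  omega

/-- the light part of one cell has mass `≤ thr` -/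
theorem re6_rg_cell {X ι : Type} [Fintype X] [Fintype ι] (μ : X → ℝ) (ν : ι → ℝ) (cl : ι → X → ℤ) (thr : ℝ)
    (hμ0 : ∀ x, 0 ≤ μ x) (hν0 : ∀ i, 0 ≤ ν i) (hν1 : ∑ i, ν i ≤ 1) (hthr : 0 ≤ thr) (j : ℤ) :
    ∑ q : X × ι with (¬ thr < ∑ y with cl q.2 y = cl q.2 q.1, μ y) ∧ cl q.2 q.1 = j, μ q.1 * ν q.2 ≤ thr := by
  classical
  rw [Finset.sum_filter, Fintype.sum_prod_type_right]
  have key : ∀ i : ι, ∑ x : X, (if (¬ thr < ∑ y with cl i y = cl i x, μ y) ∧ cl i x = j then μ x * ν i else 0) ≤ thr * ν i := by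
    intro i
    rw [← Finset.sum_filter]
    by_cases hj : thr < ∑ y with cl i y = j, μ y
    · rw [Finset.sum_eq_zero]
      · exact mul_nonneg hthr (hν0 i)
      · intro x hx
        obtain ⟨h1, h2⟩ := (Finset.mem_filter.1 hx).2
        rw [h2] at h1
        exact absurd hj h1
    · calc ∑ x with (¬ thr < ∑ y with cl i y = cl i x, μ y) ∧ cl i x = j, μ x * ν i
          ≤ ∑ x with cl i x = j, μ x * ν i := by
            apply Finset.sum_le_sum_of_subset_of_nonneg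
            · intro x hx
              exact Finset.mem_filter.2 ⟨Finset.mem_univ _, (Finset.mem_filter.1 hx).2.2⟩
            · intro x _ _
              exact mul_nonneg (hμ0 x) (hν0 i)
        _ = (∑ x with cl i x = j, μ x) * ν i := by rw [Finset.sum_mul]
        _ ≤ thr * ν i := mul_le_mul_of_nonneg_right (not_lt.1 hj) (hν0 i)
  calc ∑ i : ι, ∑ x : X, (if (¬ thr < ∑ y with cl i y = cl i x, μ y) ∧ cl i x = j then μ x * ν i else 0)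
      ≤ ∑ i : ι, thr * ν i := Finset.sum_le_sum fun i _ => key i
    _ = thr * ∑ i, ν i := by rw [Finset.mul_sum]
    _ ≤ thr * 1 := mul_le_mul_of_nonneg_left hν1 hthr
    _ = thr := mul_one _

/-- off the heavy cells the law of `t` has atoms `≤ 3 thr` -/
theorem re6_rg_light {X ι : Type} [Fintype X] [Fintype ι] (μ : X → ℝ) (ν : ι → ℝ) (t : ι → X → ℝ) (ρ thr : ℝ) (hρ : 0 < ρ)
    (hμ0 : ∀ x, 0 ≤ μ x) (hν0 : ∀ i, 0 ≤ ν i) (hν1 : ∑ i, ν i ≤ 1) (hthr : 0 ≤ thr) (x : ℝ) :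
    ∑ q : X × ι with (¬ thr < ∑ y with ⌊t q.2 y / ρ⌋ = ⌊t q.2 q.1 / ρ⌋, μ y) ∧ |t q.2 q.1 - x| ≤ ρ, μ q.1 * ν q.2 ≤ 3 * thr := by
  classical
  have hmaps : ∀ q ∈ (univ : Finset (X × ι)).filter
      (fun q => (¬ thr < ∑ y with ⌊t q.2 y / ρ⌋ = ⌊t q.2 q.1 / ρ⌋, μ y) ∧ |t q.2 q.1 - x| ≤ ρ),
      ⌊t q.2 q.1 / ρ⌋ ∈ ({⌊x / ρ⌋ - 1, ⌊x / ρ⌋, ⌊x / ρ⌋ + 1} : Finset ℤ) := by
    intro q hq
    have := re6_rg_three hρ (Finset.mem_filter.1 hq).2.2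
    simpa using this
  rw [← Finset.sum_fiberwise_of_maps_to hmaps]
  calc _ ≤ ∑ j ∈ ({⌊x / ρ⌋ - 1, ⌊x / ρ⌋, ⌊x / ρ⌋ + 1} : Finset ℤ), thr := by
        apply Finset.sum_le_sum
        intro j _
        refine le_trans ?_ (re6_rg_cell μ ν (fun i y => ⌊t i y / ρ⌋) thr hμ0 hν0 hν1 hthr j)
        apply Finset.sum_le_sum_of_subset_of_nonneg
        · intro q hq
          obtain ⟨h1, h2⟩ := Finset.mem_filter.1 hq
          exact Finset.mem_filter.2 ⟨Finset.mem_univ _, (Finset.mem_filter.1 h1).2.1, h2⟩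
        · intro q _ _
          exact mul_nonneg (hμ0 _) (hν0 _)
    _ = (#({⌊x / ρ⌋ - 1, ⌊x / ρ⌋, ⌊x / ρ⌋ + 1} : Finset ℤ) : ℝ) * thr := by rw [Finset.sum_const, nsmul_eq_mul]
    _ ≤ 3 * thr := by
        apply mul_le_mul_of_nonneg_right _ hthr
        exact_mod_cast Finset.card_le_three

/-- the heavy cells are covered by `⌊1/thr⌋` intervals -/
theorem re6_rg_cov {X ι : Type} [Fintype X] [Fintype ι] (μ : X → ℝ) (t : ι → X → ℝ) (ρ thr : ℝ) (hρ : 0 < ρ)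
    (hμ0 : ∀ x, 0 ≤ μ x) (hμ1 : ∑ x, μ x ≤ 1) (hthr : 0 < thr) :
    ∃ cov : ι → Finset ℝ, (∀ b, (cov b).card ≤ ⌊1 / thr⌋₊) ∧
      ∀ b, RW.KfCov (cov b) ρ {s | ∃ x, (x, b) ∈ (univ : Finset (X × ι)).filter
        (fun q => thr < ∑ y with ⌊t q.2 y / ρ⌋ = ⌊t q.2 q.1 / ρ⌋, μ y) ∧ s = t b x} := by
  classical
  refine ⟨fun b => (((univ : Finset X).image fun y => ⌊t b y / ρ⌋).filter
    fun k => thr < ∑ y with ⌊t b y / ρ⌋ = k, μ y).image fun k : ℤ => (k : ℝ) * ρ, fun b => ?_, fun b => ?_⟩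
  · exact Finset.card_image_le.trans (re6_rg_heavy_card μ (fun y => ⌊t b y / ρ⌋) thr hμ0 hμ1 hthr)
  · rintro s ⟨x, hx, rfl⟩
    have hx' := (Finset.mem_filter.1 hx).2
    refine ⟨(⌊t b x / ρ⌋ : ℝ) * ρ, Finset.mem_image.2 ⟨⌊t b x / ρ⌋, Finset.mem_filter.2
      ⟨Finset.mem_image_of_mem _ (Finset.mem_univ x), hx'⟩, rfl⟩, ?_, ?_⟩
    · rw [← le_div_iff₀ hρ]
      exact Int.floor_le _
    · have h1 : t b x / ρ < ⌊t b x / ρ⌋ + 1 := Int.lt_floor_add_one _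
      rw [div_lt_iff₀ hρ] at h1
      linarith

/-- the reindexing of the triples -/
def re6RgE (Ω₁ Ω₂ ι : Type) : Ω₂ × ι × Ω₁ ≃ (Ω₁ × Ω₂) × ι where
  toFun p := ((p.2.2, p.1), p.2.1)
  invFun q := (q.1.2, q.2, q.1.1)
  left_inv _ := rfl
  right_inv _ := rfl

theorem re6_rg_reindex {Ω₁ Ω₂ ι : Type} [Fintype Ω₁] [Fintype Ω₂] [Fintype ι] (w₁ : Ω₁ → ℝ) (w₂ : Ω₂ → ℝ) (ν : ι → ℝ)
    (P : (Ω₁ × Ω₂) × ι → Prop) [DecidablePred P] [DecidablePred fun p : Ω₂ × ι × Ω₁ => P ((p.2.2, p.1), p.2.1)] :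
    ∑ p : Ω₂ × ι × Ω₁ with P ((p.2.2, p.1), p.2.1), w₂ p.1 * ν p.2.1 * w₁ p.2.2 =
      ∑ q : (Ω₁ × Ω₂) × ι with P q, w₁ q.1.1 * w₂ q.1.2 * ν q.2 := by
  apply Finset.sum_equiv (re6RgE Ω₁ Ω₂ ι)
  · intro p
    simp [re6RgE]
  · intro p _
    simp only [re6RgE, Equiv.coe_fn_mk]
    ring

/-- the sup-metric ball is a product -/
theorem re6_rg_hU {Ω₁ Ω₂ : Type} [Fintype Ω₁] [Fintype Ω₂] (w₁ X₁ : Ω₁ → ℝ) (w₂ X₂ : Ω₂ → ℝ) (ρ c : ℝ) (hρ : 0 < ρ) (hc : 0 ≤ c)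
    (hw₁ : ∀ ω, 0 ≤ w₁ ω) (hat : ∀ x : ℝ, ∑ ω with |X₂ ω - x| ≤ ρ, w₂ ω ≤ c) (z : ℝ × ℝ) :
    ∑ x : Ω₁ × Ω₂ with dist ((X₁ x.1, X₂ x.2) : ℝ × ℝ) z ≤ ρ, w₁ x.1 * w₂ x.2 ≤
      c * ∑ j with dist (X₁ j) z.1 ≤ 2 * ρ, w₁ j := by
  classical
  have h1 : (univ : Finset (Ω₁ × Ω₂)).filter (fun x => dist ((X₁ x.1, X₂ x.2) : ℝ × ℝ) z ≤ ρ) =
      ((univ : Finset Ω₁).filter fun j => dist (X₁ j) z.1 ≤ ρ) ×ˢ ((univ : Finset Ω₂).filter fun ω => |X₂ ω - z.2| ≤ ρ) := by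
    ext x
    simp only [Finset.mem_filter, Finset.mem_univ, true_and, Finset.mem_product, Prod.dist_eq, max_le_iff, Real.dist_eq]
  rw [h1, Finset.sum_product, ← Finset.sum_mul_sum]
  have h2 : ∑ j with dist (X₁ j) z.1 ≤ ρ, w₁ j ≤ ∑ j with dist (X₁ j) z.1 ≤ 2 * ρ, w₁ j := by
    apply Finset.sum_le_sum_of_subset_of_nonneg
    · intro j hj
      exact Finset.mem_filter.2 ⟨Finset.mem_univ _, (Finset.mem_filter.1 hj).2.trans (by linarith)⟩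
    · intro j _ _
      exact hw₁ j
  have h3 : 0 ≤ ∑ j with dist (X₁ j) z.1 ≤ ρ, w₁ j := Finset.sum_nonneg fun j _ => hw₁ j
  calc (∑ j with dist (X₁ j) z.1 ≤ ρ, w₁ j) * ∑ ω with |X₂ ω - z.2| ≤ ρ, w₂ ω
      ≤ (∑ j with dist (X₁ j) z.1 ≤ ρ, w₁ j) * c := mul_le_mul_of_nonneg_left (hat z.2) h3
    _ = c * ∑ j with dist (X₁ j) z.1 ≤ ρ, w₁ j := mul_comm _ _
    _ ≤ c * ∑ j with dist (X₁ j) z.1 ≤ 2 * ρ, w₁ j := mul_le_mul_of_nonneg_left h2 hc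

theorem re6_ring_gain (S σ : ℝ) (hS : 0 < S) (hσ0 : 0 < σ) (hσ1 : σ < 1) :
    ∃ χ : ℝ, 0 < χ ∧ ∃ ρ₁ : ℝ, 0 < ρ₁ ∧ ρ₁ ≤ 1 ∧ ∀ ρ : ℝ, 0 < ρ → ρ < ρ₁ →
      ∀ (Ω₁ Ω₂ ι : Type) [Fintype Ω₁] [Fintype Ω₂] [Fintype ι] (w₁ X₁ : Ω₁ → ℝ) (w₂ X₂ : Ω₂ → ℝ) (ν T : ι → ℝ),
        (∀ ω, 0 ≤ w₁ ω) → (∀ ω, 0 ≤ w₂ ω) → (∀ i, 0 ≤ ν i) → ∑ ω, w₁ ω ≤ 1 → ∑ ω, w₂ ω ≤ 1 → ∑ i, ν i ≤ 1 →
        (∀ ω, |X₁ ω| ≤ 2) → (∀ ω, |X₂ ω| ≤ 2) → (∀ i, |T i| ≤ 2) →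
        RW.KfFrost ν T (ρ ^ (-χ)) S ρ → RW.KfFrost w₁ X₁ (ρ ^ (-χ)) (σ - min S σ / 2) ρ →
        (∀ x : ℝ, ∑ ω with |X₂ ω - x| ≤ ρ, w₂ ω ≤ ρ ^ (σ - χ)) →
        ∃ Gd : Finset (Ω₂ × ι × Ω₁),
          ∑ p : Ω₂ × ι × Ω₁, w₂ p.1 * ν p.2.1 * w₁ p.2.2 - ρ ^ χ ≤ ∑ p ∈ Gd, w₂ p.1 * ν p.2.1 * w₁ p.2.2 ∧
          ∀ x : ℝ, ∑ p ∈ Gd with |X₂ p.1 + T p.2.1 * X₁ p.2.2 - x| ≤ ρ, w₂ p.1 * ν p.2.1 * w₁ p.2.2 ≤ 3 * ρ ^ (σ + χ / 2) := by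
  classical
  have hβ : 0 < σ - min S σ / 2 := by
    have := min_le_right S σ
    linarith
  have hσm : σ < min 1 (σ - min S σ / 2 + S) := by
    apply lt_min hσ1
    have := min_le_left S σ
    linarith
  obtain ⟨χ, hχ, ρ₀, hρ₀, H⟩ := RW.ex_W1 (σ - min S σ / 2) S σ 2 hβ hS hσ0.le hσm (by norm_num)
  refine ⟨χ, hχ, min ρ₀ 1, lt_min hρ₀ one_pos, min_le_right _ _, ?_⟩
  intro ρ hρ0 hρ1 Ω₁ Ω₂ ι _ _ _ w₁ X₁ w₂ X₂ ν T hw₁ hw₂ hν hs₁ hs₂ hsν hX₁ hX₂ hT hFν hF₁ hat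
  have hρlt : ρ < ρ₀ := hρ1.trans_le (min_le_left _ _)
  have hρ1' : ρ < 1 := hρ1.trans_le (min_le_right _ _)
  obtain ⟨thr, hthr⟩ : ∃ thr : ℝ, thr = ρ ^ (σ + χ / 2) := ⟨_, rfl⟩
  have hthr0 : 0 < thr := hthr ▸ Real.rpow_pos_of_pos hρ0 _
  obtain ⟨μ, hμ⟩ : ∃ μ : Ω₁ × Ω₂ → ℝ, μ = fun x => w₁ x.1 * w₂ x.2 := ⟨_, rfl⟩
  obtain ⟨t, ht⟩ : ∃ t : ι → Ω₁ × Ω₂ → ℝ, t = fun i x => X₂ x.2 + T i * X₁ x.1 := ⟨_, rfl⟩
  have hμ0 : ∀ x, 0 ≤ μ x := fun x => by rw [hμ]; exact mul_nonneg (hw₁ _) (hw₂ _)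
  have hμ1 : ∑ x, μ x ≤ 1 := by
    rw [hμ, Fintype.sum_prod_type, ← Finset.sum_mul_sum]
    exact mul_le_one₀ hs₁ (Finset.sum_nonneg fun ω _ => hw₂ ω) hs₂
  -- the bad event has small mass
  have hbad : ∑ q : (Ω₁ × Ω₂) × ι with thr < ∑ y with ⌊t q.2 y / ρ⌋ = ⌊t q.2 q.1 / ρ⌋, μ y, μ q.1 * ν q.2 < ρ ^ χ := by
    by_contra hcon
    rw [not_lt] at hcon
    obtain ⟨cov, hcov1, hcov2⟩ := re6_rg_cov (ι := ι) μ t ρ thr hρ0 hμ0 hμ1 hthr0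
    have hM := H ρ hρ0 hρlt (Ω₁ × Ω₂) ι Ω₁ μ ν (fun x => (X₁ x.1, X₂ x.2)) (fun i => - T i)
      ((univ : Finset ((Ω₁ × Ω₂) × ι)).filter fun q => thr < ∑ y with ⌊t q.2 y / ρ⌋ = ⌊t q.2 q.1 / ρ⌋, μ y)
      ⌊1 / thr⌋₊ w₁ X₁
      ⟨hμ0, hν, hμ1, hsν, fun x => ⟨hX₁ _, hX₂ _⟩, fun i => by rw [abs_neg]; exact hT i, ?_, hcon, cov, hcov1, ?_⟩
      hw₁ hF₁ ?_
    · have h1 : (⌊1 / thr⌋₊ : ℝ) ≤ 1 / thr := Nat.floor_le (by positivity)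
      have h2 : 1 / thr = ρ ^ (-σ - χ / 2) := by
        rw [hthr, one_div, ← Real.rpow_neg hρ0.le]
        congr 1
        ring
      have h3 : ρ ^ (-σ - χ / 2) < ρ ^ (-σ - χ) := Real.rpow_lt_rpow_of_exponent_gt hρ0 hρ1' (by linarith)
      linarith
    · intro z r hr hr1
      have := hFν (-z) r hr hr1
      refine le_trans (le_of_eq ?_) this
      apply Finset.sum_congr _ fun _ _ => rfl
      ext i
      simp only [Finset.mem_filter, Finset.mem_univ, true_and, Real.dist_eq]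
      rw [← abs_neg]
      ring_nf
    · intro b s hs
      apply hcov2 b s
      obtain ⟨x, hx, rfl⟩ := hs
      refine ⟨x, hx, ?_⟩
      rw [ht, RW.kfProj]
      ring
    · intro z
      have := re6_rg_hU w₁ X₁ w₂ X₂ ρ (ρ ^ (σ - χ)) hρ0 (Real.rpow_nonneg hρ0.le _) hw₁ hat z
      rw [hμ]
      exact this
  refine ⟨(univ : Finset (Ω₂ × ι × Ω₁)).filter fun p =>
    ¬ thr < ∑ y with ⌊t p.2.1 y / ρ⌋ = ⌊t p.2.1 (p.2.2, p.1) / ρ⌋, μ y, ?_, ?_⟩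
  · have h1 := Finset.sum_filter_add_sum_filter_not (univ : Finset (Ω₂ × ι × Ω₁))
      (fun p => thr < ∑ y with ⌊t p.2.1 y / ρ⌋ = ⌊t p.2.1 (p.2.2, p.1) / ρ⌋, μ y) (fun p => w₂ p.1 * ν p.2.1 * w₁ p.2.2)
    have h2 := re6_rg_reindex w₁ w₂ ν (fun q => thr < ∑ y with ⌊t q.2 y / ρ⌋ = ⌊t q.2 q.1 / ρ⌋, μ y)
    have h3 : ∑ q : (Ω₁ × Ω₂) × ι with thr < ∑ y with ⌊t q.2 y / ρ⌋ = ⌊t q.2 q.1 / ρ⌋, μ y, w₁ q.1.1 * w₂ q.1.2 * ν q.2 < ρ ^ χ := by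
      have := hbad
      rw [hμ] at this ⊢
      exact this
    linarith
  · intro x
    rw [Finset.filter_filter, ← hthr]
    have h2 := re6_rg_reindex w₁ w₂ ν
      (fun q => (¬ thr < ∑ y with ⌊t q.2 y / ρ⌋ = ⌊t q.2 q.1 / ρ⌋, μ y) ∧ |t q.2 q.1 - x| ≤ ρ)
    have h3 := re6_rg_light μ ν t ρ thr hρ0 hμ0 hν hsν hthr0.le x
    have h4 : ∑ p : Ω₂ × ι × Ω₁ with (¬ thr < ∑ y with ⌊t p.2.1 y / ρ⌋ = ⌊t p.2.1 (p.2.2, p.1) / ρ⌋, μ y) ∧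
        |X₂ p.1 + T p.2.1 * X₁ p.2.2 - x| ≤ ρ, w₂ p.1 * ν p.2.1 * w₁ p.2.2 =
        ∑ p : Ω₂ × ι × Ω₁ with (¬ thr < ∑ y with ⌊t p.2.1 y / ρ⌋ = ⌊t p.2.1 (p.2.2, p.1) / ρ⌋, μ y) ∧
        |t p.2.1 (p.2.2, p.1) - x| ≤ ρ, w₂ p.1 * ν p.2.1 * w₁ p.2.2 := by
      rw [ht]
    rw [h4, h2]
    have h5 : ∑ q : (Ω₁ × Ω₂) × ι with (¬ thr < ∑ y with ⌊t q.2 y / ρ⌋ = ⌊t q.2 q.1 / ρ⌋, μ y) ∧ |t q.2 q.1 - x| ≤ ρ,
        w₁ q.1.1 * w₂ q.1.2 * ν q.2 =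
        ∑ q : (Ω₁ × Ω₂) × ι with (¬ thr < ∑ y with ⌊t q.2 y / ρ⌋ = ⌊t q.2 q.1 / ρ⌋, μ y) ∧ |t q.2 q.1 - x| ≤ ρ,
        μ q.1 * ν q.2 := by
      rw [hμ]
    rw [h5]
    exact h3

end Claimed.Agent.R252

end PkRe6RingGain

section PkRe6RingGainA

/-!
# Row 252, unit Re6.  CONTRACT `RingGainA`: the single-scale gain for variables bounded by an arbitrary constant `A` (the gain `χ` does NOT depend on `A`).
Architect helper183.  Leaf L-252-RE6-RING-GAINA.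

PROOF.  `χ₀, ρ₁⁰` from `re6_ring_gain S σ`; `χ = min (χ₀ / 2) 1`.   Apply it at the scale `ρ' = ρ / A` to `X₁ / A`, `X₂ / A` (`|X/A - x| ≤ ρ' ↔ |X - A x| ≤ ρ`).
* slopes: `r ∈ [ρ, 1]`: given.  `r ∈ [ρ', ρ)`: `ν(B(x,r)) ≤ ν(B(x,ρ)) ≤ ρ^(-χ) ρ^S ≤ ρ^(-χ) A^S r^S`.      * `X₁/A`: `∑_{|X₁ - A x| ≤ A r} w₁ ≤ ρ^(-χ) (A r)^β`, `A r ≥ ρ`.
* atoms: `ρ^(σ-χ) = (A ρ')^(σ-χ) ≤ A ρ'^(σ-χ)`.      All powers of `A` are `≤ ρ^(-χ₀/4)` for `ρ < ρ₁(A)`;  `3 ρ'^(σ+χ₀/2) ≤ ρ^(σ+χ₀/4)`.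
-/

set_option autoImplicit false

namespace Claimed.Agent.R252

open Finset

theorem re6_gA_pow_le {ρ a q : ℝ} (hρ : 0 < ρ) (ha : 0 < a) (hq : 0 < q) (h : ρ < a ^ (1 / q)) : ρ ^ q ≤ a := by
  calc ρ ^ q ≤ (a ^ (1 / q)) ^ q := Real.rpow_le_rpow hρ.le h.le hq.le
    _ = a := by rw [← Real.rpow_mul ha.le, one_div_mul_cancel hq.ne', Real.rpow_one]

theorem re6_ring_gainA (S σ : ℝ) (hS : 0 < S) (hσ0 : 0 < σ) (hσ1 : σ < 1) :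
    ∃ χ : ℝ, 0 < χ ∧ χ ≤ 1 ∧ ∀ A : ℝ, 1 ≤ A → ∃ ρ₁ : ℝ, 0 < ρ₁ ∧ ρ₁ ≤ 1 ∧ ∀ ρ : ℝ, 0 < ρ → ρ < ρ₁ →
      ∀ (Ω₁ Ω₂ ι : Type) [Fintype Ω₁] [Fintype Ω₂] [Fintype ι] (w₁ X₁ : Ω₁ → ℝ) (w₂ X₂ : Ω₂ → ℝ) (ν T : ι → ℝ),
        (∀ ω, 0 ≤ w₁ ω) → (∀ ω, 0 ≤ w₂ ω) → (∀ i, 0 ≤ ν i) → ∑ ω, w₁ ω ≤ 1 → ∑ ω, w₂ ω ≤ 1 → ∑ i, ν i ≤ 1 →
        (∀ ω, |X₁ ω| ≤ A) → (∀ ω, |X₂ ω| ≤ A) → (∀ i, |T i| ≤ 2) →
        RW.KfFrost ν T (ρ ^ (-χ)) S ρ →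
        (∀ x r : ℝ, ρ ≤ r → ∑ ω with |X₁ ω - x| ≤ r, w₁ ω ≤ ρ ^ (-χ) * r ^ (σ - min S σ / 2)) →
        (∀ x : ℝ, ∑ ω with |X₂ ω - x| ≤ ρ, w₂ ω ≤ ρ ^ (σ - χ)) →
        ∃ Gd : Finset (Ω₂ × ι × Ω₁),
          ∑ p : Ω₂ × ι × Ω₁, w₂ p.1 * ν p.2.1 * w₁ p.2.2 - ρ ^ χ ≤ ∑ p ∈ Gd, w₂ p.1 * ν p.2.1 * w₁ p.2.2 ∧
          ∀ x : ℝ, ∑ p ∈ Gd with |X₂ p.1 + T p.2.1 * X₁ p.2.2 - x| ≤ ρ, w₂ p.1 * ν p.2.1 * w₁ p.2.2 ≤ ρ ^ (σ + χ / 2) := by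
  obtain ⟨χ₀, hχ₀, ρ₀, hρ₀, hρ₀1, hgain⟩ := re6_ring_gain S σ hS hσ0 hσ1
  have hχpos : 0 < min (χ₀ / 2) 1 := lt_min (by positivity) one_pos
  refine ⟨min (χ₀ / 2) 1, hχpos, min_le_right _ _, ?_⟩
  obtain ⟨χ, hχdef⟩ : ∃ χ : ℝ, χ = min (χ₀ / 2) 1 := ⟨_, rfl⟩
  rw [← hχdef] at hχpos ⊢
  have hχle : χ ≤ χ₀ / 2 := hχdef ▸ min_le_left _ _
  intro A hA
  have hA0 : 0 < A := by linarith
  have hAS : 0 < A ^ S := Real.rpow_pos_of_pos hA0 _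
  have hq2 : 0 < χ₀ / 2 := by positivity
  have hq4 : 0 < χ₀ / 4 := by positivity
  refine ⟨min (min 1 ρ₀) (min (((A ^ S)⁻¹) ^ (1 / (χ₀ / 2))) (min ((A⁻¹) ^ (1 / (χ₀ / 2))) ((1 / 3 : ℝ) ^ (1 / (χ₀ / 4))))),
    by positivity, (min_le_left _ _).trans (min_le_left _ _), ?_⟩
  intro ρ hρ hρlt Ω₁ Ω₂ ι _ _ _ w₁ X₁ w₂ X₂ ν T hw₁ hw₂ hν hs₁ hs₂ hsν hX₁ hX₂ hT hFr hF₁ hat
  have hρ1 : ρ < 1 := lt_of_lt_of_le hρlt ((min_le_left _ _).trans (min_le_left _ _))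
  have hρρ₀ : ρ < ρ₀ := lt_of_lt_of_le hρlt ((min_le_left _ _).trans (min_le_right _ _))
  have c1 : ρ ^ (χ₀ / 2) ≤ (A ^ S)⁻¹ := re6_gA_pow_le hρ (inv_pos.2 hAS) hq2
    (lt_of_lt_of_le hρlt ((min_le_right _ _).trans (min_le_left _ _)))
  have c2 : ρ ^ (χ₀ / 2) ≤ A⁻¹ := re6_gA_pow_le hρ (inv_pos.2 hA0) hq2
    (lt_of_lt_of_le hρlt ((min_le_right _ _).trans ((min_le_right _ _).trans (min_le_left _ _))))
  have c3 : ρ ^ (χ₀ / 4) ≤ 1 / 3 := re6_gA_pow_le hρ (by norm_num) hq4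
    (lt_of_lt_of_le hρlt ((min_le_right _ _).trans ((min_le_right _ _).trans (min_le_right _ _))))
  have hpp : 0 < ρ ^ (χ₀ / 2) := Real.rpow_pos_of_pos hρ _
  have F2 : A ^ S ≤ ρ ^ (-(χ₀ / 2)) := by
    rw [Real.rpow_neg hρ.le]
    exact (le_inv_comm₀ hpp hAS).1 c1
  have F3 : A ≤ ρ ^ (-(χ₀ / 2)) := by
    rw [Real.rpow_neg hρ.le]
    exact (le_inv_comm₀ hpp hA0).1 c2
  obtain ⟨ρ', hρ'def⟩ : ∃ ρ' : ℝ, ρ' = ρ / A := ⟨_, rfl⟩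
  have hρ'0 : 0 < ρ' := hρ'def ▸ div_pos hρ hA0
  have hρ'le : ρ' ≤ ρ := hρ'def ▸ div_le_self hρ.le hA
  have hAρ' : A * ρ' = ρ := by rw [hρ'def]; field_simp
  have hχnn : 0 ≤ ρ ^ (-χ) := Real.rpow_nonneg hρ.le _
  -- the constant
  have F1 : ρ ^ (-χ) * ρ ^ (-(χ₀ / 2)) ≤ ρ' ^ (-χ₀) := by
    rw [← Real.rpow_add hρ]
    calc ρ ^ (-χ + -(χ₀ / 2)) ≤ ρ ^ (-χ₀) := Real.rpow_le_rpow_of_exponent_ge hρ hρ1.le (by linarith)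
      _ ≤ ρ' ^ (-χ₀) := Real.rpow_le_rpow_of_nonpos hρ'0 hρ'le (by linarith)
  have F0 : ρ ^ (-χ) ≤ ρ' ^ (-χ₀) := by
    refine le_trans ?_ F1
    calc ρ ^ (-χ) = ρ ^ (-χ) * 1 := (mul_one _).symm
      _ ≤ ρ ^ (-χ) * ρ ^ (-(χ₀ / 2)) := mul_le_mul_of_nonneg_left (hA.trans F3) hχnn
  have key : ∀ y z r : ℝ, |y / A - z| ≤ r ↔ |y - A * z| ≤ A * r := by
    intro y z r
    have e : y / A - z = (y - A * z) / A := by field_simp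
    rw [e, abs_div, abs_of_pos hA0, div_le_iff₀ hA0, mul_comm r A]
  have hmin : 0 < min S σ := lt_min hS hσ0
  -- slopes
  have ha : RW.KfFrost ν T (ρ' ^ (-χ₀)) S ρ' := by
    intro z r hr hr1
    have hr0 : 0 < r := lt_of_lt_of_le hρ'0 hr
    have hrS : 0 ≤ r ^ S := Real.rpow_nonneg hr0.le _
    by_cases hrρ : ρ ≤ r
    · exact (hFr z r hrρ hr1).trans (mul_le_mul_of_nonneg_right F0 hrS)
    · have hrρ' : r ≤ ρ := (not_le.1 hrρ).le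
      have h1 : ∑ i with dist (T i) z ≤ r, ν i ≤ ∑ i with dist (T i) z ≤ ρ, ν i := by
        refine Finset.sum_le_sum_of_subset_of_nonneg ?_ fun i _ _ => hν i
        intro i hi
        rw [Finset.mem_filter] at hi ⊢
        exact ⟨hi.1, hi.2.trans hrρ'⟩
      have h2 : ρ ^ S ≤ A ^ S * r ^ S := by
        rw [← Real.mul_rpow hA0.le hr0.le]
        refine Real.rpow_le_rpow hρ.le ?_ hS.le
        rw [← hAρ']
        exact mul_le_mul_of_nonneg_left hr hA0.le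
      calc ∑ i with dist (T i) z ≤ r, ν i ≤ ρ ^ (-χ) * ρ ^ S := h1.trans (hFr z ρ le_rfl hρ1.le)
        _ ≤ ρ ^ (-χ) * (ρ ^ (-(χ₀ / 2)) * r ^ S) :=
            mul_le_mul_of_nonneg_left (h2.trans (mul_le_mul_of_nonneg_right F2 hrS)) hχnn
        _ = (ρ ^ (-χ) * ρ ^ (-(χ₀ / 2))) * r ^ S := by ring
        _ ≤ ρ' ^ (-χ₀) * r ^ S := mul_le_mul_of_nonneg_right F1 hrS
  -- the first variable
  have hb : RW.KfFrost w₁ (fun ω => X₁ ω / A) (ρ' ^ (-χ₀)) (σ - min S σ / 2) ρ' := by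
    intro z r hr hr1
    have hr0 : 0 < r := lt_of_lt_of_le hρ'0 hr
    have hrβ : 0 ≤ r ^ (σ - min S σ / 2) := Real.rpow_nonneg hr0.le _
    have e : (∑ ω with dist (X₁ ω / A) z ≤ r, w₁ ω) = ∑ ω with |X₁ ω - A * z| ≤ A * r, w₁ ω := by
      refine Finset.sum_congr (Finset.filter_congr fun ω _ => ?_) fun _ _ => rfl
      rw [Real.dist_eq, key]
    refine (le_of_eq e).trans ?_
    have hAr : ρ ≤ A * r := by
      rw [← hAρ']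
      exact mul_le_mul_of_nonneg_left hr hA0.le
    have h3 : A ^ (σ - min S σ / 2) ≤ ρ ^ (-(χ₀ / 2)) := by
      refine le_trans ?_ F3
      calc A ^ (σ - min S σ / 2) ≤ A ^ (1 : ℝ) := Real.rpow_le_rpow_of_exponent_le hA (by linarith)
        _ = A := Real.rpow_one A
    calc ∑ ω with |X₁ ω - A * z| ≤ A * r, w₁ ω ≤ ρ ^ (-χ) * (A * r) ^ (σ - min S σ / 2) := hF₁ _ _ hAr
      _ = ρ ^ (-χ) * (A ^ (σ - min S σ / 2) * r ^ (σ - min S σ / 2)) := by rw [Real.mul_rpow hA0.le hr0.le]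
      _ ≤ ρ ^ (-χ) * (ρ ^ (-(χ₀ / 2)) * r ^ (σ - min S σ / 2)) :=
          mul_le_mul_of_nonneg_left (mul_le_mul_of_nonneg_right h3 hrβ) hχnn
      _ = (ρ ^ (-χ) * ρ ^ (-(χ₀ / 2))) * r ^ (σ - min S σ / 2) := by ring
      _ ≤ ρ' ^ (-χ₀) * r ^ (σ - min S σ / 2) := mul_le_mul_of_nonneg_right F1 hrβ
  -- atoms of the second variable
  have hc : ∀ x : ℝ, ∑ ω with |X₂ ω / A - x| ≤ ρ', w₂ ω ≤ ρ' ^ (σ - χ₀) := by
    intro x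
    have e : (∑ ω with |X₂ ω / A - x| ≤ ρ', w₂ ω) = ∑ ω with |X₂ ω - A * x| ≤ ρ, w₂ ω := by
      refine Finset.sum_congr (Finset.filter_congr fun ω _ => ?_) fun _ _ => rfl
      rw [key, hAρ']
    rw [e]
    refine (hat _).trans ?_
    have hAp : 0 < A ^ (σ - χ₀) := Real.rpow_pos_of_pos hA0 _
    rw [hρ'def, Real.div_rpow hρ.le hA0.le, le_div_iff₀ hAp]
    have h4 : A ^ (σ - χ₀) ≤ A := by
      calc A ^ (σ - χ₀) ≤ A ^ (1 : ℝ) := Real.rpow_le_rpow_of_exponent_le hA (by linarith)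
        _ = A := Real.rpow_one A
    have h5 : ρ ^ (χ₀ - χ) ≤ A⁻¹ :=
      (Real.rpow_le_rpow_of_exponent_ge hρ hρ1.le (by linarith)).trans c2
    have h6 : ρ ^ (σ - χ) = ρ ^ (σ - χ₀) * ρ ^ (χ₀ - χ) := by
      rw [← Real.rpow_add hρ]
      congr 1
      ring
    have h7 : 0 ≤ ρ ^ (σ - χ₀) := Real.rpow_nonneg hρ.le _
    calc ρ ^ (σ - χ) * A ^ (σ - χ₀) = ρ ^ (σ - χ₀) * (ρ ^ (χ₀ - χ) * A ^ (σ - χ₀)) := by rw [h6]; ring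
      _ ≤ ρ ^ (σ - χ₀) * (A⁻¹ * A) :=
          mul_le_mul_of_nonneg_left (mul_le_mul h5 h4 hAp.le (inv_pos.2 hA0).le) h7
      _ = ρ ^ (σ - χ₀) := by rw [inv_mul_cancel₀ hA0.ne', mul_one]
  have hbd : ∀ y : ℝ, |y| ≤ A → |y / A| ≤ 2 := by
    intro y hy
    rw [abs_div, abs_of_pos hA0]
    exact ((div_le_one hA0).2 hy).trans one_le_two
  obtain ⟨Gd, hG1, hG2⟩ := hgain ρ' hρ'0 (lt_of_le_of_lt hρ'le hρρ₀) Ω₁ Ω₂ ι w₁ (fun ω => X₁ ω / A) w₂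
    (fun ω => X₂ ω / A) ν T hw₁ hw₂ hν hs₁ hs₂ hsν (fun ω => hbd _ (hX₁ ω)) (fun ω => hbd _ (hX₂ ω)) hT ha hb hc
  refine ⟨Gd, ?_, ?_⟩
  · have h8 : ρ' ^ χ₀ ≤ ρ ^ χ :=
      (Real.rpow_le_rpow hρ'0.le hρ'le hχ₀.le).trans (Real.rpow_le_rpow_of_exponent_ge hρ hρ1.le (by linarith))
    linarith
  · intro x
    have e : (∑ p ∈ Gd with |X₂ p.1 + T p.2.1 * X₁ p.2.2 - x| ≤ ρ, w₂ p.1 * ν p.2.1 * w₁ p.2.2) =
        ∑ p ∈ Gd with |X₂ p.1 / A + T p.2.1 * (X₁ p.2.2 / A) - x / A| ≤ ρ', w₂ p.1 * ν p.2.1 * w₁ p.2.2 := by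
      refine Finset.sum_congr (Finset.filter_congr fun p _ => ?_) fun _ _ => rfl
      have e1 : X₂ p.1 / A + T p.2.1 * (X₁ p.2.2 / A) - x / A = (X₂ p.1 + T p.2.1 * X₁ p.2.2) / A - x / A := by ring
      rw [e1, key, hAρ', mul_div_cancel₀ _ hA0.ne']
    rw [e]
    refine (hG2 (x / A)).trans ?_
    have h9 : ρ' ^ (σ + χ₀ / 2) ≤ ρ ^ (σ + χ₀ / 2) := Real.rpow_le_rpow hρ'0.le hρ'le (by positivity)
    have h10 : ρ ^ (σ + χ₀ / 2) = ρ ^ (χ₀ / 4) * ρ ^ (σ + χ₀ / 4) := by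
      rw [← Real.rpow_add hρ]
      congr 1
      ring
    have h11 : 0 ≤ ρ ^ (σ + χ₀ / 4) := Real.rpow_nonneg hρ.le _
    have h12 : ρ ^ (σ + χ₀ / 4) ≤ ρ ^ (σ + χ / 2) := Real.rpow_le_rpow_of_exponent_ge hρ hρ1.le (by linarith)
    calc 3 * ρ' ^ (σ + χ₀ / 2) ≤ 3 * (ρ ^ (χ₀ / 4) * ρ ^ (σ + χ₀ / 4)) := by rw [← h10]; linarith
      _ ≤ 3 * (1 / 3 * ρ ^ (σ + χ₀ / 4)) := by
          have := mul_le_mul_of_nonneg_right c3 h11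
          linarith
      _ = ρ ^ (σ + χ₀ / 4) := by ring
      _ ≤ ρ ^ (σ + χ / 2) := h12

end Claimed.Agent.R252

end PkRe6RingGainA

section PkRe6RingNet

/-!
# Row 252, unit Re6.  CONTRACT `RingNet`: from good events at every single scale to ONE good event with a Frostman bound at all scales.
Architect helper183.  Leaf L-252-RE6-RING-NET.   Mathlib only.

PROOF.  Net `r_k = ρ^(1 - k θ)`, for the `k : ℕ` with `r_k ≤ R` (then `k θ < 1`: at most `1/θ + 1` values).   `G'` = intersection of the good events `Gd_(r_k)` (classical `DecidableEq Ω`):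
`1 - w(G') ≤ ∑_k r_k^c ≤ (1/θ + 1) R^c`.      Let `r ≥ ρ`.   If `r ρ^(-θ) ≤ R`: the least `k` with `r_k ≥ r` has `r_k ≤ r ρ^(-θ) ≤ R`, so the sum is `≤ r_k^σ ≤ (ρ^(-θ) r)^σ ≤ (ρ^(-θ) R⁻¹ r)^σ`.
Otherwise `ρ^(-θ) R⁻¹ r > 1` and the sum is `≤ 1`.
-/

set_option autoImplicit false

namespace Claimed.Agent.R252

open Finset

/-- union bound for the complement of a finite intersection -/
theorem re6_net_union {Ω : Type} [Fintype Ω] [DecidableEq Ω] (w : Ω → ℝ) (hw0 : ∀ ω, 0 ≤ w ω) (K : Finset ℕ) (Gd : ℕ → Finset Ω) :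
    ∑ ω with ¬ ∀ k ∈ K, ω ∈ Gd k, w ω ≤ ∑ k ∈ K, ∑ ω with ω ∉ Gd k, w ω := by
  simp only [Finset.sum_filter]
  rw [Finset.sum_comm]
  refine Finset.sum_le_sum fun ω _ => ?_
  by_cases hω : ∀ k ∈ K, ω ∈ Gd k
  · rw [if_neg (not_not.2 hω)]
    exact Finset.sum_nonneg fun j _ => by split_ifs <;> simp [hw0]
  · rw [if_pos hω]
    simp only [not_forall] at hω
    obtain ⟨k, hk, hkω⟩ := hω
    calc w ω = if ω ∉ Gd k then w ω else 0 := by rw [if_pos hkω]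
      _ ≤ ∑ k ∈ K, if ω ∉ Gd k then w ω else 0 :=
        Finset.single_le_sum (f := fun k => if ω ∉ Gd k then w ω else 0)
          (fun j _ => by split_ifs <;> simp [hw0]) hk

theorem re6_ring_net {Ω : Type} [Fintype Ω] (w X : Ω → ℝ) (ρ R σ c θ : ℝ) (hw0 : ∀ ω, 0 ≤ w ω) (hw1 : ∑ ω, w ω = 1)
    (hρ0 : 0 < ρ) (hρR : ρ ≤ R) (hR1 : R < 1) (hσ : 0 ≤ σ) (hc : 0 < c) (hθ : 0 < θ)
    (h : ∀ r : ℝ, ρ ≤ r → r ≤ R → ∃ Gd : Finset Ω, 1 - r ^ c ≤ ∑ ω ∈ Gd, w ω ∧ ∀ x : ℝ, ∑ ω ∈ Gd with |X ω - x| ≤ r, w ω ≤ r ^ σ) :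
    ∃ G' : Finset Ω, 1 - (1 / θ + 1) * R ^ c ≤ ∑ ω ∈ G', w ω ∧
      ∀ x r : ℝ, ρ ≤ r → ∑ ω ∈ G' with |X ω - x| ≤ r, w ω ≤ (ρ ^ (-θ) * R⁻¹ * r) ^ σ := by
  classical
  have hρ1 : ρ < 1 := lt_of_le_of_lt hρR hR1
  have hR0 : 0 < R := lt_of_lt_of_le hρ0 hρR
  obtain ⟨rk, hrk⟩ : ∃ rk : ℕ → ℝ, ∀ k, rk k = ρ ^ (1 - (k : ℝ) * θ) := ⟨_, fun _ => rfl⟩
  have hrk_pos : ∀ k, 0 < rk k := fun k => by rw [hrk]; exact Real.rpow_pos_of_pos hρ0 _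
  have hrk_ge : ∀ k, ρ ≤ rk k := by
    intro k
    have h1 : (1 : ℝ) - (k : ℝ) * θ ≤ 1 := by
      have : 0 ≤ (k : ℝ) * θ := by positivity
      linarith
    have h2 : ρ ^ (1 : ℝ) ≤ ρ ^ (1 - (k : ℝ) * θ) := Real.rpow_le_rpow_of_exponent_ge hρ0 hρ1.le h1
    rw [Real.rpow_one] at h2
    rw [hrk]
    exact h2
  have hrk0 : rk 0 = ρ := by rw [hrk]; simp
  have hrk_succ : ∀ k, rk (k + 1) = rk k * ρ ^ (-θ) := by
    intro k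
    rw [hrk, hrk, ← Real.rpow_add hρ0]
    congr 1
    push_cast
    ring
  have hθ1 : 1 ≤ ρ ^ (-θ) := Real.one_le_rpow_of_pos_of_le_one_of_nonpos hρ0 hρ1.le (by linarith)
  have hex : ∀ k : ℕ, ∃ Gd : Finset Ω, rk k ≤ R → (1 - rk k ^ c ≤ ∑ ω ∈ Gd, w ω ∧
      ∀ x : ℝ, ∑ ω ∈ Gd with |X ω - x| ≤ rk k, w ω ≤ rk k ^ σ) := by
    intro k
    by_cases hk : rk k ≤ R
    · obtain ⟨Gd, h1⟩ := h (rk k) (hrk_ge k) hk
      exact ⟨Gd, fun _ => h1⟩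
    · exact ⟨∅, fun h' => absurd h' hk⟩
  choose Gd hGd using hex
  obtain ⟨K, hK⟩ : ∃ K : Finset ℕ, K = (range ⌈1 / θ⌉₊).filter fun k => rk k ≤ R := ⟨_, rfl⟩
  have hKR : ∀ k ∈ K, rk k ≤ R := fun k hk => by
    rw [hK] at hk
    exact (Finset.mem_filter.1 hk).2
  have hKmem : ∀ k, rk k ≤ R → k ∈ K := by
    intro k hk
    rw [hK]
    refine Finset.mem_filter.2 ⟨Finset.mem_range.2 ?_, hk⟩
    have h1 : 0 < 1 - (k : ℝ) * θ := by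
      by_contra hcon
      have h2 : 1 ≤ ρ ^ (1 - (k : ℝ) * θ) :=
        Real.one_le_rpow_of_pos_of_le_one_of_nonpos hρ0 hρ1.le (not_lt.1 hcon)
      rw [← hrk] at h2
      linarith
    have h2 : (k : ℝ) < 1 / θ := by
      rw [lt_div_iff₀ hθ]
      linarith
    exact_mod_cast lt_of_lt_of_le h2 (Nat.le_ceil _)
  have hKcard : (K.card : ℝ) ≤ 1 / θ + 1 := by
    have h1 : K.card ≤ ⌈1 / θ⌉₊ := by
      rw [hK]
      exact (Finset.card_filter_le _ _).trans (by rw [Finset.card_range])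
    have h2 : (⌈1 / θ⌉₊ : ℝ) < 1 / θ + 1 := Nat.ceil_lt_add_one (by positivity)
    have h3 : (K.card : ℝ) ≤ (⌈1 / θ⌉₊ : ℝ) := by exact_mod_cast h1
    linarith
  have htot : ∀ s : Finset Ω, ∑ ω ∈ s, w ω ≤ 1 := fun s => by
    rw [← hw1]
    exact Finset.sum_le_sum_of_subset_of_nonneg (Finset.subset_univ _) fun ω _ _ => hw0 ω
  refine ⟨univ.filter fun ω => ∀ k ∈ K, ω ∈ Gd k, ?_, ?_⟩
  · have h1 := Finset.sum_filter_add_sum_filter_not univ (fun ω => ∀ k ∈ K, ω ∈ Gd k) w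
    have h2 := re6_net_union w hw0 K Gd
    have h3 : ∀ k ∈ K, ∑ ω with ω ∉ Gd k, w ω ≤ R ^ c := by
      intro k hk
      have h4 := Finset.sum_filter_add_sum_filter_not univ (fun ω => ω ∈ Gd k) w
      have h5 : ∑ ω with ω ∈ Gd k, w ω = ∑ ω ∈ Gd k, w ω := by
        congr 1
        ext ω
        simp
      have h6 := (hGd k (hKR k hk)).1
      have h7 : rk k ^ c ≤ R ^ c := Real.rpow_le_rpow (hrk_pos k).le (hKR k hk) hc.le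
      linarith
    have h4 : ∑ k ∈ K, ∑ ω with ω ∉ Gd k, w ω ≤ K.card * R ^ c := by
      have := Finset.sum_le_card_nsmul K _ _ h3
      rwa [nsmul_eq_mul] at this
    have h5 : (K.card : ℝ) * R ^ c ≤ (1 / θ + 1) * R ^ c :=
      mul_le_mul_of_nonneg_right hKcard (Real.rpow_nonneg hR0.le _)
    linarith
  · intro x r hr
    have hr0 : 0 < r := lt_of_lt_of_le hρ0 hr
    have hRinv : 1 ≤ R⁻¹ := (one_le_inv₀ hR0).2 hR1.le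
    by_cases hcase : r * ρ ^ (-θ) ≤ R
    · -- some `k` with `r ≤ r_k ≤ r ρ^(-θ)`
      have hexk : ∃ k, r ≤ rk k := by
        have h1 : 1 < ρ ^ (-θ) := Real.one_lt_rpow_of_pos_of_lt_one_of_neg hρ0 hρ1 (by linarith)
        obtain ⟨n, hn⟩ := pow_unbounded_of_one_lt (r / ρ) h1
        refine ⟨n, ?_⟩
        have h2 : ∀ m, rk m = ρ * (ρ ^ (-θ)) ^ m := by
          intro m
          induction m with
          | zero => simp [hrk0]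
          | succ m ih => rw [hrk_succ, ih, pow_succ]; ring
        rw [h2]
        rw [div_lt_iff₀ hρ0] at hn
        linarith
      have hk1 : r ≤ rk (Nat.find hexk) := Nat.find_spec hexk
      have hk2 : rk (Nat.find hexk) ≤ r * ρ ^ (-θ) := by
        rcases Nat.eq_zero_or_pos (Nat.find hexk) with h0 | h0
        · rw [h0, hrk0]
          calc ρ ≤ r := hr
            _ = r * 1 := (mul_one r).symm
            _ ≤ r * ρ ^ (-θ) := mul_le_mul_of_nonneg_left hθ1 hr0.le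
        · obtain ⟨m, hm⟩ := Nat.exists_eq_succ_of_ne_zero h0.ne'
          have h1 : ¬ r ≤ rk m := Nat.find_min hexk (by rw [hm]; exact Nat.lt_succ_self m)
          rw [hm, Nat.succ_eq_add_one, hrk_succ]
          exact mul_le_mul_of_nonneg_right (not_le.1 h1).le (by linarith)
      obtain ⟨k, hkk⟩ : ∃ k, k = Nat.find hexk := ⟨_, rfl⟩
      rw [← hkk] at hk1 hk2
      have hkR : rk k ≤ R := hk2.trans hcase
      have hkK := hKmem k hkR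
      have h1 := (hGd k hkR).2 x
      have h2 : ∑ ω ∈ (univ.filter fun ω => ∀ k ∈ K, ω ∈ Gd k) with |X ω - x| ≤ r, w ω
          ≤ ∑ ω ∈ Gd k with |X ω - x| ≤ rk k, w ω := by
        refine Finset.sum_le_sum_of_subset_of_nonneg ?_ fun ω _ _ => hw0 ω
        intro ω hω
        rw [Finset.mem_filter, Finset.mem_filter] at hω
        exact Finset.mem_filter.2 ⟨hω.1.2 k hkK, hω.2.trans hk1⟩
      have h3 : rk k ^ σ ≤ (ρ ^ (-θ) * R⁻¹ * r) ^ σ := by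
        refine Real.rpow_le_rpow (hrk_pos k).le ?_ hσ
        calc rk k ≤ r * ρ ^ (-θ) := hk2
          _ = ρ ^ (-θ) * 1 * r := by ring
          _ ≤ ρ ^ (-θ) * R⁻¹ * r := by gcongr
      linarith
    · have h1 : 1 ≤ ρ ^ (-θ) * R⁻¹ * r := by
        have h2 : R < r * ρ ^ (-θ) := not_le.1 hcase
        have h3 : ρ ^ (-θ) * R⁻¹ * r = (r * ρ ^ (-θ)) / R := by
          rw [div_eq_mul_inv]; ring
        rw [h3, le_div_iff₀ hR0]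
        linarith
      exact (htot _).trans (Real.one_le_rpow h1 hσ)

end Claimed.Agent.R252

end PkRe6RingNet

section PkRe6RingStep

/-!
# Row 252, unit Re6.  CONTRACT `RingStep`: base, monotonicity and the step `X ↦ X + T X'` of RING.   Architect helper183.
Leaves L-252-RE6-RING-BASE (`re6_reach_mono`, `re6_reach_base`) and L-252-RE6-RING-STEP (`re6_reach_step`).

BASE.  `Ω = ι`, `X = T`, `H = 1` (`re6_gen_self`), `Gd = univ`, `c = 1`, `τ = ε S / 4`, `h₀ = 1`:  `∑_{|T-x| ≤ ρ} ν ≤ h^(-τ) ρ^S ≤ ρ^(S/2)` because `ρ ≤ h^ε`.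
MONO.  `ρ ≤ h^ε < 1` (replace `h₀` by `min h₀ 1`), so `ρ^σ ≤ ρ^σ'`.

STEP.  `χ` from `re6_ring_gainA S σ`, `β = σ - min S σ / 2`, `δ = min (χ/4) (min S σ / 4)`, `σ₀ = σ - δ > β`.   Let `H` be given by `Re6Reach S σ₀`, `A = H 2^H + 1` (`re6_gen_le`), `ρ₁ = ρ₁(A)`, `H' = 2H+1` (`re6_gen_step`).
Given `ε'`: use the hypothesis with `ε = ε' χ / 4`: `c, τ, h₀`.   New law `Ω' = Ω × ι × Ω`, `w' = w ν w`, `X' = X ω₂ + T i X ω₁ ≥ 1/2`.   `τ' = min τ (ε' χ)`, `c' = min c (min χ (ε c)) / 2`, `h₀'` small.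
For `ρ ∈ [h, h^ε']`, `R = h^ε ≥ ρ`:  `re6_ring_net` with `θ = χ/4` gives `G'`;  `w₁ = w 1_(G')`, `w₂ = w 1_(Gd_ρ)`.
* `(ρ^(-θ) R⁻¹ r)^σ₀ ≤ ρ^(-χ/2) r^β` for `r ≤ 1` (`h^(-ε) = h^(-ε'χ/4) ≤ ρ^(-χ/4)`), and the sum is `≤ 1 ≤ ρ^(-χ) r^β` for `r ≥ 1`;
* `h^(-τ') ≤ h^(-ε'χ) ≤ ρ^(-χ)`;      * atoms of `w₂`: `ρ^σ₀ ≤ ρ^(σ-χ)`;
* new good event `Gd'' ∩ (Gd_ρ × ι × G')`: mass `≥ (1-ρ^c)(1-(4/χ+1) h^(εc)) - ρ^χ ≥ 1 - ρ^c'` (`ρ ≥ h`), atoms `≤ ρ^(σ+χ/2) ≤ ρ^(σ+δ)`.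
-/

set_option autoImplicit false

namespace Claimed.Agent.R252

open Finset

theorem re6_reach_mono (S σ σ' : ℝ) (h : σ' ≤ σ) (hr : Re6Reach S σ) : Re6Reach S σ' := by
  obtain ⟨H, hH⟩ := hr
  refine ⟨H, fun ε hε => ?_⟩
  obtain ⟨c, τ, h₀, hc, hτ, hh₀, hmain⟩ := hH ε hε
  refine ⟨c, τ, min h₀ 1, hc, hτ, lt_min hh₀ one_pos, fun h' hh' hlt ι _ ν T hsrc => ?_⟩
  obtain ⟨Ω, iΩ, w, X, hw0, hw1, hX, hρ⟩ := hmain h' hh' (lt_of_lt_of_le hlt (min_le_left _ _)) ι ν T hsrc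
  refine ⟨Ω, iΩ, w, X, hw0, hw1, hX, fun ρ h1 h2 => ?_⟩
  obtain ⟨Gd, hG1, hG2⟩ := hρ ρ h1 h2
  refine ⟨Gd, hG1, fun x => (hG2 x).trans ?_⟩
  have hρ0 : 0 < ρ := lt_of_lt_of_le hh' h1
  have hρ1 : ρ ≤ 1 := h2.trans (Real.rpow_le_one hh'.le (lt_of_lt_of_le hlt (min_le_right _ _)).le hε.le)
  exact Real.rpow_le_rpow_of_exponent_ge hρ0 hρ1 h

theorem re6_reach_base (S : ℝ) (hS : 0 < S) : Re6Reach S (S / 2) := by
  refine ⟨1, fun ε hε => ⟨1, ε * S / 4, 1, one_pos, by positivity, one_pos, fun h hh hlt ι _ ν T hsrc => ?_⟩⟩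
  obtain ⟨hν0, hν1, hT, hFr⟩ := hsrc
  refine ⟨ι, inferInstance, ν, T, hν0, hν1, fun ω => ⟨re6_gen_self _ _ ⟨ω, rfl⟩, (hT ω).1⟩, fun ρ h1 h2 => ?_⟩
  have hρ0 : 0 < ρ := lt_of_lt_of_le hh h1
  have hρ1 : ρ ≤ 1 := h2.trans (Real.rpow_le_one hh.le hlt.le hε.le)
  refine ⟨Finset.univ, ?_, fun x => ?_⟩
  · rw [hν1]
    exact sub_le_self _ (Real.rpow_nonneg hρ0.le _)
  · have hF := hFr x ρ h1 hρ1
    simp only [Real.dist_eq] at hF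
    refine hF.trans ?_
    have e1 : ρ ^ S = ρ ^ (S / 2) * ρ ^ (S / 2) := by
      rw [← Real.rpow_add hρ0]; congr 1; ring
    have e2 : ρ ^ (S / 2) ≤ h ^ (ε * S / 2) := by
      calc ρ ^ (S / 2) ≤ (h ^ ε) ^ (S / 2) := Real.rpow_le_rpow hρ0.le h2 (by positivity)
        _ = h ^ (ε * S / 2) := by rw [← Real.rpow_mul hh.le]; congr 1; ring
    have e3 : h ^ (-(ε * S / 4)) * h ^ (ε * S / 2) ≤ 1 := by
      rw [← Real.rpow_add hh]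
      exact Real.rpow_le_one hh.le hlt.le (by
        have : 0 < ε * S := mul_pos hε hS
        linarith)
    have e4 : 0 ≤ h ^ (-(ε * S / 4)) := Real.rpow_nonneg hh.le _
    have e5 : 0 ≤ ρ ^ (S / 2) := Real.rpow_nonneg hρ0.le _
    calc h ^ (-(ε * S / 4)) * ρ ^ S = (h ^ (-(ε * S / 4)) * ρ ^ (S / 2)) * ρ ^ (S / 2) := by rw [e1]; ring
      _ ≤ (h ^ (-(ε * S / 4)) * h ^ (ε * S / 2)) * ρ ^ (S / 2) :=
          mul_le_mul_of_nonneg_right (mul_le_mul_of_nonneg_left e2 e4) e5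
      _ ≤ 1 * ρ ^ (S / 2) := mul_le_mul_of_nonneg_right e3 e5
      _ = ρ ^ (S / 2) := one_mul _

/-- `h^(-τ') ≤ ρ^(-t)` when `ρ ≤ h^ε'` and `τ' ≤ ε' t` -/
theorem re6_step_num1 (h ρ ε' t τ' : ℝ) (hh0 : 0 < h) (hh1 : h ≤ 1) (hρ0 : 0 < ρ) (hρ : ρ ≤ h ^ ε') (ht : 0 ≤ t)
    (hτ : τ' ≤ ε' * t) : h ^ (-τ') ≤ ρ ^ (-t) := by
  calc h ^ (-τ') ≤ h ^ (ε' * (-t)) := Real.rpow_le_rpow_of_exponent_ge hh0 hh1 (by linarith)
    _ = (h ^ ε') ^ (-t) := Real.rpow_mul hh0.le _ _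
    _ ≤ ρ ^ (-t) := Real.rpow_le_rpow_of_nonpos hρ0 hρ (by linarith)

/-- the Frostman bound of the net at the exponent `β` -/
theorem re6_step_num2 (ρ R r χ σ₀ β : ℝ) (hρ0 : 0 < ρ) (hρ1 : ρ ≤ 1) (hR0 : 0 < R) (hR : R⁻¹ ≤ ρ ^ (-(χ / 4))) (hr0 : 0 < r)
    (hr1 : r ≤ 1) (hχ : 0 ≤ χ) (hβ : β ≤ σ₀) (hσ0 : 0 ≤ σ₀) (hσ1 : σ₀ ≤ 1) :
    (ρ ^ (-(χ / 4)) * R⁻¹ * r) ^ σ₀ ≤ ρ ^ (-χ) * r ^ β := by
  have hp : 0 < ρ ^ (-(χ / 4)) := Real.rpow_pos_of_pos hρ0 _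
  have hRi : 0 < R⁻¹ := inv_pos.2 hR0
  have h1 : ρ ^ (-(χ / 4)) * R⁻¹ * r ≤ ρ ^ (-(χ / 2)) * r := by
    have : ρ ^ (-(χ / 2)) = ρ ^ (-(χ / 4)) * ρ ^ (-(χ / 4)) := by
      rw [← Real.rpow_add hρ0]; congr 1; ring
    rw [this]
    gcongr
  have hq : 1 ≤ ρ ^ (-(χ / 2)) := Real.one_le_rpow_of_pos_of_le_one_of_nonpos hρ0 hρ1 (by linarith)
  calc (ρ ^ (-(χ / 4)) * R⁻¹ * r) ^ σ₀ ≤ (ρ ^ (-(χ / 2)) * r) ^ σ₀ := Real.rpow_le_rpow (by positivity) h1 hσ0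
    _ = (ρ ^ (-(χ / 2))) ^ σ₀ * r ^ σ₀ := Real.mul_rpow (by positivity) hr0.le
    _ ≤ ρ ^ (-χ) * r ^ β := by
      have a1 : (ρ ^ (-(χ / 2))) ^ σ₀ ≤ ρ ^ (-χ) := by
        calc (ρ ^ (-(χ / 2))) ^ σ₀ ≤ (ρ ^ (-(χ / 2))) ^ (1 : ℝ) := Real.rpow_le_rpow_of_exponent_le hq hσ1
          _ = ρ ^ (-(χ / 2)) := Real.rpow_one _
          _ ≤ ρ ^ (-χ) := Real.rpow_le_rpow_of_exponent_ge hρ0 hρ1 (by linarith)
      have a2 : r ^ σ₀ ≤ r ^ β := Real.rpow_le_rpow_of_exponent_ge hr0 hr1 hβ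
      have a3 : 0 ≤ r ^ σ₀ := (Real.rpow_pos_of_pos hr0 _).le
      have a4 : 0 ≤ ρ ^ (-χ) := (Real.rpow_pos_of_pos hρ0 _).le
      exact mul_le_mul a1 a2 a3 a4

/-- the combinatorial part of the step: restriction of the two copies to their good events -/
theorem re6_step_core {Ω ι : Type} [Fintype Ω] [Fintype ι] (w X : Ω → ℝ) (ν T : ι → ℝ)
    (σ χ β ρ a b : ℝ) (Gd G' : Finset Ω)
    (hw0 : ∀ ω, 0 ≤ w ω) (hw1 : ∑ ω, w ω = 1) (hν1 : ∑ i, ν i = 1)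
    (hGd : 1 - a ≤ ∑ ω ∈ Gd, w ω) (hG' : 1 - b ≤ ∑ ω ∈ G', w ω)
    (hgain : ∀ (w₁ : Ω → ℝ) (w₂ : Ω → ℝ), (∀ ω, 0 ≤ w₁ ω) → (∀ ω, 0 ≤ w₂ ω) → ∑ ω, w₁ ω ≤ 1 → ∑ ω, w₂ ω ≤ 1 →
        (∀ x r : ℝ, ρ ≤ r → ∑ ω with |X ω - x| ≤ r, w₁ ω ≤ ρ ^ (-χ) * r ^ β) →
        (∀ x : ℝ, ∑ ω with |X ω - x| ≤ ρ, w₂ ω ≤ ρ ^ (σ - χ)) →
        ∃ Gd : Finset (Ω × ι × Ω),
          ∑ p : Ω × ι × Ω, w₂ p.1 * ν p.2.1 * w₁ p.2.2 - ρ ^ χ ≤ ∑ p ∈ Gd, w₂ p.1 * ν p.2.1 * w₁ p.2.2 ∧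
          ∀ x : ℝ, ∑ p ∈ Gd with |X p.1 + T p.2.1 * X p.2.2 - x| ≤ ρ, w₂ p.1 * ν p.2.1 * w₁ p.2.2 ≤ ρ ^ (σ + χ / 2))
    (h1 : ∀ x r : ℝ, ρ ≤ r → ∑ ω ∈ G' with |X ω - x| ≤ r, w ω ≤ ρ ^ (-χ) * r ^ β)
    (h2 : ∀ x : ℝ, ∑ ω ∈ Gd with |X ω - x| ≤ ρ, w ω ≤ ρ ^ (σ - χ)) :
    ∃ Gn : Finset (Ω × ι × Ω), 1 - a - b - ρ ^ χ ≤ ∑ p ∈ Gn, w p.1 * ν p.2.1 * w p.2.2 ∧
      ∀ x : ℝ, ∑ p ∈ Gn with |X p.1 + T p.2.1 * X p.2.2 - x| ≤ ρ, w p.1 * ν p.2.1 * w p.2.2 ≤ ρ ^ (σ + χ / 2) := by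
  classical
  have key : ∀ (G : Finset Ω) (P : Ω → Prop) [DecidablePred P],
      ∑ ω with P ω, (if ω ∈ G then w ω else 0) = ∑ ω ∈ G with P ω, w ω := by
    intro G P _
    rw [← Finset.sum_filter]
    refine Finset.sum_congr ?_ fun _ _ => rfl
    ext ω
    simp [and_comm]
  have tot : ∀ G : Finset Ω, ∑ ω, (if ω ∈ G then w ω else 0) = ∑ ω ∈ G, w ω := by
    intro G
    rw [Finset.sum_ite_mem, Finset.univ_inter]
  have le1 : ∀ G : Finset Ω, ∑ ω ∈ G, w ω ≤ 1 := by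
    intro G
    rw [← hw1]
    exact Finset.sum_le_univ_sum_of_nonneg hw0
  have nn : ∀ (G : Finset Ω) (ω : Ω), 0 ≤ (if ω ∈ G then w ω else 0) := by
    intro G ω
    split_ifs
    · exact hw0 ω
    · exact le_rfl
  obtain ⟨Gq, hq1, hq2⟩ := hgain (fun ω => if ω ∈ G' then w ω else 0) (fun ω => if ω ∈ Gd then w ω else 0) (nn G') (nn Gd)
    (by rw [tot]; exact le1 G') (by rw [tot]; exact le1 Gd)
    (fun x r hr => by rw [key]; exact h1 x r hr) (fun x => by rw [key]; exact h2 x)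
  have hprod : ∑ p : Ω × ι × Ω, (if p.1 ∈ Gd then w p.1 else 0) * ν p.2.1 * (if p.2.2 ∈ G' then w p.2.2 else 0)
      = (∑ ω ∈ Gd, w ω) * (∑ ω ∈ G', w ω) := by
    rw [← tot Gd, ← tot G']
    simp only [Fintype.sum_prod_type]
    calc ∑ x, ∑ y, ∑ z, (if x ∈ Gd then w x else 0) * ν y * (if z ∈ G' then w z else 0)
        = ∑ x, (if x ∈ Gd then w x else 0) * ((∑ y, ν y) * ∑ z, (if z ∈ G' then w z else 0)) := by
          refine Finset.sum_congr rfl fun x _ => ?_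
          rw [Finset.sum_mul_sum, Finset.mul_sum]
          refine Finset.sum_congr rfl fun y _ => ?_
          rw [Finset.mul_sum]
          refine Finset.sum_congr rfl fun z _ => ?_
          ring
      _ = _ := by rw [hν1, one_mul, Finset.sum_mul]
  have hpt : ∀ p : Ω × ι × Ω, (if p.1 ∈ Gd then w p.1 else 0) * ν p.2.1 * (if p.2.2 ∈ G' then w p.2.2 else 0)
      = if (p.1 ∈ Gd ∧ p.2.2 ∈ G') then w p.1 * ν p.2.1 * w p.2.2 else 0 := by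
    intro p
    by_cases c1 : p.1 ∈ Gd <;> by_cases c2 : p.2.2 ∈ G' <;> simp [c1, c2]
  refine ⟨Gq.filter fun p => p.1 ∈ Gd ∧ p.2.2 ∈ G', ?_, fun x => ?_⟩
  · rw [Finset.sum_filter, ← Finset.sum_congr rfl fun p _ => hpt p]
    refine le_trans ?_ hq1
    rw [hprod]
    have u1 := le1 Gd
    have v1 := le1 G'
    nlinarith [mul_nonneg (sub_nonneg.2 u1) (sub_nonneg.2 v1)]
  · rw [Finset.filter_comm, Finset.sum_filter, ← Finset.sum_congr rfl fun p _ => hpt p]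
    exact hq2 x


theorem re6_reach_step (S σ : ℝ) (hS : 0 < S) (hσ0 : 0 < σ) (hσ1 : σ < 1) :
    ∃ δ : ℝ, 0 < δ ∧ (Re6Reach S (σ - δ) → Re6Reach S (σ + δ)) := by
  obtain ⟨χ, hχ0, hχ1, hgA⟩ := re6_ring_gainA S σ hS hσ0 hσ1
  have hm0 : 0 < min S σ := lt_min hS hσ0
  have hmσ : min S σ ≤ σ := min_le_right _ _
  have hδ0 : 0 < min (χ / 4) (min S σ / 4) := lt_min (by positivity) (by positivity)
  refine ⟨min (χ / 4) (min S σ / 4), hδ0, ?_⟩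
  generalize hδ : min (χ / 4) (min S σ / 4) = δ at hδ0 ⊢
  have hδχ : δ ≤ χ / 4 := hδ ▸ min_le_left _ _
  have hδm : δ ≤ min S σ / 4 := hδ ▸ min_le_right _ _
  rintro ⟨H, hH⟩
  have hA1 : (1 : ℝ) ≤ (H : ℝ) * 2 ^ H + 1 := by
    have : (0 : ℝ) ≤ (H : ℝ) * 2 ^ H := by positivity
    linarith
  obtain ⟨ρ₁, hρ₁0, hρ₁1, hg⟩ := hgA ((H : ℝ) * 2 ^ H + 1) hA1
  refine ⟨H + H + 1, fun ε' hε' => ?_⟩
  obtain ⟨c, τ, h₀, hc, hτ, hh₀, hmain⟩ := hH (ε' * χ / 4) (by positivity)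
  have hε0 : 0 < ε' * χ / 4 := by positivity
  generalize hε : ε' * χ / 4 = ε at hmain hε0
  have hc'0 : 0 < min c (min χ (ε * c)) / 2 := by
    have : 0 < min c (min χ (ε * c)) := lt_min hc (lt_min hχ0 (by positivity))
    positivity
  generalize hc' : min c (min χ (ε * c)) / 2 = c' at hc'0
  have hc'c : 2 * c' ≤ c := by
    have := min_le_left c (min χ (ε * c)); linarith
  have hc'χ : 2 * c' ≤ χ := by
    have := (min_le_right c (min χ (ε * c))).trans (min_le_left _ _); linarith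
  have hc'ε : 2 * c' ≤ ε * c := by
    have := (min_le_right c (min χ (ε * c))).trans (min_le_right _ _); linarith
  have hK0 : 0 < 1 / (4 / χ + 3) := by positivity
  refine ⟨c', min τ (ε' * χ), min (min h₀ 1) (min (ρ₁ ^ (1 / ε')) ((1 / (4 / χ + 3)) ^ (1 / (ε' * c')))), hc'0,
    lt_min hτ (by positivity), lt_min (lt_min hh₀ one_pos) (lt_min (Real.rpow_pos_of_pos hρ₁0 _) (Real.rpow_pos_of_pos hK0 _)), ?_⟩
  intro h hh0 hhlt ι _ ν T hsrc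
  have hhh₀ : h < h₀ := hhlt.trans_le ((min_le_left _ _).trans (min_le_left _ _))
  have hh1 : h < 1 := hhlt.trans_le ((min_le_left _ _).trans (min_le_right _ _))
  have hhρ₁ : h ^ ε' < ρ₁ := by
    have h1 : h < ρ₁ ^ (1 / ε') := hhlt.trans_le ((min_le_right _ _).trans (min_le_left _ _))
    have h2 := Real.rpow_lt_rpow hh0.le h1 hε'
    rwa [← Real.rpow_mul hρ₁0.le, one_div_mul_cancel hε'.ne', Real.rpow_one] at h2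
  have hhK : h ^ (ε' * c') < 1 / (4 / χ + 3) := by
    have h1 : h < (1 / (4 / χ + 3)) ^ (1 / (ε' * c')) := hhlt.trans_le ((min_le_right _ _).trans (min_le_right _ _))
    have hpos : 0 < ε' * c' := by positivity
    have h2 := Real.rpow_lt_rpow hh0.le h1 hpos
    rwa [← Real.rpow_mul hK0.le, one_div_mul_cancel hpos.ne', Real.rpow_one] at h2
  obtain ⟨hν0, hν1, hT, hFr⟩ := hsrc
  have hsrc' : Re6Src h τ S ν T := by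
    refine ⟨hν0, hν1, hT, fun z r hr hr1 => (hFr z r hr hr1).trans ?_⟩
    have : h ^ (-min τ (ε' * χ)) ≤ h ^ (-τ) :=
      Real.rpow_le_rpow_of_exponent_ge hh0 hh1.le (by have := min_le_left τ (ε' * χ); linarith)
    have hr0 : 0 ≤ r ^ S := Real.rpow_nonneg (hh0.le.trans hr) _
    exact mul_le_mul_of_nonneg_right this hr0
  obtain ⟨Ω, instΩ, w, X, hw0, hw1, hX, hscale⟩ := hmain h hh0 hhh₀ ι ν T hsrc'
  have hRT : ∀ t ∈ Set.range T, 1 / 2 ≤ t ∧ t ≤ 2 := by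
    rintro t ⟨i, rfl⟩; exact hT i
  refine ⟨Ω × ι × Ω, inferInstance, fun p => w p.1 * ν p.2.1 * w p.2.2, fun p => X p.1 + T p.2.1 * X p.2.2, ?_, ?_, ?_, ?_⟩
  · intro p
    exact mul_nonneg (mul_nonneg (hw0 _) (hν0 _)) (hw0 _)
  · simp only [Fintype.sum_prod_type]
    calc ∑ x, ∑ y, ∑ z, w x * ν y * w z = ∑ x, w x * ((∑ y, ν y) * ∑ z, w z) := by
          refine Finset.sum_congr rfl fun x _ => ?_
          rw [Finset.sum_mul_sum, Finset.mul_sum]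
          refine Finset.sum_congr rfl fun y _ => ?_
          rw [Finset.mul_sum]
          refine Finset.sum_congr rfl fun z _ => ?_
          ring
      _ = 1 := by rw [hν1, hw1, one_mul]; simp [hw1]
  · intro p
    refine ⟨re6_gen_step H H _ _ _ _ (hX p.1).1 (hX p.2.2).1 ⟨p.2.1, rfl⟩, ?_⟩
    have a1 := (hX p.1).2
    have a2 := (hX p.2.2).2
    have a3 := (hT p.2.1).1
    have : 0 ≤ T p.2.1 * X p.2.2 := mul_nonneg (by linarith) (by linarith)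
    linarith
  intro ρ hhρ hρh
  have hρ0 : 0 < ρ := hh0.trans_le hhρ
  have hhε'1 : h ^ ε' < 1 := Real.rpow_lt_one hh0.le hh1 hε'
  have hρ1 : ρ < 1 := hρh.trans_lt hhε'1
  have hεε' : ε ≤ ε' := by
    rw [← hε]; nlinarith
  have hR0 : 0 < h ^ ε := Real.rpow_pos_of_pos hh0 _
  have hR1 : h ^ ε < 1 := Real.rpow_lt_one hh0.le hh1 hε0
  have hρR : ρ ≤ h ^ ε := hρh.trans (Real.rpow_le_rpow_of_exponent_ge hh0 hh1.le hεε')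
  have hσ₀0 : 0 ≤ σ - δ := by linarith
  have hσ₀1 : σ - δ ≤ 1 := by linarith
  have hβ0 : 0 ≤ σ - min S σ / 2 := by linarith
  have hβσ : σ - min S σ / 2 ≤ σ - δ := by linarith
  obtain ⟨G', hG'1, hG'2⟩ := re6_ring_net w X ρ (h ^ ε) (σ - δ) c (χ / 4) hw0 hw1 hρ0 hρR hR1 hσ₀0 hc (by positivity)
    (fun r hr hrR => hscale r (hhρ.trans hr) hrR)
  obtain ⟨Gd, hGd1, hGd2⟩ := hscale ρ hhρ hρR
  have hRinv : (h ^ ε)⁻¹ ≤ ρ ^ (-(χ / 4)) := by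
    rw [← Real.rpow_neg hh0.le]
    exact re6_step_num1 h ρ ε' (χ / 4) ε hh0 hh1.le hρ0 hρh (by positivity) (by rw [← hε]; exact le_of_eq (by ring))
  have le1 : ∀ G : Finset Ω, ∑ ω ∈ G, w ω ≤ 1 := by
    intro G
    rw [← hw1]
    exact Finset.sum_le_univ_sum_of_nonneg hw0
  obtain ⟨Gn, hn1, hn2⟩ := re6_step_core w X ν T σ χ (σ - min S σ / 2) ρ (ρ ^ c) ((1 / (χ / 4) + 1) * (h ^ ε) ^ c) Gd G' hw0 hw1 hν1
    hGd1 hG'1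
    (fun w₁ w₂ hw₁ hw₂ hs₁ hs₂ hf₁ hf₂ => hg ρ hρ0 (hρh.trans_lt hhρ₁) Ω Ω ι w₁ X w₂ X ν T hw₁ hw₂ hν0 hs₁ hs₂ hν1.le
      (fun ω => by
        have := re6_gen_le H _ hRT _ (hX ω).1
        rw [abs_of_nonneg this.1]; linarith [this.2])
      (fun ω => by
        have := re6_gen_le H _ hRT _ (hX ω).1
        rw [abs_of_nonneg this.1]; linarith [this.2])
      (fun i => by
        have := hT i
        rw [abs_of_nonneg (by linarith)]; exact this.2)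
      (fun z r hr hr1 => (hFr z r (hhρ.trans hr) hr1).trans (by
        have := re6_step_num1 h ρ ε' χ (min τ (ε' * χ)) hh0 hh1.le hρ0 hρh hχ0.le (min_le_right _ _)
        exact mul_le_mul_of_nonneg_right this (Real.rpow_nonneg (hρ0.le.trans hr) _)))
      hf₁ hf₂)
    (fun x r hr => by
      rcases le_or_gt r 1 with hr1 | hr1
      · exact (hG'2 x r hr).trans (re6_step_num2 ρ (h ^ ε) r χ (σ - δ) _ hρ0 hρ1.le hR0 hRinv (hρ0.trans_le hr) hr1 hχ0.le hβσ hσ₀0 hσ₀1)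
      · have b1 : 1 ≤ ρ ^ (-χ) := Real.one_le_rpow_of_pos_of_le_one_of_nonpos hρ0 hρ1.le (by linarith)
        have b2 : 1 ≤ r ^ (σ - min S σ / 2) := Real.one_le_rpow hr1.le hβ0
        have b3 : ∑ ω ∈ G' with |X ω - x| ≤ r, w ω ≤ 1 := le1 _
        exact b3.trans (one_le_mul_of_one_le_of_one_le b1 b2))
    (fun x => (hGd2 x).trans (Real.rpow_le_rpow_of_exponent_ge hρ0 hρ1.le (by linarith)))
  refine ⟨Gn, ?_, fun x => (hn2 x).trans (Real.rpow_le_rpow_of_exponent_ge hρ0 hρ1.le (by linarith))⟩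
  refine le_trans ?_ hn1
  have hP : 0 < ρ ^ c' := Real.rpow_pos_of_pos hρ0 _
  have e2 : ρ ^ (2 * c') = ρ ^ c' * ρ ^ c' := by
    rw [← Real.rpow_add hρ0]; congr 1; ring
  have d1 : ρ ^ c ≤ ρ ^ c' * ρ ^ c' := e2 ▸ Real.rpow_le_rpow_of_exponent_ge hρ0 hρ1.le hc'c
  have d2 : ρ ^ χ ≤ ρ ^ c' * ρ ^ c' := e2 ▸ Real.rpow_le_rpow_of_exponent_ge hρ0 hρ1.le hc'χ
  have d3 : (h ^ ε) ^ c ≤ ρ ^ c' * ρ ^ c' := by
    rw [← Real.rpow_mul hh0.le]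
    calc h ^ (ε * c) ≤ ρ ^ (ε * c) := Real.rpow_le_rpow hh0.le hhρ (by positivity)
      _ ≤ ρ ^ (2 * c') := Real.rpow_le_rpow_of_exponent_ge hρ0 hρ1.le hc'ε
      _ = _ := e2
  have d4 : ρ ^ c' ≤ 1 / (4 / χ + 3) := by
    calc ρ ^ c' ≤ (h ^ ε') ^ c' := Real.rpow_le_rpow hρ0.le hρh hc'0.le
      _ = h ^ (ε' * c') := (Real.rpow_mul hh0.le _ _).symm
      _ ≤ _ := hhK.le
  have hk : 0 < 4 / χ + 3 := by positivity
  have d5 : (4 / χ + 3) * ρ ^ c' ≤ 1 := by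
    rw [le_div_iff₀ hk] at d4; linarith
  have e4 : 1 / (χ / 4) = 4 / χ := by field_simp
  rw [e4]
  have hk1 : 0 ≤ 4 / χ + 1 := by positivity
  have d6 : (4 / χ + 1) * (h ^ ε) ^ c ≤ (4 / χ + 1) * (ρ ^ c' * ρ ^ c') := mul_le_mul_of_nonneg_left d3 hk1
  have d7 : (4 / χ + 3) * ρ ^ c' * ρ ^ c' ≤ 1 * ρ ^ c' := mul_le_mul_of_nonneg_right d5 hP.le
  have d8 : (4 / χ + 3) * ρ ^ c' * ρ ^ c' = (4 / χ + 1) * (ρ ^ c' * ρ ^ c') + ρ ^ c' * ρ ^ c' + ρ ^ c' * ρ ^ c' := by ring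
  linarith

end Claimed.Agent.R252

end PkRe6RingStep

section PkRe6Ring

/-!
# Row 252, unit Re6.  CONTRACT `Ring`: RING(S,e) (replaces Orponen-de Saxce-Shmerkin Thm 1.5 + L re:flat-coefficients, 06a l.314-392).   Architect helper183.
Leaves L-252-RE6-RING-SUP (`re6_reach_all`) and L-252-RE6-RING-OUT (`re6_ring`).

SUP.  `Σ = sSup {σ ≤ 1 | Re6Reach S σ}` (nonempty by base + mono, `Σ > 0`).   If `Σ < 1`: `δ` from `re6_reach_step S Σ`; some reached `σ'' > Σ - δ`, so (mono) `Σ - δ` is reached, so `Σ + δ` is reached, so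
`min (Σ + δ) ((Σ + 1)/2) > Σ` is reached: contradiction.   Hence `Σ = 1`, and mono.
OUT.  `Re6Reach S (1 - e/2)` with `ε = 1`, `ρ = h`:  `w(Gd) ≥ 1 - h^c ≥ 1/2`.   `𝒞` = a maximal `h`-separated subset of `X(Gd)`:  `1/2 ≤ ∑_{c ∈ 𝒞} w(Gd ∩ {|X - c| ≤ h}) ≤ #𝒞 h^(1-e/2)`, `h^(-1+e/2)/2 ≥ h^(-1+e)`.
-/

set_option autoImplicit false

namespace Claimed.Agent.R252

open Finset

theorem re6_reach_all (S : ℝ) (hS : 0 < S) (σ : ℝ) (hσ : σ < 1) : Re6Reach S σ := by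
  set A : Set ℝ := {s | s ≤ 1 ∧ Re6Reach S s} with hA
  have hbdd : BddAbove A := ⟨1, fun s hs => hs.1⟩
  have hm0 : min (S / 2) 1 ∈ A :=
    ⟨min_le_right _ _, re6_reach_mono S (S / 2) _ (min_le_left _ _) (re6_reach_base S hS)⟩
  have hne : A.Nonempty := ⟨_, hm0⟩
  have hpos : 0 < sSup A := lt_of_lt_of_le (lt_min (by positivity) one_pos) (le_csSup hbdd hm0)
  have hge : 1 ≤ sSup A := by
    by_contra hlt
    rw [not_le] at hlt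
    obtain ⟨δ, hδ, hstep⟩ := re6_reach_step S (sSup A) hS hpos hlt
    obtain ⟨s, hs, hs'⟩ := exists_lt_of_lt_csSup hne (show sSup A - δ < sSup A by linarith)
    have h1 : Re6Reach S (sSup A + δ) := hstep (re6_reach_mono S s _ hs'.le hs.2)
    have h2 : min (sSup A + δ) ((sSup A + 1) / 2) ∈ A :=
      ⟨(min_le_right _ _).trans (by linarith), re6_reach_mono S _ _ (min_le_left _ _) h1⟩
    have h3 := le_csSup hbdd h2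
    have h4 : sSup A < min (sSup A + δ) ((sSup A + 1) / 2) := lt_min (by linarith) (by linarith)
    exact absurd h3 (not_le.2 h4)
  obtain ⟨s, hs, hs'⟩ := exists_lt_of_lt_csSup hne (lt_of_lt_of_le hσ hge)
  exact re6_reach_mono S s σ hs'.le hs.2

/-- **RING(S,e)** -/
theorem re6_ring (S e : ℝ) (hS : 0 < S) (he : 0 < e) :
    ∃ H : ℕ, ∃ τ h₀ : ℝ, 0 < τ ∧ 0 < h₀ ∧ ∀ h : ℝ, 0 < h → h < h₀ →
      ∀ (ι : Type) [Fintype ι] (ν T : ι → ℝ), Re6Src h τ S ν T →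
        ∃ Cc : Finset ℝ, (∀ c ∈ Cc, c ∈ re6Gen H (Set.range T) ∧ 1 / 2 ≤ c) ∧
          (∀ c ∈ Cc, ∀ c' ∈ Cc, c ≠ c' → h ≤ |c - c'|) ∧ h ^ (-1 + e) ≤ (#Cc : ℝ) := by
  classical
  obtain ⟨H, hH⟩ := re6_reach_all S hS (1 - e / 2) (by linarith)
  obtain ⟨c, τ, h₀, hc, hτ, hh₀, hmain⟩ := hH 1 one_pos
  have he2 : 0 < e / 2 := by positivity
  refine ⟨H, τ, min h₀ (min ((1 / 2 : ℝ) ^ (1 / c)) ((1 / 2 : ℝ) ^ (1 / (e / 2)))), hτ, by positivity, ?_⟩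
  intro h hh0 hhlt ι _ ν T hsrc
  have hlt0 : h < h₀ := lt_of_lt_of_le hhlt (min_le_left _ _)
  have hc2 : h ^ c ≤ 1 / 2 := re6_gA_pow_le hh0 (by norm_num) hc
    (lt_of_lt_of_le hhlt ((min_le_right _ _).trans (min_le_left _ _)))
  have he3 : h ^ (e / 2) ≤ 1 / 2 := re6_gA_pow_le hh0 (by norm_num) he2
    (lt_of_lt_of_le hhlt ((min_le_right _ _).trans (min_le_right _ _)))
  obtain ⟨Ω, instΩ, w, X, hw0, hw1, hX, hρ⟩ := hmain h hh0 hlt0 ι ν T hsrc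
  obtain ⟨Gd, hGd, hat⟩ := hρ h le_rfl (by rw [Real.rpow_one])
  -- a maximal separated subset of the values
  obtain ⟨Cc, hCmem, hCmax⟩ := Finset.exists_max_image
    ((Gd.image X).powerset.filter fun C => ∀ c ∈ C, ∀ c' ∈ C, c ≠ c' → h ≤ |c - c'|) Finset.card
    ⟨∅, by simp⟩
  rw [Finset.mem_filter, Finset.mem_powerset] at hCmem
  obtain ⟨hCsub, hCsep⟩ := hCmem
  have hcover : ∀ ω ∈ Gd, ∃ c ∈ Cc, |X ω - c| ≤ h := by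
    intro ω hω
    by_contra hno
    push Not at hno
    have hnot : X ω ∉ Cc := by
      intro hmem
      have := hno _ hmem
      rw [sub_self, abs_zero] at this
      linarith
    have hins : insert (X ω) Cc ∈ (Gd.image X).powerset.filter
        fun C => ∀ c ∈ C, ∀ c' ∈ C, c ≠ c' → h ≤ |c - c'| := by
      rw [Finset.mem_filter, Finset.mem_powerset]
      refine ⟨Finset.insert_subset (Finset.mem_image_of_mem X hω) hCsub, ?_⟩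
      intro a ha b hb hab
      rw [Finset.mem_insert] at ha hb
      rcases ha with rfl | ha <;> rcases hb with rfl | hb
      · exact absurd rfl hab
      · exact (hno b hb).le
      · rw [abs_sub_comm]; exact (hno a ha).le
      · exact hCsep a ha b hb hab
    have := hCmax _ hins
    rw [Finset.card_insert_of_notMem hnot] at this
    omega
  refine ⟨Cc, ?_, hCsep, ?_⟩
  · intro a ha
    obtain ⟨ω, _, rfl⟩ := Finset.mem_image.1 (hCsub ha)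
    exact hX ω
  · have h1 : ∑ ω ∈ Gd, w ω ≤ ∑ a ∈ Cc, ∑ ω ∈ Gd with |X ω - a| ≤ h, w ω := by
      have h2 : ∀ ω ∈ Gd, w ω ≤ ∑ a ∈ Cc, if |X ω - a| ≤ h then w ω else 0 := by
        intro ω hω
        obtain ⟨a, ha, hle⟩ := hcover ω hω
        have h3 := Finset.single_le_sum (f := fun a => if |X ω - a| ≤ h then w ω else 0)
          (fun a _ => by
            show 0 ≤ if |X ω - a| ≤ h then w ω else 0
            split_ifs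
            · exact hw0 ω
            · exact le_rfl) ha
        simp only [if_pos hle] at h3
        exact h3
      calc ∑ ω ∈ Gd, w ω ≤ ∑ ω ∈ Gd, ∑ a ∈ Cc, if |X ω - a| ≤ h then w ω else 0 := Finset.sum_le_sum h2
        _ = ∑ a ∈ Cc, ∑ ω ∈ Gd, if |X ω - a| ≤ h then w ω else 0 := Finset.sum_comm
        _ = ∑ a ∈ Cc, ∑ ω ∈ Gd with |X ω - a| ≤ h, w ω :=
            Finset.sum_congr rfl fun a _ => (Finset.sum_filter _ _).symm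
    have h4 : ∑ a ∈ Cc, ∑ ω ∈ Gd with |X ω - a| ≤ h, w ω ≤ (#Cc : ℝ) * h ^ (1 - e / 2) := by
      have := Finset.sum_le_card_nsmul Cc (fun a => ∑ ω ∈ Gd with |X ω - a| ≤ h, w ω) (h ^ (1 - e / 2))
        (fun a _ => hat a)
      rwa [nsmul_eq_mul] at this
    have h5 : (1 / 2 : ℝ) ≤ (#Cc : ℝ) * h ^ (1 - e / 2) := by linarith
    have hp : 0 < h ^ (-1 + e) := Real.rpow_pos_of_pos hh0 _
    have h6 : h ^ (1 - e / 2) * h ^ (-1 + e) = h ^ (e / 2) := by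
      rw [← Real.rpow_add hh0]
      congr 1
      ring
    have h7 : h ^ (1 - e / 2) * h ^ (-1 + e) ≤ 1 / 2 := h6 ▸ he3
    have hq : 0 < h ^ (1 - e / 2) := Real.rpow_pos_of_pos hh0 _
    by_contra hlt
    push Not at hlt
    have h8 : (#Cc : ℝ) * h ^ (1 - e / 2) < h ^ (-1 + e) * h ^ (1 - e / 2) := mul_lt_mul_of_pos_right hlt hq
    linarith [mul_comm (h ^ (-1 + e)) (h ^ (1 - e / 2))]

end Claimed.Agent.R252

end PkRe6Ring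

section PkRe6StrA

/-!
# Row 252, unit Re6.  CONTRACT `StrA`: parallel strips, first half (collisions and the anchor edge).   Architect helper183.  Leaf L-252-RE6-STR-A.   Mathlib only.   PROVED (helper43), nothing open; helpers `re6_sa_*`, `C = 102`, threshold `q = L / (24 K³)`.

NOTATION.  `g = (a, b)`, `g' = (a', b')`, `v = a - a'`, `u = b - b'` (integer vectors).   `re6Cl s g = re6Cl s g'` implies `|v₁ + s u₁| < 1` and `|v₂ + s u₂| < 1`.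
PROOF of `re6_str_anchor` (all constants explicit, `C` is yours).
1. (`re6_str_collide`, Cauchy-Schwarz)  for every `s ∈ Sc`: `#{(g,g') ∈ Γ² : same cell} ≥ #Γ² / (K L)`.
2. few collisions with `|u₁| ≤ q`:  fix `s`, `g'`.  `b₁` takes `≤ 2q+1` values `n`; given `n`, `a₁` lies in an open interval of length `2`: `≤ 3` values `m`; the cap gives `≤ K` edges for each `(m,n)`:
   `≤ 3 K (2q+1) #Γ` pairs.   With `2q + 1 = L / (6 K³)` this is `≤ #Γ² / (2 K L)` (`#Γ ≥ L²/K`).   So `≥ #Γ² / (2 K L)` colliding pairs have `|u₁| > q ≥ L / (24 K³)` (if `L ≥ 12 K³`).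
3. sum over `s ∈ Sc`: `≥ #Sc #Γ² / (2 K L) ≥ #Γ² / (2 K Q)` triples `(s, g, g')`.   A pair with `|u₁| > q` is counted for `≤ 2 K L / q + 1 ≤ 49 K⁴` values of `s` (`|v₁ + s u₁| < 1` confines `s` to an interval of length
   `2/|u₁|`, and `Sc` is `1/(K L)`-separated).   So `≥ #Γ² / (98 K⁵ Q)` pairs; pigeonhole `g'`.
-/

set_option autoImplicit false

namespace Claimed.Agent.R252

open Finset

theorem re6_str_collide {α β : Type*} [DecidableEq α] [DecidableEq β] (Γ : Finset α) (f : α → β) :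
    #Γ ^ 2 ≤ #(Γ.image f) * #{q ∈ Γ ×ˢ Γ | f q.1 = f q.2} := by
  have h1 : #Γ = ∑ b ∈ Γ.image f, #{a ∈ Γ | f a = b} := Finset.card_eq_sum_card_image f Γ
  have h2 : #{q ∈ Γ ×ˢ Γ | f q.1 = f q.2} = ∑ b ∈ Γ.image f, #{a ∈ Γ | f a = b} ^ 2 := by
    rw [Finset.card_eq_sum_card_fiberwise (f := fun q : α × α => f q.1) (t := Γ.image f)]
    · refine Finset.sum_congr rfl fun b _ => ?_
      rw [sq, ← Finset.card_product]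
      congr 1
      ext ⟨x, y⟩
      simp only [mem_filter, mem_product]
      constructor
      · rintro ⟨⟨⟨hx, hy⟩, hxy⟩, hb⟩
        exact ⟨⟨hx, hb⟩, hy, hxy ▸ hb⟩
      · rintro ⟨⟨hx, hxb⟩, hy, hyb⟩
        exact ⟨⟨⟨hx, hy⟩, hxb.trans hyb.symm⟩, hxb⟩
    · intro q hq
      have hq' := (Finset.mem_product.1 (Finset.mem_filter.1 hq).1).1
      exact Finset.mem_coe.2 (Finset.mem_image_of_mem f hq')
  rw [h2]
  conv_lhs => rw [h1]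
  exact sq_sum_le_card_mul_sum_sq

theorem re6_sa_Icc_card (x r : ℝ) (hr : 0 ≤ r) : (#(Finset.Icc ⌈x - r⌉ ⌊x + r⌋) : ℝ) ≤ 2 * r + 1 := by
  rw [Int.card_Icc]
  have h2 : ((⌊x + r⌋ + 1 - ⌈x - r⌉).toNat : ℝ) = (((⌊x + r⌋ + 1 - ⌈x - r⌉).toNat : ℤ) : ℝ) := (Int.cast_natCast _).symm
  rw [h2, Int.toNat_eq_max, Int.cast_max]
  refine max_le ?_ (by simp only [Int.cast_zero]; positivity)
  push_cast
  linarith [Int.floor_le (x + r), Int.le_ceil (x - r)]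

theorem re6_sa_mem_Icc {x r : ℝ} {m : ℤ} (h : |(m : ℝ) - x| ≤ r) : m ∈ Finset.Icc ⌈x - r⌉ ⌊x + r⌋ := by
  rw [Finset.mem_Icc, Int.ceil_le, Int.le_floor]
  constructor <;> linarith [(abs_le.1 h).1, (abs_le.1 h).2]

theorem re6_sa_cl {s : ℝ} {g g' : (ℤ × ℤ) × (ℤ × ℤ)} (h : re6Cl s g = re6Cl s g') :
    |((g.1.1 : ℝ) - g'.1.1) + s * ((g.2.1 : ℝ) - g'.2.1)| < 1 ∧ |((g.1.2 : ℝ) - g'.1.2) + s * ((g.2.2 : ℝ) - g'.2.2)| < 1 := by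
  unfold re6Cl re6Rd re6Emb at h
  rw [Prod.mk.injEq] at h
  obtain ⟨h1, h2⟩ := h
  have a1 := Int.abs_sub_lt_one_of_floor_eq_floor h1
  have a2 := Int.abs_sub_lt_one_of_floor_eq_floor h2
  simp only [Prod.fst_add, Prod.snd_add, Prod.smul_fst, Prod.smul_snd, smul_eq_mul] at a1 a2
  have e1 : ((g.1.1 : ℝ) - g'.1.1) + s * ((g.2.1 : ℝ) - g'.2.1) = (g.1.1 : ℝ) + s * g.2.1 - ((g'.1.1 : ℝ) + s * g'.2.1) := by ring
  have e2 : ((g.1.2 : ℝ) - g'.1.2) + s * ((g.2.2 : ℝ) - g'.2.2) = (g.1.2 : ℝ) + s * g.2.2 - ((g'.1.2 : ℝ) + s * g'.2.2) := by ring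
  rw [e1, e2]
  exact ⟨a1, a2⟩

theorem re6_sa_pairs {α : Type*} (Γ : Finset α) (R : α → α → Prop) [∀ a b, Decidable (R a b)] :
    #{x ∈ Γ ×ˢ Γ | R x.1 x.2} = ∑ g' ∈ Γ, #{g ∈ Γ | R g g'} := by
  simp only [Finset.card_filter]
  rw [Finset.sum_product_right]

theorem re6_sa_near (K q s : ℝ) (hK : 0 ≤ K) (hq : 0 ≤ q) (Γ D : Finset ((ℤ × ℤ) × (ℤ × ℤ))) (g' : (ℤ × ℤ) × (ℤ × ℤ)) (hD : D ⊆ Γ)
    (hcap : ∀ m n : ℤ, (#{p ∈ Γ | p.1.1 = m ∧ p.2.1 = n} : ℝ) ≤ K)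
    (h1 : ∀ g ∈ D, |(g.2.1 : ℝ) - g'.2.1| ≤ q)
    (h2 : ∀ g ∈ D, |((g.1.1 : ℝ) - g'.1.1) + s * ((g.2.1 : ℝ) - g'.2.1)| ≤ 1) :
    (#D : ℝ) ≤ 3 * K * (2 * q + 1) := by
  have key : #D ≤ (⌊K⌋₊ * 3) * #(Finset.Icc ⌈(g'.2.1 : ℝ) - q⌉ ⌊(g'.2.1 : ℝ) + q⌋) := by
    refine Finset.card_le_mul_card_image_of_maps_to (f := fun g : (ℤ × ℤ) × (ℤ × ℤ) => g.2.1)
      (fun g hg => re6_sa_mem_Icc (h1 g hg)) _ fun n _ => ?_
    have hx := re6_sa_Icc_card ((g'.1.1 : ℝ) - s * ((n : ℝ) - g'.2.1)) 1 zero_le_one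
    have hx' : #(Finset.Icc ⌈(g'.1.1 : ℝ) - s * ((n : ℝ) - g'.2.1) - 1⌉ ⌊(g'.1.1 : ℝ) - s * ((n : ℝ) - g'.2.1) + 1⌋) ≤ 3 := by
      have h3 : (#(Finset.Icc ⌈(g'.1.1 : ℝ) - s * ((n : ℝ) - g'.2.1) - 1⌉ ⌊(g'.1.1 : ℝ) - s * ((n : ℝ) - g'.2.1) + 1⌋) : ℝ) ≤ 3 := by
        linarith
      exact_mod_cast h3
    refine le_trans (Finset.card_le_mul_card_image_of_maps_to (f := fun g : (ℤ × ℤ) × (ℤ × ℤ) => g.1.1)
      (t := Finset.Icc ⌈(g'.1.1 : ℝ) - s * ((n : ℝ) - g'.2.1) - 1⌉ ⌊(g'.1.1 : ℝ) - s * ((n : ℝ) - g'.2.1) + 1⌋) ?_ ⌊K⌋₊ ?_)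
      (Nat.mul_le_mul_left _ hx')
    · intro g hg
      obtain ⟨hgD, hgn⟩ := Finset.mem_filter.1 hg
      apply re6_sa_mem_Icc
      have h4 := h2 g hgD
      rw [hgn] at h4
      convert h4 using 2
      ring
    · intro m _
      apply Nat.le_floor
      refine le_trans ?_ (hcap m n)
      have h5 : #{a ∈ {a ∈ D | a.2.1 = n} | a.1.1 = m} ≤ #{p ∈ Γ | p.1.1 = m ∧ p.2.1 = n} := by
        refine Finset.card_le_card fun g hg => ?_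
        obtain ⟨hg1, hgm⟩ := Finset.mem_filter.1 hg
        obtain ⟨hgD, hgn⟩ := Finset.mem_filter.1 hg1
        exact Finset.mem_filter.2 ⟨hD hgD, hgm, hgn⟩
      exact_mod_cast h5
  have k1 : (#D : ℝ) ≤ ((⌊K⌋₊ : ℝ) * 3) * (#(Finset.Icc ⌈(g'.2.1 : ℝ) - q⌉ ⌊(g'.2.1 : ℝ) + q⌋) : ℝ) := by exact_mod_cast key
  have k2 := re6_sa_Icc_card (g'.2.1 : ℝ) q hq
  have k3 : (⌊K⌋₊ : ℝ) ≤ K := Nat.floor_le hK
  calc (#D : ℝ) ≤ ((⌊K⌋₊ : ℝ) * 3) * (#(Finset.Icc ⌈(g'.2.1 : ℝ) - q⌉ ⌊(g'.2.1 : ℝ) + q⌋) : ℝ) := k1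
    _ ≤ (K * 3) * (2 * q + 1) := by gcongr
    _ = 3 * K * (2 * q + 1) := by ring

theorem re6_sa_scount (K L q : ℝ) (hKL : 0 < K * L) (hq : 0 < q) (Sc S : Finset ℝ) (hS : S ⊆ Sc)
    (hsep : ∀ s ∈ Sc, ∀ s' ∈ Sc, s ≠ s' → 1 / (K * L) ≤ |s - s'|) (v u : ℝ) (hu : q ≤ |u|)
    (h : ∀ s ∈ S, |v + s * u| ≤ 1) : (#S : ℝ) ≤ 2 * (K * L / q) + 3 := by
  have hu1 : 0 < |u| := lt_of_lt_of_le hq hu
  have hu0 : u ≠ 0 := abs_pos.1 hu1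
  have hc : ∀ s ∈ S, |s - (-v / u)| ≤ 1 / q := by
    intro s hs
    have e : s - (-v / u) = (v + s * u) / u := by field_simp; ring
    rw [e, abs_div]
    calc |v + s * u| / |u| ≤ 1 / |u| := by gcongr; exact h s hs
      _ ≤ 1 / q := one_div_le_one_div_of_le hq hu
  have hcard : #S ≤ #(Finset.Icc ⌈(-v / u) * (K * L) - (K * L / q + 1)⌉ ⌊(-v / u) * (K * L) + (K * L / q + 1)⌋) := by
    refine Finset.card_le_card_of_injOn (fun s => ⌊s * (K * L)⌋) (fun s hs => re6_sa_mem_Icc ?_) ?_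
    · have h1 := Int.floor_le (s * (K * L))
      have h2 := Int.lt_floor_add_one (s * (K * L))
      have h3 := hc s hs
      have h4 : |s * (K * L) - (-v / u) * (K * L)| ≤ K * L / q := by
        rw [← sub_mul, abs_mul, abs_of_pos hKL]
        calc |s - (-v / u)| * (K * L) ≤ 1 / q * (K * L) := by gcongr
          _ = K * L / q := by ring
      rw [abs_le] at h4 ⊢
      constructor <;> linarith [h4.1, h4.2]
    · intro s hs s' hs' hff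
      by_contra hne
      have h1 := hsep s (hS hs) s' (hS hs') hne
      have h2 := Int.abs_sub_lt_one_of_floor_eq_floor hff
      rw [← sub_mul, abs_mul, abs_of_pos hKL] at h2
      rw [div_le_iff₀ hKL] at h1
      linarith
  have h6 := re6_sa_Icc_card ((-v / u) * (K * L)) (K * L / q + 1) (by positivity)
  calc (#S : ℝ) ≤ (#(Finset.Icc ⌈(-v / u) * (K * L) - (K * L / q + 1)⌉ ⌊(-v / u) * (K * L) + (K * L / q + 1)⌋) : ℝ) := by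
        exact_mod_cast hcard
    _ ≤ 2 * (K * L / q + 1) + 1 := h6
    _ = 2 * (K * L / q) + 3 := by ring

theorem re6_str_anchor : ∃ C : ℕ, ∀ (L K Q : ℝ) (Γ : Finset ((ℤ × ℤ) × (ℤ × ℤ))) (Sc : Finset ℝ), 1 ≤ K → 1 ≤ Q → C * K ^ C ≤ L →
    L ^ 2 / K ≤ (#Γ : ℝ) → (∀ m n : ℤ, (#{p ∈ Γ | p.1.1 = m ∧ p.2.1 = n} : ℝ) ≤ K) →
    (∀ s ∈ Sc, 1 / K ≤ |s| ∧ |s| ≤ K) → (∀ s ∈ Sc, ∀ s' ∈ Sc, s ≠ s' → 1 / (K * L) ≤ |s - s'|) → L / Q ≤ (#Sc : ℝ) →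
    (∀ s ∈ Sc, (#(Γ.image (re6Cl s)) : ℝ) ≤ K * L) →
    ∃ g' ∈ Γ, (#Γ : ℝ) ≤ C * (K * Q) ^ C *
      #{g ∈ Γ | L ≤ C * K ^ C * |(g.2.1 : ℝ) - g'.2.1| ∧
        ∃ s ∈ Sc, |((g.1.1 : ℝ) - g'.1.1) + s * ((g.2.1 : ℝ) - g'.2.1)| < 1 ∧ |((g.1.2 : ℝ) - g'.1.2) + s * ((g.2.2 : ℝ) - g'.2.2)| < 1} := by
  refine ⟨102, ?_⟩
  intro L K Q Γ Sc hK hQ hL hΓ hcap _hs hsep hSc himg
  simp only [Nat.cast_ofNat] at hL ⊢
  have hK0 : 0 < K := by linarith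
  have hQ0 : 0 < Q := by linarith
  have hK3 : K ^ 3 ≤ K ^ 102 := pow_le_pow_right₀ hK (by norm_num)
  have hK3p : 0 < K ^ 3 := by positivity
  have hL12 : 12 * K ^ 3 ≤ L := by linarith
  have hL0 : 0 < L := by linarith
  have hKL : 0 < K * L := by positivity
  have hn0 : (0 : ℝ) < #Γ := lt_of_lt_of_le (by positivity) hΓ
  have hne : Γ.Nonempty := by
    rw [← Finset.card_pos]
    exact_mod_cast hn0
  obtain ⟨q, hqdef⟩ : ∃ q : ℝ, q = L / (24 * K ^ 3) := ⟨_, rfl⟩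
  have hq : 0 < q := by rw [hqdef]; positivity
  have hqL : 24 * K ^ 3 * q = L := by rw [hqdef]; field_simp
  have hKLq : K * L / q = 24 * K ^ 4 := by
    rw [← hqL]; field_simp
  -- (H1)
  have H1 : ∀ s ∈ Sc, (#Γ : ℝ) ^ 2 ≤ K * L * ∑ g' ∈ Γ, (#{g ∈ Γ | re6Cl s g = re6Cl s g'} : ℝ) := by
    intro s hs
    have h1 := re6_str_collide Γ (re6Cl s)
    rw [re6_sa_pairs Γ (fun g g' => re6Cl s g = re6Cl s g')] at h1
    have h2 : (#Γ : ℝ) ^ 2 ≤ (#(Γ.image (re6Cl s)) : ℝ) * ∑ g' ∈ Γ, (#{g ∈ Γ | re6Cl s g = re6Cl s g'} : ℝ) := by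
      exact_mod_cast h1
    refine h2.trans (mul_le_mul_of_nonneg_right (himg s hs) (Finset.sum_nonneg fun _ _ => Nat.cast_nonneg _))
  -- (H2)
  have H2 : ∀ s ∈ Sc, ∀ g' ∈ Γ, (#{g ∈ Γ | re6Cl s g = re6Cl s g'} : ℝ)
      ≤ (#{g ∈ Γ | re6Cl s g = re6Cl s g' ∧ q ≤ |(g.2.1 : ℝ) - g'.2.1|} : ℝ) + 3 * K * (2 * q + 1) := by
    intro s _ g' _
    have h1 : #{g ∈ Γ | re6Cl s g = re6Cl s g'} ≤ #{g ∈ Γ | re6Cl s g = re6Cl s g' ∧ q ≤ |(g.2.1 : ℝ) - g'.2.1|}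
        + #{g ∈ Γ | re6Cl s g = re6Cl s g' ∧ ¬ q ≤ |(g.2.1 : ℝ) - g'.2.1|} := by
      refine le_trans (Finset.card_le_card fun g hg => ?_) (Finset.card_union_le _ _)
      obtain ⟨hg1, hg2⟩ := Finset.mem_filter.1 hg
      by_cases hf : q ≤ |(g.2.1 : ℝ) - g'.2.1|
      · exact Finset.mem_union_left _ (Finset.mem_filter.2 ⟨hg1, hg2, hf⟩)
      · exact Finset.mem_union_right _ (Finset.mem_filter.2 ⟨hg1, hg2, hf⟩)
    have h2 := re6_sa_near K q s hK0.le hq.le Γ {g ∈ Γ | re6Cl s g = re6Cl s g' ∧ ¬ q ≤ |(g.2.1 : ℝ) - g'.2.1|} g'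
      (Finset.filter_subset _ _) hcap
      (fun g hg => (not_le.1 (Finset.mem_filter.1 hg).2.2).le)
      (fun g hg => (re6_sa_cl (Finset.mem_filter.1 hg).2.1).1.le)
    have h3 : (#{g ∈ Γ | re6Cl s g = re6Cl s g'} : ℝ) ≤ (#{g ∈ Γ | re6Cl s g = re6Cl s g' ∧ q ≤ |(g.2.1 : ℝ) - g'.2.1|} : ℝ)
        + (#{g ∈ Γ | re6Cl s g = re6Cl s g' ∧ ¬ q ≤ |(g.2.1 : ℝ) - g'.2.1|} : ℝ) := by exact_mod_cast h1
    linarith
  -- (H3)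
  have H3 : ∀ g' ∈ Γ, ∑ s ∈ Sc, (#{g ∈ Γ | re6Cl s g = re6Cl s g' ∧ q ≤ |(g.2.1 : ℝ) - g'.2.1|} : ℝ)
      ≤ (48 * K ^ 4 + 3) * (#{g ∈ Γ | L ≤ 102 * K ^ 102 * |(g.2.1 : ℝ) - g'.2.1| ∧
        ∃ s ∈ Sc, |((g.1.1 : ℝ) - g'.1.1) + s * ((g.2.1 : ℝ) - g'.2.1)| < 1 ∧ |((g.1.2 : ℝ) - g'.1.2) + s * ((g.2.2 : ℝ) - g'.2.2)| < 1} : ℝ) := by
    intro g' _
    have h1 : ∑ s ∈ Sc, #{g ∈ Γ | re6Cl s g = re6Cl s g' ∧ q ≤ |(g.2.1 : ℝ) - g'.2.1|}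
        = ∑ g ∈ Γ, #{s ∈ Sc | re6Cl s g = re6Cl s g' ∧ q ≤ |(g.2.1 : ℝ) - g'.2.1|} := by
      simp only [Finset.card_filter]
      exact Finset.sum_comm
    have h2 : ∑ s ∈ Sc, (#{g ∈ Γ | re6Cl s g = re6Cl s g' ∧ q ≤ |(g.2.1 : ℝ) - g'.2.1|} : ℝ)
        = ∑ g ∈ Γ, (#{s ∈ Sc | re6Cl s g = re6Cl s g' ∧ q ≤ |(g.2.1 : ℝ) - g'.2.1|} : ℝ) := by exact_mod_cast h1
    rw [h2, mul_comm, ← nsmul_eq_mul, ← Finset.sum_const, Finset.sum_filter]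
    refine Finset.sum_le_sum fun g _ => ?_
    have hM : (0 : ℝ) ≤ 48 * K ^ 4 + 3 := by positivity
    rcases Finset.eq_empty_or_nonempty {s ∈ Sc | re6Cl s g = re6Cl s g' ∧ q ≤ |(g.2.1 : ℝ) - g'.2.1|} with he | ⟨s0, hs0⟩
    · rw [he, Finset.card_empty, Nat.cast_zero]
      split_ifs
      · exact hM
      · exact le_rfl
    · obtain ⟨hs1, hs2, hs3⟩ := Finset.mem_filter.1 hs0
      have hW : L ≤ 102 * K ^ 102 * |(g.2.1 : ℝ) - g'.2.1| ∧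
          ∃ s ∈ Sc, |((g.1.1 : ℝ) - g'.1.1) + s * ((g.2.1 : ℝ) - g'.2.1)| < 1 ∧ |((g.1.2 : ℝ) - g'.1.2) + s * ((g.2.2 : ℝ) - g'.2.2)| < 1 := by
        refine ⟨?_, s0, hs1, re6_sa_cl hs2⟩
        calc L = 24 * K ^ 3 * q := hqL.symm
          _ ≤ 102 * K ^ 102 * |(g.2.1 : ℝ) - g'.2.1| := by
            refine mul_le_mul (by linarith) hs3 hq.le (by positivity)
      rw [if_pos hW]
      have h3 := re6_sa_scount K L q hKL hq Sc {s ∈ Sc | re6Cl s g = re6Cl s g' ∧ q ≤ |(g.2.1 : ℝ) - g'.2.1|}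
        (Finset.filter_subset _ _) hsep ((g.1.1 : ℝ) - g'.1.1) ((g.2.1 : ℝ) - g'.2.1) hs3
        (fun s hs => (re6_sa_cl (Finset.mem_filter.1 hs).2.1).1.le)
      rw [hKLq] at h3
      linarith
  -- summation
  obtain ⟨n, hn⟩ : ∃ n : ℝ, n = (#Γ : ℝ) := ⟨_, rfl⟩
  obtain ⟨σ, hσ⟩ : ∃ σ : ℝ, σ = (#Sc : ℝ) := ⟨_, rfl⟩
  obtain ⟨w, hw⟩ : ∃ w : (ℤ × ℤ) × (ℤ × ℤ) → ℝ, w = fun g' => (#{g ∈ Γ | L ≤ 102 * K ^ 102 * |(g.2.1 : ℝ) - g'.2.1| ∧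
        ∃ s ∈ Sc, |((g.1.1 : ℝ) - g'.1.1) + s * ((g.2.1 : ℝ) - g'.2.1)| < 1 ∧ |((g.1.2 : ℝ) - g'.1.2) + s * ((g.2.2 : ℝ) - g'.2.2)| < 1} : ℝ) := ⟨_, rfl⟩
  have hw0 : ∀ g', 0 ≤ w g' := fun g' => by rw [hw]; exact Nat.cast_nonneg _
  have e1 : σ * n ^ 2 ≤ K * L * ∑ s ∈ Sc, ∑ g' ∈ Γ, (#{g ∈ Γ | re6Cl s g = re6Cl s g'} : ℝ) := by
    rw [Finset.mul_sum, hσ, hn, ← nsmul_eq_mul, ← Finset.sum_const]
    exact Finset.sum_le_sum fun s hs => H1 s hs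
  have e2 : ∑ s ∈ Sc, ∑ g' ∈ Γ, (#{g ∈ Γ | re6Cl s g = re6Cl s g'} : ℝ)
      ≤ ∑ s ∈ Sc, ∑ g' ∈ Γ, ((#{g ∈ Γ | re6Cl s g = re6Cl s g' ∧ q ≤ |(g.2.1 : ℝ) - g'.2.1|} : ℝ) + 3 * K * (2 * q + 1)) :=
    Finset.sum_le_sum fun s hs => Finset.sum_le_sum fun g' hg' => H2 s hs g' hg'
  have e3 : ∑ s ∈ Sc, ∑ g' ∈ Γ, ((#{g ∈ Γ | re6Cl s g = re6Cl s g' ∧ q ≤ |(g.2.1 : ℝ) - g'.2.1|} : ℝ) + 3 * K * (2 * q + 1))
      = ∑ g' ∈ Γ, ∑ s ∈ Sc, (#{g ∈ Γ | re6Cl s g = re6Cl s g' ∧ q ≤ |(g.2.1 : ℝ) - g'.2.1|} : ℝ) + σ * (n * (3 * K * (2 * q + 1))) := by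
    simp only [Finset.sum_add_distrib, Finset.sum_const, nsmul_eq_mul]
    rw [Finset.sum_comm, hσ, hn]
  have e4 : ∑ g' ∈ Γ, ∑ s ∈ Sc, (#{g ∈ Γ | re6Cl s g = re6Cl s g' ∧ q ≤ |(g.2.1 : ℝ) - g'.2.1|} : ℝ)
      ≤ (48 * K ^ 4 + 3) * ∑ g' ∈ Γ, w g' := by
    rw [Finset.mul_sum, hw]
    exact Finset.sum_le_sum H3
  obtain ⟨Sw, hSw⟩ : ∃ x : ℝ, x = ∑ g' ∈ Γ, w g' := ⟨_, rfl⟩
  rw [← hSw] at e4
  have hS0 : 0 ≤ Sw := by rw [hSw]; exact Finset.sum_nonneg fun g' _ => hw0 g'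
  have e5 : σ * n ^ 2 ≤ K * L * ((48 * K ^ 4 + 3) * Sw + σ * (n * (3 * K * (2 * q + 1)))) := by
    refine e1.trans (mul_le_mul_of_nonneg_left ?_ hKL.le)
    rw [e3] at e2
    linarith
  rw [← hn] at hΓ hn0
  rw [← hσ] at hSc
  have hσ0 : 0 ≤ σ := by rw [hσ]; exact Nat.cast_nonneg _
  -- (H4)
  have H4 : K * L * (3 * K * (2 * q + 1)) ≤ n / 2 := by
    have a1 : K * L * (3 * K * (2 * q + 1)) = L ^ 2 / (4 * K) + 3 * K ^ 2 * L := by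
      rw [hqdef]; field_simp; ring
    have a2 : 3 * K ^ 2 * L ≤ L ^ 2 / (4 * K) := by
      rw [le_div_iff₀ (by positivity)]
      nlinarith
    have a3 : L ^ 2 / (4 * K) = L ^ 2 / K / 4 := by field_simp
    rw [a1]
    rw [a3] at a2 ⊢
    linarith
  have e6 : σ * n ^ 2 / 2 ≤ K * L * (48 * K ^ 4 + 3) * Sw := by
    have a1 : σ * n * (K * L * (3 * K * (2 * q + 1))) ≤ σ * n * (n / 2) :=
      mul_le_mul_of_nonneg_left H4 (mul_nonneg hσ0 hn0.le)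
    nlinarith
  have e7 : n ^ 2 ≤ 2 * K * Q * (48 * K ^ 4 + 3) * Sw := by
    have a1 : L / Q * n ^ 2 / 2 ≤ K * L * (48 * K ^ 4 + 3) * Sw := by
      refine le_trans ?_ e6
      have := mul_le_mul_of_nonneg_right hSc (sq_nonneg n)
      linarith
    have a2 : L * n ^ 2 ≤ L * (2 * K * Q * (48 * K ^ 4 + 3) * Sw) := by
      have a3 : L / Q * n ^ 2 / 2 * (2 * Q) = L * n ^ 2 := by field_simp
      have a4 := mul_le_mul_of_nonneg_right a1 (by positivity : (0 : ℝ) ≤ 2 * Q)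
      rw [a3] at a4
      linarith
    exact le_of_mul_le_mul_left a2 hL0
  have e8 : ∑ _g' ∈ Γ, n ≤ ∑ g' ∈ Γ, 2 * K * Q * (48 * K ^ 4 + 3) * w g' := by
    rw [Finset.sum_const, nsmul_eq_mul, ← hn, ← Finset.mul_sum, ← hSw, ← sq]
    exact e7
  obtain ⟨g', hg', hle⟩ := Finset.exists_le_of_sum_le hne e8
  refine ⟨g', hg', ?_⟩
  rw [← hn]
  refine hle.trans ?_
  have hwg : w g' = (#{g ∈ Γ | L ≤ 102 * K ^ 102 * |(g.2.1 : ℝ) - g'.2.1| ∧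
        ∃ s ∈ Sc, |((g.1.1 : ℝ) - g'.1.1) + s * ((g.2.1 : ℝ) - g'.2.1)| < 1 ∧ |((g.1.2 : ℝ) - g'.1.2) + s * ((g.2.2 : ℝ) - g'.2.2)| < 1} : ℝ) := by
    rw [hw]
  rw [← hwg]
  refine mul_le_mul_of_nonneg_right ?_ (hw0 g')
  have hKQ : 1 ≤ K * Q := one_le_mul_of_one_le_of_one_le hK hQ
  have b1 : (K * Q) ^ 5 ≤ (K * Q) ^ 102 := pow_le_pow_right₀ hKQ (by norm_num)
  have b2 : K ^ 5 * Q ≤ (K * Q) ^ 5 := by
    rw [mul_pow]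
    refine mul_le_mul_of_nonneg_left ?_ (by positivity)
    calc Q = Q ^ 1 := (pow_one Q).symm
      _ ≤ Q ^ 5 := pow_le_pow_right₀ hQ (by norm_num)
  have b3 : (1 : ℝ) ≤ K ^ 4 := one_le_pow₀ hK
  have b4 : 2 * K * Q * (48 * K ^ 4 + 3) ≤ 102 * (K ^ 5 * Q) := by
    have : 2 * K * Q * (48 * K ^ 4 + 3) ≤ 2 * K * Q * (51 * K ^ 4) :=
      mul_le_mul_of_nonneg_left (by linarith) (by positivity)
    calc 2 * K * Q * (48 * K ^ 4 + 3) ≤ 2 * K * Q * (51 * K ^ 4) := this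
      _ = 102 * (K ^ 5 * Q) := by ring
  linarith

end Claimed.Agent.R252

end PkRe6StrA

section PkRe6StrB

/-!
# Row 252, unit Re6.  CONTRACT `StrB`: parallel strips, second half (slope bins).   Architect helper183.  Leaf L-252-RE6-STR-B.   Mathlib only.   PROVED (helper43), nothing open; helpers `re6_sb_*`, `C = 40`.

NOTATION.  anchor `(a', b')`; for `p = (a, b)`: `v = a - a'`, `u = b - b'`.   Hypothesis: `u₁, v₁` are of size `∼ L`, and `v` is parallel to `u` up to `K`: `|v₂ u₁ - u₂ v₁| ≤ K |u₁|`, i.e. `|v₂ - σ v₁| ≤ K`, `σ = u₂/u₁`, `|σ| ≤ K²`.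
PROOF.  Slope bins of width `η = 1/(K L)`: `j = ⌊σ/η⌋`, `λ_j = j η`.   For `p` in the bin `j`: `|u₂ - λ_j u₁| ≤ η |u₁| ≤ 1`, `|v₂ - λ_j v₁| ≤ K + 1 =: w`.
`β_j = #{b ∈ B : u₁ ≠ 0, ⌊(u₂/u₁)/η⌋ = j}`: disjoint, `∑_j β_j ≤ #B ≤ K L`.      `α_j = #{a ∈ A : |v₁| ≥ L/K, |v₂ - λ_j v₁| ≤ w}`: a fixed `a` is counted for `≤ 2 w /(|v₁| η) + 1 ≤ 2 w K² + 1` values of `j`:
`∑_j α_j ≤ (2 w K² + 1) K L`.      `#(Γ₁ ∩ bin j) ≤ α_j β_j`.   The bins with `α_j < α_min = #Γ₁ / (2 K L)` carry `≤ α_min ∑ β_j ≤ #Γ₁ / 2` edges; there are `≤ ∑ α_j / α_min ≤ C K^C` other bins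
(`#Γ₁ ≥ L²/K`): one of them carries `≥ #Γ₁ / (2 C K^C)` edges.   (Only finitely many `j` occur: `j ∈` image of `Γ₁`.)
-/

set_option autoImplicit false

namespace Claimed.Agent.R252

open Finset

theorem re6_sb_Icc_card (x r : ℝ) (hr : 0 ≤ r) : (#(Finset.Icc ⌈x - r⌉ ⌊x + r⌋) : ℝ) ≤ 2 * r + 1 := by
  rw [Int.card_Icc]
  have h2 : ((⌊x + r⌋ + 1 - ⌈x - r⌉).toNat : ℝ) = (((⌊x + r⌋ + 1 - ⌈x - r⌉).toNat : ℤ) : ℝ) := (Int.cast_natCast _).symm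
  rw [h2, Int.toNat_eq_max, Int.cast_max]
  refine max_le ?_ (by simp only [Int.cast_zero]; positivity)
  push_cast
  linarith [Int.floor_le (x + r), Int.le_ceil (x - r)]

theorem re6_sb_mem_Icc {x r : ℝ} {m : ℤ} (h : |(m : ℝ) - x| ≤ r) : m ∈ Finset.Icc ⌈x - r⌉ ⌊x + r⌋ := by
  rw [Finset.mem_Icc, Int.ceil_le, Int.le_floor]
  constructor <;> linarith [(abs_le.1 h).1, (abs_le.1 h).2]

/-- a point of the slope bin `j` -/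
theorem re6_sb_pt (L K u₁ u₂ v₁ v₂ : ℝ) (hL : 1 ≤ L) (hK : 1 ≤ K) (h1 : L ≤ K * |u₁|) (h3 : |u₁| ≤ K * L) (h4 : |v₁| ≤ K * L)
    (h5 : |u₂| ≤ K * L) (h6 : |v₂ * u₁ - u₂ * v₁| ≤ K * |u₁|) (j : ℤ) (hj : ⌊u₂ / u₁ * (K * L)⌋ = j) :
    |(j : ℝ) / (K * L)| ≤ K ^ 2 + 1 ∧ |v₂ - (j : ℝ) / (K * L) * v₁| ≤ K + 1 ∧ |u₂ - (j : ℝ) / (K * L) * u₁| ≤ 1 := by
  have hK0 : 0 < K := by linarith
  have hL0 : 0 < L := by linarith
  have hKL : 0 < K * L := by positivity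
  have hKL1 : 1 ≤ K * L := one_le_mul_of_one_le_of_one_le hK hL
  have hu1 : 0 < |u₁| := by
    by_contra h
    have : |u₁| = 0 := le_antisymm (not_lt.1 h) (abs_nonneg _)
    rw [this] at h1
    linarith
  have hu0 : u₁ ≠ 0 := abs_pos.1 hu1
  obtain ⟨σ, hσ⟩ : ∃ σ : ℝ, σ = u₂ / u₁ := ⟨_, rfl⟩
  rw [← hσ] at hj
  obtain ⟨d, hd⟩ : ∃ d : ℝ, d = σ - (j : ℝ) / (K * L) := ⟨_, rfl⟩
  have f1 := Int.floor_le (σ * (K * L))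
  have f2 := Int.lt_floor_add_one (σ * (K * L))
  rw [hj] at f1 f2
  have hd0 : 0 ≤ d := by
    rw [hd, sub_nonneg, div_le_iff₀ hKL]
    exact f1
  have hd1 : d * (K * L) ≤ 1 := by
    rw [hd, sub_mul, div_mul_cancel₀ _ hKL.ne']
    linarith
  have hd1' : d ≤ 1 := by nlinarith
  have hu2 : u₂ = σ * u₁ := by rw [hσ]; field_simp
  have hjd : (j : ℝ) / (K * L) = σ - d := by rw [hd]; ring
  have hσK : |σ| ≤ K ^ 2 := by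
    rw [hσ, abs_div, div_le_iff₀ hu1]
    nlinarith
  have hv : |v₂ - σ * v₁| ≤ K := by
    have e : v₂ - σ * v₁ = (v₂ * u₁ - u₂ * v₁) / u₁ := by rw [hσ]; field_simp
    rw [e, abs_div, div_le_iff₀ hu1]
    exact h6
  rw [hjd]
  refine ⟨?_, ?_, ?_⟩
  · calc |σ - d| ≤ |σ| + |d| := abs_sub _ _
      _ ≤ K ^ 2 + 1 := by rw [abs_of_nonneg hd0]; linarith
  · have e : v₂ - (σ - d) * v₁ = (v₂ - σ * v₁) + d * v₁ := by ring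
    rw [e]
    calc |(v₂ - σ * v₁) + d * v₁| ≤ |v₂ - σ * v₁| + |d * v₁| := abs_add_le _ _
      _ ≤ K + 1 := by
        rw [abs_mul, abs_of_nonneg hd0]
        have : d * |v₁| ≤ d * (K * L) := mul_le_mul_of_nonneg_left h4 hd0
        linarith
  · have e : u₂ - (σ - d) * u₁ = d * u₁ := by rw [hu2]; ring
    rw [e, abs_mul, abs_of_nonneg hd0]
    have : d * |u₁| ≤ d * (K * L) := mul_le_mul_of_nonneg_left h3 hd0
    linarith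

/-- a fixed `a` is counted in few bins -/
theorem re6_sb_jcount (L K v₁ v₂ : ℝ) (hL : 1 ≤ L) (hK : 1 ≤ K) (h2 : L ≤ K * |v₁|) (S : Finset ℤ)
    (hS : ∀ j ∈ S, |v₂ - (j : ℝ) / (K * L) * v₁| ≤ K + 1) : (#S : ℝ) ≤ 2 * ((K + 1) * K ^ 2) + 1 := by
  have hK0 : 0 < K := by linarith
  have hL0 : 0 < L := by linarith
  have hKL : 0 < K * L := by positivity
  have hv1 : 0 < |v₁| := by
    by_contra h
    have : |v₁| = 0 := le_antisymm (not_lt.1 h) (abs_nonneg _)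
    rw [this] at h2
    linarith
  have hv0 : v₁ ≠ 0 := abs_pos.1 hv1
  have hsub : S ⊆ Finset.Icc ⌈v₂ * (K * L) / v₁ - (K + 1) * K ^ 2⌉ ⌊v₂ * (K * L) / v₁ + (K + 1) * K ^ 2⌋ := by
    intro j hj
    apply re6_sb_mem_Icc
    have e : (j : ℝ) - v₂ * (K * L) / v₁ = -((v₂ - (j : ℝ) / (K * L) * v₁) * (K * L) / v₁) := by
      field_simp
      ring
    rw [e, abs_neg, abs_div, abs_mul, abs_of_pos hKL, div_le_iff₀ hv1]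
    calc |v₂ - (j : ℝ) / (K * L) * v₁| * (K * L) ≤ (K + 1) * (K * L) :=
          mul_le_mul_of_nonneg_right (hS j hj) hKL.le
      _ = (K + 1) * K * L := by ring
      _ ≤ (K + 1) * K * (K * |v₁|) := mul_le_mul_of_nonneg_left h2 (by positivity)
      _ = (K + 1) * K ^ 2 * |v₁| := by ring
  have h6 := re6_sb_Icc_card (v₂ * (K * L) / v₁) ((K + 1) * K ^ 2) (by positivity)
  refine le_trans ?_ h6
  exact_mod_cast Finset.card_le_card hsub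

theorem re6_str_bins : ∃ C : ℕ, ∀ (L K : ℝ) (A B : Finset (ℤ × ℤ)) (Γ₁ : Finset ((ℤ × ℤ) × (ℤ × ℤ))) (a' b' : ℤ × ℤ), 1 ≤ L → 1 ≤ K →
    (#A : ℝ) ≤ K * L → (#B : ℝ) ≤ K * L → Γ₁ ⊆ A ×ˢ B → L ^ 2 ≤ K * #Γ₁ →
    (∀ p ∈ Γ₁, L ≤ K * |(p.2.1 : ℝ) - b'.1| ∧ L ≤ K * |(p.1.1 : ℝ) - a'.1| ∧ |(p.2.1 : ℝ) - b'.1| ≤ K * L ∧ |(p.1.1 : ℝ) - a'.1| ≤ K * L ∧
      |(p.2.2 : ℝ) - b'.2| ≤ K * L ∧
      |((p.1.2 : ℝ) - a'.2) * ((p.2.1 : ℝ) - b'.1) - ((p.2.2 : ℝ) - b'.2) * ((p.1.1 : ℝ) - a'.1)| ≤ K * |(p.2.1 : ℝ) - b'.1|) →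
    ∃ lam : ℝ, |lam| ≤ C * K ^ C ∧
      L ^ 2 ≤ C * K ^ C * #{p ∈ Γ₁ | |((p.1.2 : ℝ) - a'.2) - lam * ((p.1.1 : ℝ) - a'.1)| ≤ C * K ^ C ∧
        |((p.2.2 : ℝ) - b'.2) - lam * ((p.2.1 : ℝ) - b'.1)| ≤ C * K ^ C} := by
  refine ⟨40, ?_⟩
  intro L K A B Γ₁ a' b' hL hK hA hB hsub hΓ hp
  simp only [Nat.cast_ofNat]
  by_contra hcon
  push Not at hcon
  have hK0 : 0 < K := by linarith
  have hL0 : 0 < L := by linarith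
  have hKL : 0 < K * L := by positivity
  obtain ⟨P, hP⟩ : ∃ P : ℝ, P = K ^ 40 := ⟨_, rfl⟩
  rw [← hP] at hcon
  have hP7 : K ^ 7 ≤ P := by rw [hP]; exact pow_le_pow_right₀ hK (by norm_num)
  have hP2 : K ^ 2 ≤ P := by rw [hP]; exact pow_le_pow_right₀ hK (by norm_num)
  have hP1 : K ≤ P := by
    rw [hP]
    calc K = K ^ 1 := (pow_one K).symm
      _ ≤ K ^ 40 := pow_le_pow_right₀ hK (by norm_num)
  have hP0 : 0 < P := by linarith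
  have hPone : 1 ≤ P := by linarith
  obtain ⟨n, hn⟩ : ∃ n : ℝ, n = (#Γ₁ : ℝ) := ⟨_, rfl⟩
  rw [← hn] at hΓ
  have hn0 : 0 < n := by
    have : 0 < K * n := lt_of_lt_of_le (by positivity) hΓ
    exact (mul_pos_iff_of_pos_left hK0).1 this
  -- the bins
  let jb : ℤ × ℤ → ℤ := fun b => ⌊((b.2 : ℝ) - b'.2) / ((b.1 : ℝ) - b'.1) * (K * L)⌋
  let f : (ℤ × ℤ) × (ℤ × ℤ) → ℤ := fun p => jb p.2
  have hpt : ∀ p ∈ Γ₁, ∀ j, f p = j → |(j : ℝ) / (K * L)| ≤ K ^ 2 + 1 ∧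
      |((p.1.2 : ℝ) - a'.2) - (j : ℝ) / (K * L) * ((p.1.1 : ℝ) - a'.1)| ≤ K + 1 ∧
      |((p.2.2 : ℝ) - b'.2) - (j : ℝ) / (K * L) * ((p.2.1 : ℝ) - b'.1)| ≤ 1 := by
    intro p hpΓ j hj
    obtain ⟨q1, _, q3, q4, q5, q6⟩ := hp p hpΓ
    exact re6_sb_pt L K _ _ _ _ hL hK q1 q3 q4 q5 q6 j hj
  obtain ⟨x, hx⟩ : ∃ x : ℤ → ℝ, x = fun j : ℤ => (#{p ∈ Γ₁ | f p = j} : ℝ) := ⟨_, rfl⟩
  obtain ⟨α, hα⟩ : ∃ α : ℤ → ℝ, α = fun j : ℤ => (#{a ∈ A | L ≤ K * |(a.1 : ℝ) - a'.1| ∧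
      |((a.2 : ℝ) - a'.2) - (j : ℝ) / (K * L) * ((a.1 : ℝ) - a'.1)| ≤ K + 1} : ℝ) := ⟨_, rfl⟩
  obtain ⟨β, hβ⟩ : ∃ β : ℤ → ℝ, β = fun j : ℤ => (#{b ∈ B | jb b = j} : ℝ) := ⟨_, rfl⟩
  have hxj : ∀ j, x j = (#{p ∈ Γ₁ | f p = j} : ℝ) := fun j => by rw [hx]
  have hαj : ∀ j : ℤ, α j = (#{a ∈ A | L ≤ K * |(a.1 : ℝ) - a'.1| ∧
      |((a.2 : ℝ) - a'.2) - (j : ℝ) / (K * L) * ((a.1 : ℝ) - a'.1)| ≤ K + 1} : ℝ) := fun j => by rw [hα]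
  have hβj : ∀ j, β j = (#{b ∈ B | jb b = j} : ℝ) := fun j => by rw [hβ]
  have hx0 : ∀ j, 0 ≤ x j := fun j => by rw [hxj]; exact Nat.cast_nonneg _
  have hα0 : ∀ j, 0 ≤ α j := fun j => by rw [hαj]; exact Nat.cast_nonneg _
  have hβ0 : ∀ j, 0 ≤ β j := fun j => by rw [hβj]; exact Nat.cast_nonneg _
  -- x ≤ α β
  have hx1 : ∀ j, x j ≤ α j * β j := by
    intro j
    rw [hxj, hαj, hβj]
    have h1 : #{p ∈ Γ₁ | f p = j} ≤ #({a ∈ A | L ≤ K * |(a.1 : ℝ) - a'.1| ∧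
      |((a.2 : ℝ) - a'.2) - (j : ℝ) / (K * L) * ((a.1 : ℝ) - a'.1)| ≤ K + 1} ×ˢ {b ∈ B | jb b = j}) := by
      refine Finset.card_le_card fun p hpm => ?_
      obtain ⟨hp1, hp2⟩ := Finset.mem_filter.1 hpm
      have hAB := Finset.mem_product.1 (hsub hp1)
      rw [Finset.mem_product, Finset.mem_filter, Finset.mem_filter]
      exact ⟨⟨hAB.1, (hp p hp1).2.1, (hpt p hp1 j hp2).2.1⟩, hAB.2, hp2⟩
    rw [Finset.card_product] at h1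
    exact_mod_cast h1
  -- x small
  have hx2 : ∀ j ∈ Γ₁.image f, 40 * P * x j ≤ K * n := by
    intro j hj
    obtain ⟨p0, hp0, hp0j⟩ := Finset.mem_image.1 hj
    have hlam : |(j : ℝ) / (K * L)| ≤ 40 * P := by
      refine (hpt p0 hp0 j hp0j).1.trans ?_
      nlinarith
    have h1 := hcon _ hlam
    have h2 : x j ≤ (#{p ∈ Γ₁ | |((p.1.2 : ℝ) - a'.2) - (j : ℝ) / (K * L) * ((p.1.1 : ℝ) - a'.1)| ≤ 40 * P ∧
        |((p.2.2 : ℝ) - b'.2) - (j : ℝ) / (K * L) * ((p.2.1 : ℝ) - b'.1)| ≤ 40 * P} : ℝ) := by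
      rw [hxj]
      have h3 : #{p ∈ Γ₁ | f p = j} ≤ #{p ∈ Γ₁ | |((p.1.2 : ℝ) - a'.2) - (j : ℝ) / (K * L) * ((p.1.1 : ℝ) - a'.1)| ≤ 40 * P ∧
        |((p.2.2 : ℝ) - b'.2) - (j : ℝ) / (K * L) * ((p.2.1 : ℝ) - b'.1)| ≤ 40 * P} := by
        refine Finset.card_le_card fun p hpm => ?_
        obtain ⟨hp1, hp2⟩ := Finset.mem_filter.1 hpm
        have h4 := hpt p hp1 j hp2
        exact Finset.mem_filter.2 ⟨hp1, h4.2.1.trans (by linarith), h4.2.2.trans (by linarith)⟩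
      exact_mod_cast h3
    have h5 : 40 * P * x j ≤ 40 * P * (#{p ∈ Γ₁ | |((p.1.2 : ℝ) - a'.2) - (j : ℝ) / (K * L) * ((p.1.1 : ℝ) - a'.1)| ≤ 40 * P ∧
        |((p.2.2 : ℝ) - b'.2) - (j : ℝ) / (K * L) * ((p.2.1 : ℝ) - b'.1)| ≤ 40 * P} : ℝ) :=
      mul_le_mul_of_nonneg_left h2 (by positivity)
    linarith
  -- sums
  have hsx : n = ∑ j ∈ Γ₁.image f, x j := by
    simp only [hxj]
    rw [hn, Finset.card_eq_sum_card_image f Γ₁]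
    push_cast
    rfl
  have hsβ : ∑ j ∈ Γ₁.image f, β j ≤ K * L := by
    refine le_trans ?_ hB
    simp only [hβj]
    have h1 : ∑ j ∈ Γ₁.image f, #{b ∈ B | jb b = j} ≤ #B := by
      simp only [Finset.card_filter]
      rw [Finset.sum_comm, Finset.card_eq_sum_ones]
      refine Finset.sum_le_sum fun b _ => ?_
      rw [Finset.sum_ite_eq]
      split_ifs <;> simp
    exact_mod_cast h1
  have hsα : ∑ j ∈ Γ₁.image f, α j ≤ K * L * (2 * ((K + 1) * K ^ 2) + 1) := by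
    simp only [hαj]
    have h1 : ∑ j ∈ Γ₁.image f, #{a ∈ A | L ≤ K * |(a.1 : ℝ) - a'.1| ∧
        |((a.2 : ℝ) - a'.2) - (j : ℝ) / (K * L) * ((a.1 : ℝ) - a'.1)| ≤ K + 1}
        = ∑ a ∈ A, #{j ∈ Γ₁.image f | L ≤ K * |(a.1 : ℝ) - a'.1| ∧
        |((a.2 : ℝ) - a'.2) - ((j : ℤ) : ℝ) / (K * L) * ((a.1 : ℝ) - a'.1)| ≤ K + 1} := by
      simp only [Finset.card_filter]
      exact Finset.sum_comm
    have h2 : ∑ j ∈ Γ₁.image f, (#{a ∈ A | L ≤ K * |(a.1 : ℝ) - a'.1| ∧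
        |((a.2 : ℝ) - a'.2) - (j : ℝ) / (K * L) * ((a.1 : ℝ) - a'.1)| ≤ K + 1} : ℝ)
        = ∑ a ∈ A, (#{j ∈ Γ₁.image f | L ≤ K * |(a.1 : ℝ) - a'.1| ∧
        |((a.2 : ℝ) - a'.2) - ((j : ℤ) : ℝ) / (K * L) * ((a.1 : ℝ) - a'.1)| ≤ K + 1} : ℝ) := by exact_mod_cast h1
    rw [h2]
    have h3 : ∀ a ∈ A, (#{j ∈ Γ₁.image f | L ≤ K * |(a.1 : ℝ) - a'.1| ∧
        |((a.2 : ℝ) - a'.2) - ((j : ℤ) : ℝ) / (K * L) * ((a.1 : ℝ) - a'.1)| ≤ K + 1} : ℝ) ≤ 2 * ((K + 1) * K ^ 2) + 1 := by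
      intro a _
      by_cases ha : L ≤ K * |(a.1 : ℝ) - a'.1|
      · exact re6_sb_jcount L K _ _ hL hK ha _ fun j hj => (Finset.mem_filter.1 hj).2.2
      · have he : {j ∈ Γ₁.image f | L ≤ K * |(a.1 : ℝ) - a'.1| ∧
            |((a.2 : ℝ) - a'.2) - ((j : ℤ) : ℝ) / (K * L) * ((a.1 : ℝ) - a'.1)| ≤ K + 1} = ∅ :=
          Finset.filter_eq_empty_iff.2 fun j _ h => ha h.1
        rw [he, Finset.card_empty, Nat.cast_zero]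
        positivity
    refine (Finset.sum_le_sum h3).trans ?_
    rw [Finset.sum_const, nsmul_eq_mul]
    exact mul_le_mul_of_nonneg_right hA (by positivity)
  -- pointwise
  have hpw : ∀ j ∈ Γ₁.image f, x j ≤ n / (2 * (K * L)) * β j + K ^ 2 * L / (20 * P) * α j := by
    intro j hj
    have t1 : 0 ≤ n / (2 * (K * L)) * β j := mul_nonneg (by positivity) (hβ0 j)
    have t2 : 0 ≤ K ^ 2 * L / (20 * P) * α j := mul_nonneg (by positivity) (hα0 j)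
    by_cases h : α j ≤ n / (2 * (K * L))
    · have := mul_le_mul_of_nonneg_right h (hβ0 j)
      linarith [hx1 j]
    · have h' := (not_le.1 h).le
      have a1 : K ^ 2 * L / (20 * P) * (n / (2 * (K * L))) ≤ K ^ 2 * L / (20 * P) * α j :=
        mul_le_mul_of_nonneg_left h' (by positivity)
      have a2 : K ^ 2 * L / (20 * P) * (n / (2 * (K * L))) = K * n / (40 * P) := by
        field_simp
        ring
      have a3 : x j ≤ K * n / (40 * P) := by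
        rw [le_div_iff₀ (by positivity)]
        linarith [hx2 j hj]
      linarith
  have hfin : n ≤ n / (2 * (K * L)) * (K * L) + K ^ 2 * L / (20 * P) * (K * L * (2 * ((K + 1) * K ^ 2) + 1)) := by
    calc n = ∑ j ∈ Γ₁.image f, x j := hsx
      _ ≤ ∑ j ∈ Γ₁.image f, (n / (2 * (K * L)) * β j + K ^ 2 * L / (20 * P) * α j) := Finset.sum_le_sum hpw
      _ = n / (2 * (K * L)) * ∑ j ∈ Γ₁.image f, β j + K ^ 2 * L / (20 * P) * ∑ j ∈ Γ₁.image f, α j := by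
          rw [Finset.sum_add_distrib, Finset.mul_sum, Finset.mul_sum]
      _ ≤ _ := add_le_add (mul_le_mul_of_nonneg_left hsβ (by positivity)) (mul_le_mul_of_nonneg_left hsα (by positivity))
  have c1 : n / (2 * (K * L)) * (K * L) = n / 2 := by field_simp
  have c2 : 2 * ((K + 1) * K ^ 2) + 1 ≤ 5 * K ^ 3 := by
    have k2 : K ^ 2 ≤ K ^ 3 := pow_le_pow_right₀ hK (by norm_num)
    have k0 : (1 : ℝ) ≤ K ^ 3 := one_le_pow₀ hK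
    nlinarith
  have c3 : K ^ 2 * L / (20 * P) * (K * L * (2 * ((K + 1) * K ^ 2) + 1)) ≤ n / 4 := by
    calc K ^ 2 * L / (20 * P) * (K * L * (2 * ((K + 1) * K ^ 2) + 1))
        ≤ K ^ 2 * L / (20 * P) * (K * L * (5 * K ^ 3)) := by
          refine mul_le_mul_of_nonneg_left (mul_le_mul_of_nonneg_left c2 hKL.le) (by positivity)
      _ = K ^ 6 * L ^ 2 / (4 * P) := by field_simp; ring
      _ ≤ K ^ 6 * (K * n) / (4 * P) := by gcongr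
      _ = K ^ 7 * n / (4 * P) := by ring
      _ ≤ P * n / (4 * P) := by gcongr
      _ = n / 4 := by field_simp
  rw [c1] at hfin
  linarith

end Claimed.Agent.R252

end PkRe6StrB

section PkRe6Strips

/-!
# Row 252, unit Re6.  CONTRACT `Strips`: L re:parallel-strips, polynomial form (shorter proof than 06a l.395-503: no flat laws, no parallelogram count, the slope bound comes for free).
Architect helper183.  GLUE (leaf L-252-RE6-STRIPS).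

`Sc` = the multipliers `s = - c κ₀`, `c` in the `1/L`-separated set of ring elements given by RING.
PROOF.  `re6_str_anchor` gives `g' = (a', b')` and `Γ₁`.   For `g ∈ Γ₁`: `v = - s u + ε`, `|ε|_∞ < 1`:  `|v₁| ≥ |u₁|/K - 1`,  `v₂ u₁ - u₂ v₁ = ε₂ u₁ - ε₁ u₂`, `|u₂| ≤ 2 K L ≤ 2 K K' |u₁|`.   Then `re6_str_bins` with a larger `K`;
`cA = a'₂ - λ a'₁`, `cB = b'₂ - λ b'₁`.
-/

set_option autoImplicit false

namespace Claimed.Agent.R252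

open Finset

theorem re6_strips_aux {c k C : ℕ} {P : ℝ} (hP : 1 ≤ P) (hc : c ≤ C) (hk : k ≤ C) : (c : ℝ) * P ^ k ≤ (C : ℝ) * P ^ C := by
  have h1 : (c : ℝ) ≤ C := by exact_mod_cast hc
  have h2 : P ^ k ≤ P ^ C := pow_le_pow_right₀ hP hk
  have h3 : 0 ≤ P ^ k := by positivity
  exact mul_le_mul h1 h2 h3 (by positivity)

/-- the algebra of one edge of `Γ₁` -/
theorem re6_strips_edge {L K E K' u1 u2 v1 v2 s : ℝ} (hK : 1 ≤ K) (hE : 1 ≤ E) (hL : 2 * E * K ≤ L) (hK' : 1 + 2 * K * E ≤ K')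
    (hu : L ≤ E * |u1|) (hs : 1 / K ≤ |s|) (e1 : |v1 + s * u1| < 1) (e2 : |v2 + s * u2| < 1)
    (bu1 : |u1| ≤ 2 * K * L) (bu2 : |u2| ≤ 2 * K * L) (bv1 : |v1| ≤ 2 * K * L) :
    L ≤ K' * |u1| ∧ L ≤ K' * |v1| ∧ |u1| ≤ K' * L ∧ |v1| ≤ K' * L ∧ |u2| ≤ K' * L ∧ |v2 * u1 - u2 * v1| ≤ K' * |u1| := by
  have hK0 : 0 < K := by linarith
  have hE0 : 0 < E := by linarith
  have hKE : 1 ≤ K * E := by nlinarith
  have hL0 : 0 < L := by nlinarith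
  have hu0 := abs_nonneg u1
  have hv0 := abs_nonneg v1
  have h2K : 2 * K ≤ K' := by nlinarith
  have hEK' : E ≤ K' := by nlinarith
  have hsu : |u1| ≤ K * (|v1| + 1) := by
    have h1 : |s * u1| ≤ |v1| + 1 := by
      have : s * u1 = (v1 + s * u1) - v1 := by ring
      rw [this]
      calc |(v1 + s * u1) - v1| ≤ |v1 + s * u1| + |v1| := abs_sub _ _
        _ ≤ |v1| + 1 := by linarith
    rw [abs_mul] at h1
    have h2 : |u1| ≤ K * (|s| * |u1|) := by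
      have h3 : 1 ≤ K * |s| := by
        have := mul_le_mul_of_nonneg_left hs hK0.le
        rwa [mul_one_div, div_self hK0.ne'] at this
      nlinarith
    exact h2.trans (mul_le_mul_of_nonneg_left h1 hK0.le)
  refine ⟨?_, ?_, ?_, ?_, ?_, ?_⟩
  · exact hu.trans (mul_le_mul_of_nonneg_right hEK' hu0)
  · have h1 : L ≤ E * (K * (|v1| + 1)) := hu.trans (mul_le_mul_of_nonneg_left hsu hE0.le)
    have h2 : L ≤ 2 * E * K * |v1| := by nlinarith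
    have h3 : 2 * E * K ≤ K' := by nlinarith
    exact h2.trans (mul_le_mul_of_nonneg_right h3 hv0)
  · exact bu1.trans (mul_le_mul_of_nonneg_right h2K hL0.le)
  · exact bv1.trans (mul_le_mul_of_nonneg_right h2K hL0.le)
  · exact bu2.trans (mul_le_mul_of_nonneg_right h2K hL0.le)
  · have h1 : v2 * u1 - u2 * v1 = (v2 + s * u2) * u1 - u2 * (v1 + s * u1) := by ring
    rw [h1]
    have h2 : |(v2 + s * u2) * u1 - u2 * (v1 + s * u1)| ≤ |u1| + |u2| := by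
      calc |(v2 + s * u2) * u1 - u2 * (v1 + s * u1)| ≤ |(v2 + s * u2) * u1| + |u2 * (v1 + s * u1)| := abs_sub _ _
        _ = |v2 + s * u2| * |u1| + |u2| * |v1 + s * u1| := by rw [abs_mul, abs_mul]
        _ ≤ 1 * |u1| + |u2| * 1 :=
            add_le_add (mul_le_mul_of_nonneg_right e2.le hu0) (mul_le_mul_of_nonneg_left e1.le (abs_nonneg _))
        _ = |u1| + |u2| := by ring
    have h3 : |u2| ≤ 2 * K * (E * |u1|) := bu2.trans (mul_le_mul_of_nonneg_left hu (by linarith))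
    calc _ ≤ |u1| + |u2| := h2
      _ ≤ (1 + 2 * K * E) * |u1| := by nlinarith
      _ ≤ K' * |u1| := mul_le_mul_of_nonneg_right hK' hu0

theorem re6_strips : ∃ C : ℕ, ∀ (L K Q : ℝ) (A B : Finset (ℤ × ℤ)) (Γ : Finset ((ℤ × ℤ) × (ℤ × ℤ))) (Sc : Finset ℝ), 1 ≤ K → 1 ≤ Q →
    C * (K * Q) ^ C ≤ L → (∀ a ∈ A, |(a.1 : ℝ)| ≤ K * L ∧ |(a.2 : ℝ)| ≤ K * L) → (∀ b ∈ B, |(b.1 : ℝ)| ≤ K * L ∧ |(b.2 : ℝ)| ≤ K * L) →
    (#A : ℝ) ≤ K * L → (#B : ℝ) ≤ K * L → Γ ⊆ A ×ˢ B →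
    L ^ 2 / K ≤ (#Γ : ℝ) → (∀ m n : ℤ, (#{p ∈ Γ | p.1.1 = m ∧ p.2.1 = n} : ℝ) ≤ K) →
    (∀ s ∈ Sc, 1 / K ≤ |s| ∧ |s| ≤ K) → (∀ s ∈ Sc, ∀ s' ∈ Sc, s ≠ s' → 1 / (K * L) ≤ |s - s'|) → L / Q ≤ (#Sc : ℝ) →
    (∀ s ∈ Sc, (#(Γ.image (re6Cl s)) : ℝ) ≤ K * L) →
    ∃ Γ' ⊆ Γ, ∃ lam cA cB : ℝ, L ^ 2 ≤ C * (K * Q) ^ C * #Γ' ∧ |lam| ≤ C * (K * Q) ^ C ∧
      ∀ p ∈ Γ', |(p.1.2 : ℝ) - lam * p.1.1 - cA| ≤ C * (K * Q) ^ C ∧ |(p.2.2 : ℝ) - lam * p.2.1 - cB| ≤ C * (K * Q) ^ C := by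
  obtain ⟨C₁, h1⟩ := re6_str_anchor
  obtain ⟨C₂, h2⟩ := re6_str_bins
  obtain ⟨X, hX⟩ : ∃ X : ℕ, X = C₂ * (3 * (C₁ + 1)) ^ C₂ := ⟨_, rfl⟩
  obtain ⟨Y, hY⟩ : ∃ Y : ℕ, Y = (C₁ + 1) * C₂ := ⟨_, rfl⟩
  refine ⟨X + Y + 2 * C₁ + 2, ?_⟩
  intro L K Q A B Γ Sc hK hQ hL hA hB hAc hBc hΓ hΓlo hcap hs hsep hSc himg
  obtain ⟨C, hC⟩ : ∃ C : ℕ, C = X + Y + 2 * C₁ + 2 := ⟨_, rfl⟩
  rw [← hC] at hL ⊢
  obtain ⟨P, hP⟩ : ∃ P : ℝ, P = K * Q := ⟨_, rfl⟩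
  rw [← hP] at hL ⊢
  have hK0 : 0 < K := by linarith
  have hP1 : 1 ≤ P := by rw [hP]; exact one_le_mul_of_one_le_of_one_le hK hQ
  have hP0 : 0 < P := by linarith
  have hKP : K ≤ P := by rw [hP]; exact le_mul_of_one_le_right hK0.le hQ
  -- constants
  obtain ⟨E, hE⟩ : ∃ E : ℝ, E = ((C₁ + 1 : ℕ) : ℝ) * P ^ C₁ := ⟨_, rfl⟩
  obtain ⟨K', hK'⟩ : ∃ K' : ℝ, K' = ((3 * (C₁ + 1) : ℕ) : ℝ) * P ^ (C₁ + 1) := ⟨_, rfl⟩
  have hPC : 1 ≤ P ^ C₁ := one_le_pow₀ hP1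
  have hc1 : (1 : ℝ) ≤ ((C₁ + 1 : ℕ) : ℝ) := by exact_mod_cast Nat.succ_le_succ (Nat.zero_le _)
  have hE1 : 1 ≤ E := by rw [hE]; exact one_le_mul_of_one_le_of_one_le hc1 hPC
  have hE0 : 0 < E := by linarith
  have hCE : (C₁ : ℝ) * P ^ C₁ ≤ E := by
    rw [hE]
    exact mul_le_mul_of_nonneg_right (by push_cast; linarith) (by positivity)
  have hD : (C₁ : ℝ) * K ^ C₁ ≤ E :=
    (mul_le_mul_of_nonneg_left (pow_le_pow_left₀ hK0.le hKP _) (Nat.cast_nonneg _)).trans hCE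
  have hKE : K * E ≤ ((C₁ + 1 : ℕ) : ℝ) * P ^ (C₁ + 1) := by
    have h3 : K * E ≤ P * E := mul_le_mul_of_nonneg_right hKP hE0.le
    have h4 : P * E = ((C₁ + 1 : ℕ) : ℝ) * P ^ (C₁ + 1) := by rw [hE, pow_succ]; ring
    linarith
  have hKE0 : 0 < K * E := mul_pos hK0 hE0
  have hPC' : 1 ≤ P ^ (C₁ + 1) := one_le_pow₀ hP1
  have hW1 : 1 ≤ ((C₁ + 1 : ℕ) : ℝ) * P ^ (C₁ + 1) := one_le_mul_of_one_le_of_one_le hc1 hPC'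
  have hK'1 : 1 + 2 * K * E ≤ K' := by
    have h3 : K' = 3 * (((C₁ + 1 : ℕ) : ℝ) * P ^ (C₁ + 1)) := by rw [hK']; push_cast; ring
    rw [h3]
    linarith
  have hL2 : 2 * E * K ≤ L := by
    have h3 : ((2 * (C₁ + 1) : ℕ) : ℝ) * P ^ (C₁ + 1) ≤ (C : ℝ) * P ^ C := re6_strips_aux hP1 (by omega) (by omega)
    have h4 : ((2 * (C₁ + 1) : ℕ) : ℝ) * P ^ (C₁ + 1) = 2 * (((C₁ + 1 : ℕ) : ℝ) * P ^ (C₁ + 1)) := by push_cast; ring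
    linarith
  have hKE1 : 1 ≤ K * E := one_le_mul_of_one_le_of_one_le hK hE1
  have hL1 : 1 ≤ L := by linarith
  have hL0 : 0 < L := by linarith
  have hKKE : K ≤ K * E := le_mul_of_one_le_right hK0.le hE1
  have hEKE : E ≤ K * E := le_mul_of_one_le_left hE0.le hK
  have hKK' : K ≤ K' := by linarith
  have hK'one : 1 ≤ K' := by linarith
  obtain ⟨g', hg', hcount⟩ := h1 L K Q Γ Sc hK hQ (hD.trans (by linarith)) hΓlo hcap hs hsep hSc himg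
  rw [← hP] at hcount
  obtain ⟨Γ₁, hΓ₁⟩ : ∃ Γ₁ : Finset ((ℤ × ℤ) × (ℤ × ℤ)), Γ₁ = {g ∈ Γ | L ≤ C₁ * K ^ C₁ * |(g.2.1 : ℝ) - g'.2.1| ∧
        ∃ s ∈ Sc, |((g.1.1 : ℝ) - g'.1.1) + s * ((g.2.1 : ℝ) - g'.2.1)| < 1 ∧ |((g.1.2 : ℝ) - g'.1.2) + s * ((g.2.2 : ℝ) - g'.2.2)| < 1} :=
    ⟨_, rfl⟩
  rw [← hΓ₁] at hcount
  have hsub : Γ₁ ⊆ Γ := by rw [hΓ₁]; exact filter_subset _ _
  have hg'A := (mem_product.1 (hΓ hg')).1
  have hg'B := (mem_product.1 (hΓ hg')).2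
  have hbd : ∀ x y : ℝ, |x| ≤ K * L → |y| ≤ K * L → |x - y| ≤ 2 * K * L := fun x y hx hy => by
    have := abs_sub x y
    linarith
  have hcard : L ^ 2 ≤ K' * #Γ₁ := by
    have h3 : L ^ 2 ≤ K * #Γ := by rwa [div_le_iff₀ hK0, mul_comm] at hΓlo
    have h4 : K * (#Γ : ℝ) ≤ K * ((C₁ : ℝ) * P ^ C₁ * #Γ₁) := mul_le_mul_of_nonneg_left hcount hK0.le
    have h5 : K * ((C₁ : ℝ) * P ^ C₁) ≤ K' := by
      have := mul_le_mul_of_nonneg_left hCE hK0.le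
      linarith
    have h6 : (0 : ℝ) ≤ #Γ₁ := Nat.cast_nonneg _
    have h7 : K * ((C₁ : ℝ) * P ^ C₁) * #Γ₁ ≤ K' * #Γ₁ := mul_le_mul_of_nonneg_right h5 h6
    calc L ^ 2 ≤ K * #Γ := h3
      _ ≤ K * ((C₁ : ℝ) * P ^ C₁ * #Γ₁) := h4
      _ = K * ((C₁ : ℝ) * P ^ C₁) * #Γ₁ := by ring
      _ ≤ K' * #Γ₁ := h7
  obtain ⟨lam, hlam, hcnt⟩ := h2 L K' A B Γ₁ g'.1 g'.2 hL1 hK'one
    (hAc.trans (mul_le_mul_of_nonneg_right hKK' hL0.le)) (hBc.trans (mul_le_mul_of_nonneg_right hKK' hL0.le))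
    (hsub.trans hΓ) hcard (by
      intro p hp
      rw [hΓ₁] at hp
      obtain ⟨hpΓ, hpu, s, hsS, e1, e2⟩ := mem_filter.1 hp
      have hpA := (mem_product.1 (hΓ hpΓ)).1
      have hpB := (mem_product.1 (hΓ hpΓ)).2
      exact re6_strips_edge hK hE1 hL2 hK'1 (hpu.trans (mul_le_mul_of_nonneg_right hD (abs_nonneg _))) (hs s hsS).1 e1 e2
        (hbd _ _ (hB _ hpB).1 (hB _ hg'B).1) (hbd _ _ (hB _ hpB).2 (hB _ hg'B).2) (hbd _ _ (hA _ hpA).1 (hA _ hg'A).1))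
  have hfin : (C₂ : ℝ) * K' ^ C₂ ≤ (C : ℝ) * P ^ C := by
    have h3 : (C₂ : ℝ) * K' ^ C₂ = ((X : ℕ) : ℝ) * P ^ Y := by
      rw [hK', hX, hY, mul_pow, ← pow_mul]
      push_cast
      ring
    rw [h3]
    exact re6_strips_aux hP1 (by omega) (by omega)
  refine ⟨{p ∈ Γ₁ | |((p.1.2 : ℝ) - g'.1.2) - lam * ((p.1.1 : ℝ) - g'.1.1)| ≤ C₂ * K' ^ C₂ ∧
        |((p.2.2 : ℝ) - g'.2.2) - lam * ((p.2.1 : ℝ) - g'.2.1)| ≤ C₂ * K' ^ C₂}, (filter_subset _ _).trans hsub,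
    lam, (g'.1.2 : ℝ) - lam * g'.1.1, (g'.2.2 : ℝ) - lam * g'.2.1, ?_, hlam.trans hfin, ?_⟩
  · exact hcnt.trans (mul_le_mul_of_nonneg_right hfin (Nat.cast_nonneg _))
  · intro p hp
    obtain ⟨-, q1, q2⟩ := mem_filter.1 hp
    constructor
    · have : (p.1.2 : ℝ) - lam * p.1.1 - ((g'.1.2 : ℝ) - lam * g'.1.1) = ((p.1.2 : ℝ) - g'.1.2) - lam * ((p.1.1 : ℝ) - g'.1.1) := by ring
      rw [this]; exact q1.trans hfin
    · have : (p.2.2 : ℝ) - lam * p.2.1 - ((g'.2.2 : ℝ) - lam * g'.2.1) = ((p.2.2 : ℝ) - g'.2.2) - lam * ((p.2.1 : ℝ) - g'.2.1) := by ring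
      rw [this]; exact q2.trans hfin

end Claimed.Agent.R252

end PkRe6Strips
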