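-- KEEP
import Claimed.Agent.R252.Re6.PkA
import Claimed.Agent.R252.Re6.PkB
import Claimed.Agent.R252.Re6.FitDefs

/-! PACKED FILE (helper183, closed unit Re6 = Sec 6a of row 252, FROZEN): parts Re6.Rigid, Re6.CoreA, Re6.CoreB, Re6.CoreC, Re6.Core.  Each part is wrapped in its own `section`. -/

section PkRe6Rigid

/-!
# Row 252, unit Re6.  CONTRACT `Rigid`: P re:retained-edge-rigidity.   Architect helper183.  GLUE (leaves L-252-RE6-RATIO, L-252-RE6-RIGID).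

ORDER OF CONSTANTS.  `C₁` from `re6_strips`;  `e = τ' / (4 C₁ + 4)`;  `H, τ_R, h₀` from `re6_ring S e`;  `C₂` from `re6_common H`;  then `τ` small and `L₀` large.
PROOF.  `re6_common H`: `i₀, Rt, A', B'`.   Source law of RING: `ι' = {i // i ∈ Rt}`, `ν' = ν / ν(Rt)`, `T = κ / κ i₀` (`re6_frost_ratio`), `h = 1/L`.   RING: `Cc`, `#Cc ≥ L^(1-e)`, `c ∈ [1/2, H 2^H]` (`re6_gen_le`).
`Sc = {- c κ i₀ : c ∈ Cc}`, `Γ = G i₀ ∩ A' ×ˢ B'`;  `re6Cl (-c κ₀) p` is a cell of `re6R A' + c • ((-κ₀) • re6R B')`.   `re6_strips` with `K₁ = C₂ K^C₂ + H 2^H + 2`, `Q = L^e`.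
-/

set_option autoImplicit false

namespace Claimed.Agent.R252

open Finset
open scoped Pointwise

/-- the ratio law restricted to a set of mass `≥ 1/K'` is again Frostman -/
theorem re6_frost_ratio {ι : Type} [Fintype ι] (L K K' S κ₀ : ℝ) (ν κ : ι → ℝ) (Rt : Finset ι) (hL : 1 ≤ L) (hK : 1 ≤ K) (hS : 0 < S)
    (hν0 : ∀ i, 0 ≤ ν i) (hν1 : ∑ i, ν i = 1) (hκ₀lo : 1 / K ≤ |κ₀|) (hκ₀hi : |κ₀| ≤ K) (hFr : RW.KfFrost ν κ K S (1 / L))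
    (hRt : 1 ≤ K' * ∑ i ∈ Rt, ν i) :
    RW.KfFrost (fun i : {i // i ∈ Rt} => ν i / ∑ j ∈ Rt, ν j) (fun i : {i // i ∈ Rt} => κ i / κ₀) (K' * K ^ (S + 1)) S (1 / L) := by
  classical
  intro z r hr hr1
  have hK0 : 0 < K := lt_of_lt_of_le one_pos hK
  have hL0 : 0 < L := lt_of_lt_of_le one_pos hL
  have hr0 : 0 < r := lt_of_lt_of_le (by positivity) hr
  have hκ0 : 0 < |κ₀| := lt_of_lt_of_le (by positivity) hκ₀lo
  have hκne : κ₀ ≠ 0 := abs_pos.1 hκ0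
  set m := ∑ j ∈ Rt, ν j with hm
  have hm0 : 0 ≤ m := Finset.sum_nonneg fun i _ => hν0 i
  have hmpos : 0 < m := by
    rcases hm0.lt_or_eq with h | h
    · exact h
    · rw [← h, mul_zero] at hRt
      linarith
  have hK'0 : 0 < K' := by
    by_contra hc
    push Not at hc
    have : K' * m ≤ 0 := mul_nonpos_of_nonpos_of_nonneg hc hm0
    linarith
  -- the sum over the subtype
  have e1 : ∑ i ∈ (Finset.univ : Finset {i // i ∈ Rt}).filter (fun i : {i // i ∈ Rt} => dist (κ i.1 / κ₀) z ≤ r), ν i.1 / m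
      = ∑ i ∈ Rt with dist (κ i / κ₀) z ≤ r, ν i / m := by
    rw [Finset.sum_filter, Finset.sum_filter]
    exact Finset.sum_coe_sort Rt fun i => if dist (κ i / κ₀) z ≤ r then ν i / m else 0
  show ∑ i ∈ (Finset.univ : Finset {i // i ∈ Rt}).filter (fun i : {i // i ∈ Rt} => dist (κ i.1 / κ₀) z ≤ r), ν i.1 / m ≤ _
  rw [e1, ← Finset.sum_div]
  have e2 : ∑ i ∈ Rt with dist (κ i / κ₀) z ≤ r, ν i ≤ ∑ i with dist (κ i) (z * κ₀) ≤ r * K, ν i := by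
    refine Finset.sum_le_sum_of_subset_of_nonneg ?_ fun i _ _ => hν0 i
    intro i hi
    rw [Finset.mem_filter] at hi ⊢
    refine ⟨Finset.mem_univ _, ?_⟩
    have h1 := hi.2
    rw [Real.dist_eq] at h1 ⊢
    have h2 : κ i - z * κ₀ = (κ i / κ₀ - z) * κ₀ := by
      field_simp
    rw [h2, abs_mul]
    exact mul_le_mul h1 hκ₀hi (abs_nonneg _) hr0.le
  have e3 : ∑ i with dist (κ i) (z * κ₀) ≤ r * K, ν i ≤ K * (r * K) ^ S :=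
    RW.kf_frost_ext hν0 hν1.le hK hS.le hFr (z * κ₀) (r * K) (hr.trans (le_mul_of_one_le_right hr0.le hK))
  have e4 : K * (r * K) ^ S = K ^ (S + 1) * r ^ S := by
    rw [Real.mul_rpow hr0.le hK0.le, Real.rpow_add hK0, Real.rpow_one]
    ring
  rw [div_le_iff₀ hmpos]
  have h5 : 0 ≤ K ^ (S + 1) * r ^ S := by positivity
  calc ∑ i ∈ Rt with dist (κ i / κ₀) z ≤ r, ν i ≤ K ^ (S + 1) * r ^ S := by
        rw [← e4]; exact e2.trans e3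
    _ = 1 * (K ^ (S + 1) * r ^ S) := (one_mul _).symm
    _ ≤ (K' * m) * (K ^ (S + 1) * r ^ S) := mul_le_mul_of_nonneg_right hRt h5
    _ = K' * K ^ (S + 1) * r ^ S * m := by ring

/-- `D ≤ L ^ a` as soon as `D ^ (1/a) ≤ L` -/
theorem re6_rgd_le_rpow {D a L : ℝ} (hD : 0 ≤ D) (ha : 0 < a) (hL : D ^ (1 / a) ≤ L) : D ≤ L ^ a := by
  have h1 : (D ^ (1 / a)) ^ a = D := by
    rw [← Real.rpow_mul hD, one_div, inv_mul_cancel₀ ha.ne', Real.rpow_one]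
  calc D = (D ^ (1 / a)) ^ a := h1.symm
    _ ≤ L ^ a := Real.rpow_le_rpow (Real.rpow_nonneg hD _) hL ha.le

/-- the cells of `a + s b`, `s = - c κ₀`, are cells of `A' + c • ((-κ₀) • B')` -/
theorem re6_rgd_cell (A' B' : Finset (ℤ × ℤ)) (Γ : Finset ((ℤ × ℤ) × (ℤ × ℤ))) (hΓ : Γ ⊆ A' ×ˢ B') (c κ₀ : ℝ) :
    #(Γ.image (re6Cl (-(c * κ₀)))) ≤ re6N (re6R A' + c • ((-κ₀) • re6R B')) := by
  classical
  rw [re6N]
  refine Finset.card_le_card ?_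
  intro q hq
  obtain ⟨p, hp, rfl⟩ := Finset.mem_image.1 hq
  have hp' := Finset.mem_product.1 (hΓ hp)
  refine Finset.mem_image.2 ⟨re6Emb p.1 + (-(c * κ₀)) • re6Emb p.2, ?_, by rw [re6Cl]⟩
  refine Finset.add_mem_add (Finset.mem_image_of_mem _ hp'.1) ?_
  have h1 : (-(c * κ₀)) • re6Emb p.2 = c • ((-κ₀) • re6Emb p.2) := by
    rw [smul_smul]
    congr 1
    ring
  rw [h1]
  exact Finset.smul_mem_smul_finset (Finset.smul_mem_smul_finset (Finset.mem_image_of_mem _ hp'.2))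

/-- the bookkeeping of the exponents -/
theorem re6_rgd_num (S t e τR : ℝ) (C₁ C₂ H : ℕ) (hS : 0 < S) (ht0 : 0 < t) (he : e = t / (4 * C₁ + 4)) (hτR : 0 < τR)
    (L K : ℝ) (hL : 1 ≤ L) (hK : 1 ≤ K)
    (hK1 : K ≤ L ^ (τR / (2 * (C₂ + S + 1)))) (hK2 : K ≤ L ^ (e / (2 * (C₂ + 1))))
    (h1 : (C₂ : ℝ) ≤ L ^ (τR / 2)) (h2 : (C₂ : ℝ) + H * 2 ^ H + 2 ≤ L ^ (e / 2)) (h3 : (C₁ : ℝ) ≤ L ^ (t / 2)) :
    C₂ * K ^ C₂ * K ^ (S + 1) ≤ L ^ τR ∧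
    C₁ * ((C₂ * K ^ C₂ + (H * 2 ^ H + 2) * K) * L ^ e) ^ C₁ ≤ L ^ t := by
  have hL0 : 0 < L := lt_of_lt_of_le one_pos hL
  have hK0 : 0 < K := lt_of_lt_of_le one_pos hK
  have he0 : 0 < e := by rw [he]; positivity
  constructor
  · have a1 : K ^ C₂ * K ^ (S + 1) = K ^ ((C₂ : ℝ) + S + 1) := by
      rw [← Real.rpow_natCast, ← Real.rpow_add hK0, add_assoc]
    have hpos : (0 : ℝ) < (C₂ : ℝ) + S + 1 := by positivity
    have a2 : K ^ ((C₂ : ℝ) + S + 1) ≤ L ^ (τR / 2) := by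
      calc K ^ ((C₂ : ℝ) + S + 1) ≤ (L ^ (τR / (2 * (C₂ + S + 1)))) ^ ((C₂ : ℝ) + S + 1) :=
            Real.rpow_le_rpow hK0.le hK1 hpos.le
        _ = L ^ (τR / 2) := by
            rw [← Real.rpow_mul hL0.le]
            congr 1
            field_simp
    calc (C₂ : ℝ) * K ^ C₂ * K ^ (S + 1) = C₂ * (K ^ C₂ * K ^ (S + 1)) := by ring
      _ ≤ L ^ (τR / 2) * L ^ (τR / 2) := by
          rw [a1]
          exact mul_le_mul h1 a2 (by positivity) (by positivity)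
      _ = L ^ τR := by
          rw [← Real.rpow_add hL0]
          congr 1
          ring
  · have b1 : K ^ (C₂ + 1) ≤ L ^ (e / 2) := by
      have hpos : (0 : ℝ) < (C₂ : ℝ) + 1 := by positivity
      calc K ^ (C₂ + 1) = K ^ ((C₂ : ℝ) + 1) := by
            rw [← Real.rpow_natCast]
            push_cast
            rfl
        _ ≤ (L ^ (e / (2 * (C₂ + 1)))) ^ ((C₂ : ℝ) + 1) := Real.rpow_le_rpow hK0.le hK2 hpos.le
        _ = L ^ (e / 2) := by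
            rw [← Real.rpow_mul hL0.le]
            congr 1
            field_simp
    have b2 : K ^ C₂ ≤ K ^ (C₂ + 1) := pow_le_pow_right₀ hK (Nat.le_succ _)
    have b3 : K ≤ K ^ (C₂ + 1) := by
      calc K = K ^ 1 := (pow_one K).symm
        _ ≤ K ^ (C₂ + 1) := pow_le_pow_right₀ hK (by omega)
    have hH : (0 : ℝ) ≤ (H : ℝ) * 2 ^ H + 2 := by positivity
    have b4 : (C₂ : ℝ) * K ^ C₂ + (H * 2 ^ H + 2) * K ≤ L ^ e := by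
      calc (C₂ : ℝ) * K ^ C₂ + (H * 2 ^ H + 2) * K
          ≤ (C₂ : ℝ) * K ^ (C₂ + 1) + (H * 2 ^ H + 2) * K ^ (C₂ + 1) :=
            add_le_add (mul_le_mul_of_nonneg_left b2 (Nat.cast_nonneg _)) (mul_le_mul_of_nonneg_left b3 hH)
        _ = ((C₂ : ℝ) + H * 2 ^ H + 2) * K ^ (C₂ + 1) := by ring
        _ ≤ L ^ (e / 2) * L ^ (e / 2) := mul_le_mul h2 b1 (by positivity) (by positivity)
        _ = L ^ e := by
            rw [← Real.rpow_add hL0]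
            congr 1
            ring
    have b5 : ((C₂ : ℝ) * K ^ C₂ + (H * 2 ^ H + 2) * K) * L ^ e ≤ L ^ (2 * e) := by
      calc ((C₂ : ℝ) * K ^ C₂ + (H * 2 ^ H + 2) * K) * L ^ e ≤ L ^ e * L ^ e :=
            mul_le_mul_of_nonneg_right b4 (by positivity)
        _ = L ^ (2 * e) := by
            rw [← Real.rpow_add hL0]
            congr 1
            ring
    have b6 : (((C₂ : ℝ) * K ^ C₂ + (H * 2 ^ H + 2) * K) * L ^ e) ^ C₁ ≤ L ^ (t / 2) := by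
      calc (((C₂ : ℝ) * K ^ C₂ + (H * 2 ^ H + 2) * K) * L ^ e) ^ C₁ ≤ (L ^ (2 * e)) ^ C₁ :=
            pow_le_pow_left₀ (by positivity) b5 _
        _ = L ^ (2 * e * C₁) := by
            rw [← Real.rpow_natCast, ← Real.rpow_mul hL0.le]
        _ ≤ L ^ (t / 2) := by
            refine Real.rpow_le_rpow_of_exponent_le hL ?_
            rw [he]
            have hc : (0 : ℝ) ≤ C₁ := Nat.cast_nonneg _
            rw [show 2 * (t / (4 * (C₁ : ℝ) + 4)) * C₁ = t * (2 * C₁) / (4 * C₁ + 4) by ring,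
              div_le_div_iff₀ (by positivity) (by norm_num)]
            nlinarith
    calc (C₁ : ℝ) * (((C₂ : ℝ) * K ^ C₂ + (H * 2 ^ H + 2) * K) * L ^ e) ^ C₁ ≤ L ^ (t / 2) * L ^ (t / 2) :=
          mul_le_mul h3 b6 (by positivity) (by positivity)
      _ = L ^ t := by
          rw [← Real.rpow_add hL0]
          congr 1
          ring

/-- **P re:retained-edge-rigidity** -/
theorem re6_rigid (S τ' : ℝ) (hS : 0 < S) (hτ' : 0 < τ') :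
    ∃ τ L₀ : ℝ, 0 < τ ∧ 1 ≤ L₀ ∧ ∀ L K : ℝ, L₀ ≤ L → 1 ≤ K → K ≤ L ^ τ →
      ∀ (ι : Type) [Fintype ι] (A B : Finset (ℤ × ℤ)) (ν κ : ι → ℝ) (G : ι → Finset ((ℤ × ℤ) × (ℤ × ℤ))),
        Re6Planar L K S A B ν κ G →
        ∃ i₀ : ι, ∃ Γ' ⊆ G i₀, ∃ lam cA cB : ℝ, L ^ (2 - τ') ≤ (#Γ' : ℝ) ∧ |lam| ≤ L ^ τ' ∧
          ∀ p ∈ Γ', |(p.1.2 : ℝ) - lam * p.1.1 - cA| ≤ L ^ τ' ∧ |(p.2.2 : ℝ) - lam * p.2.1 - cB| ≤ L ^ τ' := by
  classical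
  obtain ⟨C₁, hstr⟩ := re6_strips
  obtain ⟨t, ht⟩ : ∃ t : ℝ, t = min τ' 1 := ⟨_, rfl⟩
  have ht0 : 0 < t := ht ▸ lt_min hτ' one_pos
  have ht1 : t ≤ 1 := ht ▸ min_le_right _ _
  have htτ : t ≤ τ' := ht ▸ min_le_left _ _
  obtain ⟨e, he⟩ : ∃ e : ℝ, e = t / (4 * C₁ + 4) := ⟨_, rfl⟩
  have he0 : 0 < e := by rw [he]; positivity
  obtain ⟨H, τR, h₀, hτR, hh₀, hring⟩ := re6_ring S e hS he0
  obtain ⟨C₂, hcom⟩ := re6_common H
  refine ⟨min (τR / (2 * (C₂ + S + 1))) (e / (2 * (C₂ + 1))),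
    max (max 1 (1 / h₀ + 1)) (max ((C₂ : ℝ) ^ (1 / (τR / 2)))
      (max (((C₂ : ℝ) + H * 2 ^ H + 2) ^ (1 / (e / 2))) ((C₁ : ℝ) ^ (1 / (t / 2))))), ?_, ?_, ?_⟩
  · exact lt_min (by positivity) (by positivity)
  · exact le_trans (le_max_left _ _) (le_max_left _ _)
  intro L K hLL hK hKL ι _ A B ν κ G hP
  have hL : 1 ≤ L := le_trans (le_trans (le_max_left _ _) (le_max_left _ _)) hLL
  have hL0 : 0 < L := lt_of_lt_of_le one_pos hL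
  have hK0 : 0 < K := lt_of_lt_of_le one_pos hK
  have hLh : 1 / h₀ + 1 ≤ L := le_trans (le_trans (le_max_right _ _) (le_max_left _ _)) hLL
  have hh : 1 / L < h₀ := by
    rw [div_lt_iff₀ hL0]
    have h1 : 1 / h₀ < L := by linarith
    rw [div_lt_iff₀ hh₀] at h1
    linarith
  have q1 : (C₂ : ℝ) ≤ L ^ (τR / 2) :=
    re6_rgd_le_rpow (Nat.cast_nonneg _) (by positivity) (le_trans (le_trans (le_max_left _ _) (le_max_right _ _)) hLL)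
  have q2 : (C₂ : ℝ) + H * 2 ^ H + 2 ≤ L ^ (e / 2) :=
    re6_rgd_le_rpow (by positivity) (by positivity)
      (le_trans (le_trans (le_trans (le_max_left _ _) (le_max_right _ _)) (le_max_right _ _)) hLL)
  have q3 : (C₁ : ℝ) ≤ L ^ (t / 2) :=
    re6_rgd_le_rpow (Nat.cast_nonneg _) (by positivity)
      (le_trans (le_trans (le_trans (le_max_right _ _) (le_max_right _ _)) (le_max_right _ _)) hLL)
  have hK1 : K ≤ L ^ (τR / (2 * (C₂ + S + 1))) :=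
    hKL.trans (Real.rpow_le_rpow_of_exponent_le hL (min_le_left _ _))
  have hK2 : K ≤ L ^ (e / (2 * (C₂ + 1))) :=
    hKL.trans (Real.rpow_le_rpow_of_exponent_le hL (min_le_right _ _))
  obtain ⟨hn3, hn4⟩ := re6_rgd_num S t e τR C₁ C₂ H hS ht0 he hτR L K hL hK hK1 hK2 q1 q2 q3
  obtain ⟨K₁, hK₁⟩ : ∃ K₁ : ℝ, K₁ = C₂ * K ^ C₂ + (H * 2 ^ H + 2) * K := ⟨_, rfl⟩
  rw [← hK₁] at hn4
  -- comparison of `K₁` with the other constants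
  have hHn : (0 : ℝ) ≤ (H : ℝ) * 2 ^ H := by positivity
  have hC2n : (0 : ℝ) ≤ (C₂ : ℝ) * K ^ C₂ := by positivity
  have k1 : (C₂ : ℝ) * K ^ C₂ ≤ K₁ := by
    rw [hK₁]
    have : 0 ≤ ((H : ℝ) * 2 ^ H + 2) * K := by positivity
    linarith
  have k2 : 2 * K ≤ K₁ := by
    rw [hK₁]
    nlinarith
  have k3 : (H : ℝ) * 2 ^ H * K ≤ K₁ := by
    rw [hK₁]
    nlinarith
  have k4 : K ≤ K₁ := by linarith
  have k5 : 1 ≤ K₁ := hK.trans k4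
  have hK₁0 : 0 < K₁ := lt_of_lt_of_le one_pos k5
  -- the common pair
  obtain ⟨i₀, Rt, A', hA', B', hB', hmass, hrat, hΓ, hN⟩ := hcom L K S ι A B ν κ G hL hK hP
  obtain ⟨κ₀, hκ₀⟩ : ∃ κ₀ : ℝ, κ₀ = κ i₀ := ⟨_, rfl⟩
  rw [← hκ₀] at hrat hN
  have hκlo : 1 / K ≤ |κ₀| := hκ₀ ▸ hP.hκlo i₀
  have hκhi : |κ₀| ≤ K := hκ₀ ▸ hP.hκhi i₀
  have hκpos : 0 < |κ₀| := lt_of_lt_of_le (by positivity) hκlo
  have hκne : κ₀ ≠ 0 := abs_pos.1 hκpos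
  have hfr := re6_frost_ratio L K (C₂ * K ^ C₂) S κ₀ ν κ Rt hL hK hS hP.hν0 hP.hν1 hκlo hκhi hP.hFr hmass
  have hm0 : 0 ≤ ∑ j ∈ Rt, ν j := Finset.sum_nonneg fun i _ => hP.hν0 i
  have hm : 0 < ∑ j ∈ Rt, ν j := by
    rcases hm0.lt_or_eq with h | h
    · exact h
    · rw [← h, mul_zero] at hmass
      linarith
  -- the source law of RING
  have hsrc : Re6Src (1 / L) τR S (fun i : {i // i ∈ Rt} => ν i / ∑ j ∈ Rt, ν j)
      (fun i : {i // i ∈ Rt} => κ i / κ₀) := by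
    refine ⟨fun i => div_nonneg (hP.hν0 _) hm.le, ?_, fun i => hrat i.1 i.2, ?_⟩
    · rw [← Finset.sum_div, Finset.sum_coe_sort Rt ν, div_self hm.ne']
    · intro z r hr hr1
      have hr0 : 0 < r := lt_of_lt_of_le (by positivity) hr
      refine (hfr z r hr hr1).trans (mul_le_mul_of_nonneg_right ?_ (Real.rpow_nonneg hr0.le _))
      rw [one_div, Real.inv_rpow hL0.le, Real.rpow_neg hL0.le, inv_inv]
      exact hn3
  obtain ⟨Cc, hCc, hsep, hcard⟩ := hring (1 / L) (by positivity) hh _ _ _ hsrc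
  have hgen : ∀ c ∈ Cc, c ∈ re6Gen H {t | ∃ i ∈ Rt, t = κ i / κ₀} := fun c hc =>
    re6_gen_mono le_rfl (by rintro _ ⟨i, rfl⟩; exact ⟨i.1, i.2, rfl⟩) (hCc c hc).1
  have hcle : ∀ c ∈ Cc, c ≤ H * 2 ^ H := fun c hc =>
    (re6_gen_le H _ (by rintro t ⟨i, hi, rfl⟩; exact hrat i hi) c (hgen c hc)).2
  have hinj : Function.Injective fun c : ℝ => -(c * κ₀) := by
    intro c c' h
    have h1 : c * κ₀ = c' * κ₀ := neg_injective h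
    exact mul_right_cancel₀ hκne h1
  -- STRIPS
  obtain ⟨Γ', hΓ', lam, cA, cB, hcount, hlam, hfit⟩ := hstr L K₁ (L ^ e) A' B' (G i₀ ∩ A' ×ˢ B')
    (Cc.image fun c : ℝ => -(c * κ₀)) k5 (Real.one_le_rpow hL he0.le)
    (hn4.trans (by
      calc L ^ t ≤ L ^ (1 : ℝ) := Real.rpow_le_rpow_of_exponent_le hL ht1
        _ = L := Real.rpow_one L))
    (fun a ha => ⟨((hP.hAbd a (hA' ha)).1).trans (mul_le_mul_of_nonneg_right k4 hL0.le),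
      ((hP.hAbd a (hA' ha)).2).trans (mul_le_mul_of_nonneg_right k4 hL0.le)⟩)
    (fun b hb => ⟨((hP.hBbd b (hB' hb)).1).trans (mul_le_mul_of_nonneg_right k4 hL0.le),
      ((hP.hBbd b (hB' hb)).2).trans (mul_le_mul_of_nonneg_right k4 hL0.le)⟩)
    (((Nat.cast_le.2 (Finset.card_le_card hA')).trans hP.hAhi).trans (mul_le_mul_of_nonneg_right k4 hL0.le))
    (((Nat.cast_le.2 (Finset.card_le_card hB')).trans hP.hBhi).trans (mul_le_mul_of_nonneg_right k4 hL0.le))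
    Finset.inter_subset_right
    (by
      rw [div_le_iff₀ hK₁0, mul_comm]
      exact hΓ.trans (mul_le_mul_of_nonneg_right k1 (Nat.cast_nonneg _)))
    (fun m n => by
      refine le_trans (Nat.cast_le.2 (Finset.card_le_card ?_)) ((hP.hcap i₀ m n).trans k4)
      exact Finset.filter_subset_filter _ Finset.inter_subset_left)
    (by
      intro s hs
      obtain ⟨c, hc, rfl⟩ := Finset.mem_image.1 hs
      have hc1 := (hCc c hc).2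
      have hc2 := hcle c hc
      have hc0 : 0 ≤ c := by linarith
      rw [abs_neg, abs_mul, abs_of_nonneg hc0]
      constructor
      · calc 1 / K₁ ≤ 1 / (2 * K) := one_div_le_one_div_of_le (by positivity) k2
          _ = 1 / 2 * (1 / K) := by field_simp
          _ ≤ c * |κ₀| := mul_le_mul hc1 hκlo (by positivity) hc0
      · calc c * |κ₀| ≤ (H : ℝ) * 2 ^ H * K := mul_le_mul hc2 hκhi (abs_nonneg _) hHn
          _ ≤ K₁ := k3)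
    (by
      intro s hs s' hs' hne
      obtain ⟨c, hc, rfl⟩ := Finset.mem_image.1 hs
      obtain ⟨c', hc', rfl⟩ := Finset.mem_image.1 hs'
      have hcc : c ≠ c' := fun h => hne (by rw [h])
      have h1 := hsep c hc c' hc' hcc
      have h2 : -(c * κ₀) - -(c' * κ₀) = -((c - c') * κ₀) := by ring
      rw [h2, abs_neg, abs_mul]
      calc 1 / (K₁ * L) ≤ 1 / (K * L) := one_div_le_one_div_of_le (by positivity) (mul_le_mul_of_nonneg_right k4 hL0.le)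
        _ = 1 / L * (1 / K) := by field_simp
        _ ≤ |c - c'| * |κ₀| := mul_le_mul h1 hκlo (by positivity) (abs_nonneg _))
    (by
      rw [Finset.card_image_of_injective _ hinj]
      refine le_trans (le_of_eq ?_) hcard
      rw [one_div, Real.inv_rpow hL0.le, ← Real.rpow_neg hL0.le, neg_add, neg_neg, Real.rpow_add hL0, Real.rpow_one,
        Real.rpow_neg hL0.le]
      rfl)
    (by
      intro s hs
      obtain ⟨c, hc, rfl⟩ := Finset.mem_image.1 hs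
      calc (#((G i₀ ∩ A' ×ˢ B').image (re6Cl (-(c * κ₀)))) : ℝ)
          ≤ (re6N (re6R A' + c • ((-κ₀) • re6R B')) : ℝ) :=
            Nat.cast_le.2 (re6_rgd_cell A' B' _ Finset.inter_subset_right c κ₀)
        _ ≤ C₂ * K ^ C₂ * L := hN c (hgen c hc)
        _ ≤ K₁ * L := mul_le_mul_of_nonneg_right k1 hL0.le)
  -- conclusion
  have hfin : (C₁ : ℝ) * (K₁ * L ^ e) ^ C₁ ≤ L ^ τ' :=
    hn4.trans (Real.rpow_le_rpow_of_exponent_le hL htτ)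
  refine ⟨i₀, Γ', hΓ'.trans Finset.inter_subset_left, lam, cA, cB, ?_, hlam.trans hfin, fun p hp =>
    ⟨(hfit p hp).1.trans hfin, (hfit p hp).2.trans hfin⟩⟩
  have hLτ : 0 < L ^ τ' := Real.rpow_pos_of_pos hL0 _
  rw [Real.rpow_sub hL0, div_le_iff₀ hLτ, mul_comm]
  calc L ^ (2 : ℝ) = L ^ 2 := Real.rpow_two L
    _ ≤ C₁ * (K₁ * L ^ e) ^ C₁ * #Γ' := hcount
    _ ≤ L ^ τ' * #Γ' := mul_le_mul_of_nonneg_right hfin (Nat.cast_nonneg _)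

end Claimed.Agent.R252

end PkRe6Rigid

section PkRe6CoreA

/-!
# Row 252, unit Re6.  CONTRACT `CoreA`: regularisation of the incidence graph in L a06:row-fit (06a l.585-640).   Architect helper183.
Leaves L-252-RE6-CORE-PAL (`re6_core_count`, `re6_core_pal`), L-252-RE6-CORE-REG (`re6_core_reg`), L-252-RE6-CORE-TRI (`re6_core_triple`).   Mathlib (+ Defs) only.

COUNT.  positions `q = p.1` have `|q_i| ≤ K L`: `≤ (2 K L + 1)² ≤ 9 K² L²` positions, `≤ K` cells above each.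
PAL.  (a) bins with `pal d < 1/L²` carry mass `≤ #D · 9 K² L² · K (1/L²) / L² ≤ 9 K⁴ / L ≤ 1/(2K)`.   (b) dyadic classes `pal d ∈ (2^-(k+1), 2^-k]`, `0 ≤ k ≤ 2 log₂ L`: at most `3 log L + 2 ≤ 5 K` classes:
one class `D₁` carries mass `≥ 1/(10 K²)`; `ϖ = 2^-(k+1)`.   (c) mass of `D₁` `≤ ∑_{d ∈ D₁} 9 K² L² · K pal d / L² ≤ 18 K³ ϖ #D₁`.   `ϖ #D₁ ≤ ∑ pal ≤ 1`.
REG.  heavy points: marginal `≥ μ₀ / (4 #Pt)` (the others carry `≤ μ₀/4`); edges `(p,d)`, `p` heavy, `m p d > 0`: mass `≥ 3μ₀/4`, so `≥ 3μ₀/(4b)` edges; heavy points of degree `< μ₀/(4 b #Pt)` carry `< μ₀/(4b)` edges;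
the rest `Pt₁` carries `≥ μ₀/(2b)` edges, `≤ #D₁` each.
TRI.  at `p ∈ Pt₁`: `d₁ ∈ Nb p` (`≥ δM`), `d₂ ∈ Nb p` outside `B(vel d₁, r₀)` (`≥ 3δM/4`), `d₃ ∈ Nb p` outside both balls (`≥ δM/2`): `≥ (3/8) δ³ M³` triples.   Pigeonhole `(d₁,d₂) ∈ D₁²`: `I ≥ (3/8) n δ³ M` incidences `(p, d₃)`.
`D₃ = {d₃ : ≥ I/(2M) points}` carries `≥ I/2` incidences, `≤ n` each: `#D₃ ≥ (3/16) δ³ M`.
-/

set_option autoImplicit false

namespace Claimed.Agent.R252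

open Finset

theorem re6_core_count {D : Type} [Fintype D] (L K S : ℝ) (Pt : Finset ((ℤ × ℤ) × (ℤ × ℤ))) (vel pal : D → ℝ)
    (m : (ℤ × ℤ) × (ℤ × ℤ) → D → ℝ) (hL : 1 ≤ L) (hK : 1 ≤ K) (h : Re6Core L K S Pt vel pal m) :
    (#(Pt.image Prod.fst) : ℝ) ≤ 9 * K ^ 2 * L ^ 2 ∧ (#Pt : ℝ) ≤ 9 * K ^ 3 * L ^ 2 := by
  have hKL : 1 ≤ K * L := one_le_mul_of_one_le_of_one_le hK hL
  have h1 : (#(Pt.image Prod.fst) : ℝ) ≤ 9 * K ^ 2 * L ^ 2 := by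
    have hsub : Pt.image Prod.fst ⊆ Finset.Icc (-⌊K * L⌋) ⌊K * L⌋ ×ˢ Finset.Icc (-⌊K * L⌋) ⌊K * L⌋ := by
      intro q hq
      obtain ⟨p, hp, rfl⟩ := mem_image.1 hq
      obtain ⟨b1, b2, -, -⟩ := h.hbd p hp
      have key : ∀ z : ℤ, |(z : ℝ)| ≤ K * L → z ∈ Finset.Icc (-⌊K * L⌋) ⌊K * L⌋ := by
        intro z hz
        rw [abs_le] at hz
        rw [mem_Icc]
        constructor
        · have : -z ≤ ⌊K * L⌋ := Int.le_floor.2 (by push_cast; linarith [hz.1])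
          omega
        · exact Int.le_floor.2 hz.2
      exact mem_product.2 ⟨key _ b1, key _ b2⟩
    have hc := card_le_card hsub
    rw [card_product, Int.card_Icc] at hc
    have hfl0 : 0 ≤ ⌊K * L⌋ := Int.floor_nonneg.2 (by linarith)
    have hN : (((⌊K * L⌋ + 1 - -⌊K * L⌋).toNat : ℕ) : ℝ) ≤ 3 * (K * L) := by
      have e : (((⌊K * L⌋ + 1 - -⌊K * L⌋).toNat : ℕ) : ℤ) = 2 * ⌊K * L⌋ + 1 := by
        rw [Int.toNat_of_nonneg (by omega)]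
        ring
      have e' : (((⌊K * L⌋ + 1 - -⌊K * L⌋).toNat : ℕ) : ℝ) = 2 * (⌊K * L⌋ : ℝ) + 1 := by exact_mod_cast e
      rw [e']
      have := Int.floor_le (K * L)
      linarith
    calc (#(Pt.image Prod.fst) : ℝ) ≤ (((⌊K * L⌋ + 1 - -⌊K * L⌋).toNat * (⌊K * L⌋ + 1 - -⌊K * L⌋).toNat : ℕ) : ℝ) := by
          exact_mod_cast hc
      _ = (((⌊K * L⌋ + 1 - -⌊K * L⌋).toNat : ℕ) : ℝ) * (((⌊K * L⌋ + 1 - -⌊K * L⌋).toNat : ℕ) : ℝ) := by push_cast; ring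
      _ ≤ (3 * (K * L)) * (3 * (K * L)) := by gcongr
      _ = _ := by ring
  refine ⟨h1, ?_⟩
  have h2 : (#Pt : ℝ) = ∑ q ∈ Pt.image Prod.fst, (#{p ∈ Pt | p.1 = q} : ℝ) := by
    exact_mod_cast card_eq_sum_card_image Prod.fst Pt
  calc (#Pt : ℝ) = ∑ q ∈ Pt.image Prod.fst, (#{p ∈ Pt | p.1 = q} : ℝ) := h2
    _ ≤ ∑ _q ∈ Pt.image Prod.fst, K := sum_le_sum fun q _ => h.hfib q
    _ = #(Pt.image Prod.fst) * K := by rw [sum_const, nsmul_eq_mul]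
    _ ≤ (9 * K ^ 2 * L ^ 2) * K := by gcongr
    _ = _ := by ring

/-- mass of a slope bin is at most `9 K³` times its palette weight -/
theorem re6_core_binmass {D : Type} [Fintype D] (L K S : ℝ) (Pt : Finset ((ℤ × ℤ) × (ℤ × ℤ))) (vel pal : D → ℝ)
    (m : (ℤ × ℤ) × (ℤ × ℤ) → D → ℝ) (hL : 1 ≤ L) (hK : 1 ≤ K) (h : Re6Core L K S Pt vel pal m) (d : D) :
    ∑ p ∈ Pt, m p d ≤ 9 * K ^ 3 * pal d := by
  have hL0 : 0 < L := by linarith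
  have hc := (re6_core_count L K S Pt vel pal m hL hK h).1
  have hp := h.hpal0 d
  have e : ∑ p ∈ Pt, m p d = ∑ q ∈ Pt.image Prod.fst, ∑ p ∈ Pt with p.1 = q, m p d :=
    (sum_fiberwise_of_maps_to (fun p hp => mem_image_of_mem Prod.fst hp) _).symm
  calc ∑ p ∈ Pt, m p d = ∑ q ∈ Pt.image Prod.fst, ∑ p ∈ Pt with p.1 = q, m p d := e
    _ ≤ ∑ _q ∈ Pt.image Prod.fst, K * pal d / L ^ 2 := sum_le_sum fun q _ => h.hcap q d
    _ = #(Pt.image Prod.fst) * (K * pal d / L ^ 2) := by rw [sum_const, nsmul_eq_mul]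
    _ ≤ (9 * K ^ 2 * L ^ 2) * (K * pal d / L ^ 2) := by
        have : 0 ≤ K * pal d / L ^ 2 := by positivity
        gcongr
    _ = 9 * K ^ 3 * pal d := by field_simp

/-- the dyadic index of a number in `[1/L², 1]` -/
theorem re6_dyadic_index (L K x : ℝ) (hL : 1 ≤ L) (hK : 1 ≤ K) (hlog : Real.log L ≤ K) (hx : 1 / L ^ 2 ≤ x) (hx1 : x ≤ 1) :
    ∃ k : ℕ, k < ⌊3 * K⌋₊ + 1 ∧ (1 / 2 : ℝ) ^ (k + 1) ≤ x ∧ x ≤ 2 * (1 / 2 : ℝ) ^ (k + 1) := by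
  have hL0 : 0 < L := by linarith
  have hx0 : 0 < x := lt_of_lt_of_le (by positivity) hx
  obtain ⟨k, hk1, hk2⟩ := exists_nat_pow_near_of_lt_one hx0 hx1 (by norm_num : (0 : ℝ) < 1 / 2) (by norm_num : (1 / 2 : ℝ) < 1)
  refine ⟨k, ?_, hk1.le, ?_⟩
  · have h1 : 1 / L ^ 2 ≤ (1 / 2 : ℝ) ^ k := hx.trans hk2
    have h2 : (2 : ℝ) ^ k ≤ L ^ 2 := by
      rw [one_div_pow, one_div, one_div] at h1
      exact (inv_le_inv₀ (by positivity) (by positivity)).1 h1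
    have h3 : (k : ℝ) * Real.log 2 ≤ 2 * Real.log L := by
      have := Real.log_le_log (by positivity) h2
      rw [Real.log_pow, Real.log_pow] at this
      exact_mod_cast this
    have h4 := Real.log_two_gt_d9
    have h5 : (k : ℝ) ≤ 3 * K := by
      have hk0 : (0 : ℝ) ≤ k := Nat.cast_nonneg k
      nlinarith
    exact Nat.lt_succ_of_le (Nat.le_floor h5)
  · rw [pow_succ]
    linarith

theorem re6_core_pal : ∃ C : ℕ, ∀ (L K S : ℝ) (D : Type) [Fintype D] (Pt : Finset ((ℤ × ℤ) × (ℤ × ℤ))) (vel pal : D → ℝ)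
    (m : (ℤ × ℤ) × (ℤ × ℤ) → D → ℝ), 1 ≤ K → Real.log L ≤ K → C * K ^ C ≤ L → Re6Core L K S Pt vel pal m →
    ∃ (D₁ : Finset D) (ϖ : ℝ), 0 < ϖ ∧ (∀ d ∈ D₁, ϖ ≤ pal d ∧ pal d ≤ 2 * ϖ) ∧ ϖ * #D₁ ≤ 1 ∧ 1 ≤ C * K ^ C * (ϖ * #D₁) ∧
      1 ≤ C * K ^ C * ∑ p ∈ Pt, ∑ d ∈ D₁, m p d := by
  classical
  refine ⟨144, ?_⟩
  intro L K S D _ Pt vel pal m hK hlog hCL h
  push_cast at hCL ⊢
  have hK0 : 0 < K := by linarith
  have hK5 : K ^ 5 ≤ K ^ 144 := pow_le_pow_right₀ hK (by norm_num)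
  have hK2 : K ^ 2 ≤ K ^ 144 := pow_le_pow_right₀ hK (by norm_num)
  have hK51 : 1 ≤ K ^ 5 := one_le_pow₀ hK
  have hL5 : 144 * K ^ 5 ≤ L := by linarith
  have hL : 1 ≤ L := by linarith
  have hL0 : 0 < L := by linarith
  have hbin := re6_core_binmass L K S Pt vel pal m hL hK h
  have hpal1 : ∀ d, pal d ≤ 1 := fun d =>
    (single_le_sum (fun i _ => h.hpal0 i) (mem_univ d)).trans h.hpal1
  -- total mass
  have htot : 1 / K ≤ ∑ d, ∑ p ∈ Pt, m p d := by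
    rw [sum_comm]
    exact h.hmass
  -- light bins
  have hlight : ∑ d with ¬ 1 / L ^ 2 ≤ pal d, ∑ p ∈ Pt, m p d ≤ 1 / (2 * K) := by
    calc ∑ d with ¬ 1 / L ^ 2 ≤ pal d, ∑ p ∈ Pt, m p d ≤ ∑ d with ¬ 1 / L ^ 2 ≤ pal d, 9 * K ^ 3 * (1 / L ^ 2) := by
          refine sum_le_sum fun d hd => (hbin d).trans ?_
          have := (mem_filter.1 hd).2
          push Not at this
          gcongr
      _ = #{d | ¬ 1 / L ^ 2 ≤ pal d} * (9 * K ^ 3 * (1 / L ^ 2)) := by rw [sum_const, nsmul_eq_mul]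
      _ ≤ (K * L) * (9 * K ^ 3 * (1 / L ^ 2)) := by
          have : (#{d | ¬ 1 / L ^ 2 ≤ pal d} : ℝ) ≤ Fintype.card D := by
            exact_mod_cast card_le_univ _
          have := this.trans h.hD
          gcongr
      _ = 9 * K ^ 4 / L := by field_simp
      _ ≤ 1 / (2 * K) := by
          rw [div_le_div_iff₀ hL0 (by positivity)]
          nlinarith
  have hheavy : 1 / (2 * K) ≤ ∑ d with 1 / L ^ 2 ≤ pal d, ∑ p ∈ Pt, m p d := by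
    have := sum_filter_add_sum_filter_not univ (fun d => 1 / L ^ 2 ≤ pal d) (fun d => ∑ p ∈ Pt, m p d)
    have e : 1 / K = 1 / (2 * K) + 1 / (2 * K) := by field_simp; norm_num
    linarith
  -- dyadic index
  have hidx : ∀ d, ∃ k : ℕ, 1 / L ^ 2 ≤ pal d → k < ⌊3 * K⌋₊ + 1 ∧ (1 / 2 : ℝ) ^ (k + 1) ≤ pal d ∧ pal d ≤ 2 * (1 / 2 : ℝ) ^ (k + 1) := by
    intro d
    by_cases hd : 1 / L ^ 2 ≤ pal d
    · obtain ⟨k, hk⟩ := re6_dyadic_index L K (pal d) hL hK hlog hd (hpal1 d)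
      exact ⟨k, fun _ => hk⟩
    · exact ⟨0, fun hd' => absurd hd' hd⟩
  choose kf hkf using hidx
  set N : ℕ := ⌊3 * K⌋₊ + 1 with hN
  have hNK : (N : ℝ) ≤ 4 * K := by
    rw [hN]
    push_cast
    have := Nat.floor_le (by positivity : 0 ≤ 3 * K)
    linarith
  have hN0 : (0 : ℝ) < N := by rw [hN]; positivity
  have hfw : ∑ k ∈ range N, ∑ d ∈ ({d | 1 / L ^ 2 ≤ pal d} : Finset D) with kf d = k, ∑ p ∈ Pt, m p d
      = ∑ d with 1 / L ^ 2 ≤ pal d, ∑ p ∈ Pt, m p d :=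
    sum_fiberwise_of_maps_to (fun d hd => mem_range.2 (hkf d (mem_filter.1 hd).2).1) _
  have hpig : ∑ _k ∈ range N, 1 / (8 * K ^ 2) ≤
      ∑ k ∈ range N, ∑ d ∈ ({d | 1 / L ^ 2 ≤ pal d} : Finset D) with kf d = k, ∑ p ∈ Pt, m p d := by
    rw [hfw, sum_const, card_range, nsmul_eq_mul]
    refine le_trans ?_ hheavy
    calc (N : ℝ) * (1 / (8 * K ^ 2)) ≤ (4 * K) * (1 / (8 * K ^ 2)) := by gcongr
      _ = 1 / (2 * K) := by field_simp; norm_num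
  obtain ⟨k, -, hk⟩ := exists_le_of_sum_le (nonempty_range_iff.2 (by rw [hN]; omega)) hpig
  set D₁ : Finset D := {d ∈ ({d | 1 / L ^ 2 ≤ pal d} : Finset D) | kf d = k} with hD₁
  set ϖ : ℝ := (1 / 2 : ℝ) ^ (k + 1) with hϖ
  have hϖ0 : 0 < ϖ := by rw [hϖ]; positivity
  have hmem : ∀ d ∈ D₁, ϖ ≤ pal d ∧ pal d ≤ 2 * ϖ := by
    intro d hd
    obtain ⟨hd1, hd2⟩ := mem_filter.1 hd
    have := (hkf d (mem_filter.1 hd1).2).2
    rw [hd2] at this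
    exact this
  have hup : ϖ * #D₁ ≤ 1 := by
    calc ϖ * #D₁ = ∑ _d ∈ D₁, ϖ := by rw [sum_const, nsmul_eq_mul, mul_comm]
      _ ≤ ∑ d ∈ D₁, pal d := sum_le_sum fun d hd => (hmem d hd).1
      _ ≤ ∑ d, pal d := sum_le_sum_of_subset_of_nonneg (subset_univ _) fun i _ _ => h.hpal0 i
      _ ≤ 1 := h.hpal1
  have hlo : 1 / (8 * K ^ 2) ≤ 18 * K ^ 3 * (ϖ * #D₁) := by
    calc 1 / (8 * K ^ 2) ≤ ∑ d ∈ D₁, ∑ p ∈ Pt, m p d := hk
      _ ≤ ∑ _d ∈ D₁, 9 * K ^ 3 * (2 * ϖ) := by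
          refine sum_le_sum fun d hd => (hbin d).trans ?_
          have := (hmem d hd).2
          gcongr
      _ = 18 * K ^ 3 * (ϖ * #D₁) := by rw [sum_const, nsmul_eq_mul]; ring
  refine ⟨D₁, ϖ, hϖ0, hmem, hup, ?_, ?_⟩
  · have h0 : 0 ≤ ϖ * #D₁ := by positivity
    have h1 : 1 ≤ 144 * K ^ 5 * (ϖ * #D₁) := by
      rw [div_le_iff₀ (by positivity)] at hlo
      nlinarith
    calc (1 : ℝ) ≤ 144 * K ^ 5 * (ϖ * #D₁) := h1
      _ ≤ 144 * K ^ 144 * (ϖ * #D₁) := by gcongr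
  · rw [sum_comm]
    have h0 : 0 ≤ ∑ d ∈ D₁, ∑ p ∈ Pt, m p d := sum_nonneg fun d _ => sum_nonneg fun p _ => h.hm0 p d
    have h1 : 1 ≤ 8 * K ^ 2 * ∑ d ∈ D₁, ∑ p ∈ Pt, m p d := by
      rw [div_le_iff₀ (by positivity)] at hk
      linarith
    calc (1 : ℝ) ≤ 8 * K ^ 2 * ∑ d ∈ D₁, ∑ p ∈ Pt, m p d := h1
      _ ≤ 144 * K ^ 144 * ∑ d ∈ D₁, ∑ p ∈ Pt, m p d := by gcongr; norm_num

theorem re6_core_reg {P D : Type*} [DecidableEq P] [DecidableEq D] (Pt : Finset P) (D₁ : Finset D) (m : P → D → ℝ) (μ₀ b : ℝ)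
    (hm0 : ∀ p d, 0 ≤ m p d) (hμ₀ : 0 < μ₀) (hb0 : 0 < b) (hmass : μ₀ ≤ ∑ p ∈ Pt, ∑ d ∈ D₁, m p d)
    (hb : ∀ p ∈ Pt, ∀ d ∈ D₁, m p d ≤ b) :
    ∃ Pt₁ ⊆ Pt, μ₀ / (8 * b * #D₁) ≤ (#Pt₁ : ℝ) ∧
      ∀ p ∈ Pt₁, μ₀ / (4 * #Pt) ≤ ∑ d ∈ D₁, m p d ∧ μ₀ / (8 * b * #Pt) ≤ (#{d ∈ D₁ | 0 < m p d} : ℝ) := by
  classical
  have hPt : 0 < #Pt := by
    rw [card_pos]
    by_contra hne
    rw [not_nonempty_iff_eq_empty] at hne
    rw [hne, sum_empty] at hmass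
    linarith
  have hD : 0 < #D₁ := by
    rw [card_pos]
    by_contra hne
    rw [not_nonempty_iff_eq_empty] at hne
    simp only [hne, sum_empty, sum_const_zero] at hmass
    linarith
  have hPt' : (0 : ℝ) < #Pt := by exact_mod_cast hPt
  have hD' : (0 : ℝ) < #D₁ := by exact_mod_cast hD
  -- the marginal is at most `b` times the degree
  have hdeg : ∀ p ∈ Pt, ∑ d ∈ D₁, m p d ≤ b * #{d ∈ D₁ | 0 < m p d} := by
    intro p hp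
    have e : ∑ d ∈ D₁, m p d = ∑ d ∈ D₁ with 0 < m p d, m p d := by
      rw [sum_filter]
      refine sum_congr rfl fun d _ => ?_
      by_cases hd : 0 < m p d
      · rw [if_pos hd]
      · rw [if_neg hd]
        exact le_antisymm (not_lt.1 hd) (hm0 p d)
    rw [e]
    calc ∑ d ∈ D₁ with 0 < m p d, m p d ≤ ∑ d ∈ D₁ with 0 < m p d, b :=
          sum_le_sum fun d hd => hb p hp d (mem_filter.1 hd).1
      _ = b * #{d ∈ D₁ | 0 < m p d} := by rw [sum_const, nsmul_eq_mul, mul_comm]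
  refine ⟨{p ∈ Pt | μ₀ / (4 * #Pt) ≤ ∑ d ∈ D₁, m p d}, filter_subset _ _, ?_, ?_⟩
  · -- the light points
    have hsplit := sum_filter_add_sum_filter_not Pt (fun p => μ₀ / (4 * #Pt) ≤ ∑ d ∈ D₁, m p d) (fun p => ∑ d ∈ D₁, m p d)
    have hlight : ∑ p ∈ Pt with ¬ μ₀ / (4 * #Pt) ≤ ∑ d ∈ D₁, m p d, ∑ d ∈ D₁, m p d ≤ μ₀ / 4 := by
      calc ∑ p ∈ Pt with ¬ μ₀ / (4 * #Pt) ≤ ∑ d ∈ D₁, m p d, ∑ d ∈ D₁, m p d
          ≤ ∑ p ∈ Pt with ¬ μ₀ / (4 * #Pt) ≤ ∑ d ∈ D₁, m p d, μ₀ / (4 * #Pt) :=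
            sum_le_sum fun p hp => (not_le.1 (mem_filter.1 hp).2).le
        _ = #{p ∈ Pt | ¬ μ₀ / (4 * #Pt) ≤ ∑ d ∈ D₁, m p d} * (μ₀ / (4 * #Pt)) := by rw [sum_const, nsmul_eq_mul]
        _ ≤ #Pt * (μ₀ / (4 * #Pt)) := by
            gcongr
            exact filter_subset _ _
        _ = μ₀ / 4 := by field_simp
    have hheavy : ∑ p ∈ Pt with μ₀ / (4 * #Pt) ≤ ∑ d ∈ D₁, m p d, ∑ d ∈ D₁, m p d ≤
        #{p ∈ Pt | μ₀ / (4 * #Pt) ≤ ∑ d ∈ D₁, m p d} * (b * #D₁) := by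
      calc ∑ p ∈ Pt with μ₀ / (4 * #Pt) ≤ ∑ d ∈ D₁, m p d, ∑ d ∈ D₁, m p d
          ≤ ∑ p ∈ Pt with μ₀ / (4 * #Pt) ≤ ∑ d ∈ D₁, m p d, b * #D₁ := by
            refine sum_le_sum fun p hp => ?_
            calc ∑ d ∈ D₁, m p d ≤ ∑ _d ∈ D₁, b := sum_le_sum fun d hd => hb p (mem_filter.1 hp).1 d hd
              _ = b * #D₁ := by rw [sum_const, nsmul_eq_mul, mul_comm]
        _ = _ := by rw [sum_const, nsmul_eq_mul]
    rw [div_le_iff₀ (by positivity)]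
    have : 3 * μ₀ / 4 ≤ #{p ∈ Pt | μ₀ / (4 * #Pt) ≤ ∑ d ∈ D₁, m p d} * (b * #D₁) := by linarith
    have h0 : (0 : ℝ) ≤ #{p ∈ Pt | μ₀ / (4 * #Pt) ≤ ∑ d ∈ D₁, m p d} * (b * #D₁) := by positivity
    nlinarith
  · intro p hp
    obtain ⟨hpP, hpm⟩ := mem_filter.1 hp
    refine ⟨hpm, ?_⟩
    have h1 := hdeg p hpP
    rw [div_le_iff₀ (by positivity)]
    rw [div_le_iff₀ (by positivity)] at hpm
    have h2 : μ₀ ≤ b * #{d ∈ D₁ | 0 < m p d} * (4 * #Pt) := hpm.trans (by gcongr)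
    have h0 : (0 : ℝ) ≤ b * #{d ∈ D₁ | 0 < m p d} * #Pt := by positivity
    nlinarith

/-- double counting -/
theorem re6_dc {α β : Type*} (P : Finset α) (E : Finset β) (r : α → β → Prop) [∀ a b, Decidable (r a b)] (c : ℝ)
    (h : ∀ p ∈ P, c ≤ (#{d ∈ E | r p d} : ℝ)) : c * #P ≤ ∑ d ∈ E, (#{p ∈ P | r p d} : ℝ) := by
  have e : ∑ d ∈ E, (#{p ∈ P | r p d} : ℝ) = ∑ p ∈ P, (#{d ∈ E | r p d} : ℝ) := by
    have := sum_card_bipartiteAbove_eq_sum_card_bipartiteBelow (s := P) (t := E) r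
    unfold bipartiteAbove bipartiteBelow at this
    exact_mod_cast this.symm
  rw [e]
  calc c * #P = ∑ _p ∈ P, c := by rw [sum_const, nsmul_eq_mul, mul_comm]
    _ ≤ _ := sum_le_sum h

/-- pigeonhole -/
theorem re6_dc_exists {α β : Type*} (P : Finset α) (E : Finset β) (r : α → β → Prop) [∀ a b, Decidable (r a b)] (c : ℝ)
    (hE : E.Nonempty) (h : ∀ p ∈ P, c ≤ (#{d ∈ E | r p d} : ℝ)) : ∃ d ∈ E, c * #P ≤ (#{p ∈ P | r p d} : ℝ) * #E := by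
  have hE' : (0 : ℝ) < #E := by exact_mod_cast hE.card_pos
  have h1 := re6_dc P E r c h
  have h2 : ∑ _d ∈ E, c * #P / #E ≤ ∑ d ∈ E, (#{p ∈ P | r p d} : ℝ) := by
    rw [sum_const, nsmul_eq_mul]
    calc (#E : ℝ) * (c * #P / #E) = c * #P := by field_simp
      _ ≤ _ := h1
  obtain ⟨d, hd, h3⟩ := exists_le_of_sum_le hE h2
  exact ⟨d, hd, (div_le_iff₀ hE').1 h3⟩

/-- popular elements -/
theorem re6_dc_popular {α β : Type*} (P : Finset α) (E : Finset β) (r : α → β → Prop) [∀ a b, Decidable (r a b)] (c M : ℝ)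
    (hP : P.Nonempty) (hc : 0 ≤ c) (hM : 0 < M) (hEM : (#E : ℝ) ≤ M) (h : ∀ p ∈ P, c ≤ (#{d ∈ E | r p d} : ℝ)) :
    c / 2 ≤ (#{d ∈ E | c / (2 * M) * #P ≤ (#{p ∈ P | r p d} : ℝ)} : ℝ) := by
  have hP' : (0 : ℝ) < #P := by exact_mod_cast hP.card_pos
  have h1 := re6_dc P E r c h
  have hsplit := sum_filter_add_sum_filter_not E (fun d => c / (2 * M) * #P ≤ (#{p ∈ P | r p d} : ℝ))
    (fun d => (#{p ∈ P | r p d} : ℝ))
  have hlow : ∑ d ∈ E with ¬ c / (2 * M) * #P ≤ (#{p ∈ P | r p d} : ℝ), (#{p ∈ P | r p d} : ℝ) ≤ c / 2 * #P := by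
    calc ∑ d ∈ E with ¬ c / (2 * M) * #P ≤ (#{p ∈ P | r p d} : ℝ), (#{p ∈ P | r p d} : ℝ)
        ≤ ∑ d ∈ E with ¬ c / (2 * M) * #P ≤ (#{p ∈ P | r p d} : ℝ), c / (2 * M) * #P :=
          sum_le_sum fun d hd => (not_le.1 (mem_filter.1 hd).2).le
      _ = #{d ∈ E | ¬ c / (2 * M) * #P ≤ (#{p ∈ P | r p d} : ℝ)} * (c / (2 * M) * #P) := by rw [sum_const, nsmul_eq_mul]
      _ ≤ M * (c / (2 * M) * #P) := by
          gcongr
          refine le_trans ?_ hEM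
          exact_mod_cast card_le_card (filter_subset _ _)
      _ = c / 2 * #P := by field_simp
  have hhigh : ∑ d ∈ E with c / (2 * M) * #P ≤ (#{p ∈ P | r p d} : ℝ), (#{p ∈ P | r p d} : ℝ) ≤
      #{d ∈ E | c / (2 * M) * #P ≤ (#{p ∈ P | r p d} : ℝ)} * #P := by
    calc ∑ d ∈ E with c / (2 * M) * #P ≤ (#{p ∈ P | r p d} : ℝ), (#{p ∈ P | r p d} : ℝ)
        ≤ ∑ d ∈ E with c / (2 * M) * #P ≤ (#{p ∈ P | r p d} : ℝ), (#P : ℝ) :=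
          sum_le_sum fun d _ => by exact_mod_cast card_le_card (filter_subset _ _)
      _ = _ := by rw [sum_const, nsmul_eq_mul]
  have h2 : c / 2 * #P ≤ #{d ∈ E | c / (2 * M) * #P ≤ (#{p ∈ P | r p d} : ℝ)} * #P := by linarith
  exact le_of_mul_le_mul_right h2 hP'

theorem re6_core_triple {P D : Type*} [DecidableEq P] [DecidableEq D] (Pt₁ : Finset P) (D₁ : Finset D) (Nb : P → Finset D) (vel : D → ℝ)
    (δ r₀ : ℝ) (hδ : 0 < δ) (hne : Pt₁.Nonempty) (hD : D₁.Nonempty) (hNb : ∀ p ∈ Pt₁, Nb p ⊆ D₁ ∧ δ * #D₁ ≤ (#(Nb p) : ℝ))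
    (hsep : ∀ x : ℝ, (#{d ∈ D₁ | |vel d - x| ≤ r₀} : ℝ) ≤ δ * #D₁ / 4) :
    ∃ d₁ ∈ D₁, ∃ d₂ ∈ D₁, ∃ D₃ ⊆ D₁, r₀ < |vel d₁ - vel d₂| ∧ (∀ d ∈ D₃, r₀ < |vel d - vel d₁| ∧ r₀ < |vel d - vel d₂|) ∧
      δ ^ 3 / 8 * #D₁ ≤ (#D₃ : ℝ) ∧ ∀ d ∈ D₃, δ ^ 3 / 8 * #Pt₁ ≤ (#{p ∈ Pt₁ | d₁ ∈ Nb p ∧ d₂ ∈ Nb p ∧ d ∈ Nb p} : ℝ) := by
  classical
  obtain ⟨M, hM⟩ : ∃ M : ℝ, M = #D₁ := ⟨_, rfl⟩
  obtain ⟨n, hn⟩ : ∃ n : ℝ, n = #Pt₁ := ⟨_, rfl⟩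
  rw [← hM] at hsep
  have hM0 : 0 < M := by rw [hM]; exact_mod_cast hD.card_pos
  have hn0 : 0 < n := by rw [hn]; exact_mod_cast hne.card_pos
  have hδ1 : δ ≤ 1 := by
    obtain ⟨p, hp⟩ := hne
    have h1 := (hNb p hp).2
    have h2 : (#(Nb p) : ℝ) ≤ #D₁ := by exact_mod_cast card_le_card (hNb p hp).1
    rw [← hM] at h1 h2
    by_contra hc
    rw [not_le] at hc
    nlinarith
  -- removing a ball from a neighbourhood
  have hrem : ∀ p ∈ Pt₁, ∀ (A : Finset D) (x : ℝ), A ⊆ D₁ →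
      (#A : ℝ) - δ * M / 4 ≤ (#{d ∈ A | r₀ < |vel d - x|} : ℝ) := by
    intro p _ A x hA
    have h1 := card_filter_add_card_filter_not (s := A) (fun d => r₀ < |vel d - x|)
    have h2 : #{d ∈ A | ¬ r₀ < |vel d - x|} ≤ #{d ∈ D₁ | |vel d - x| ≤ r₀} := by
      refine card_le_card ?_
      intro d hd
      obtain ⟨h3, h4⟩ := mem_filter.1 hd
      exact mem_filter.2 ⟨hA h3, not_lt.1 h4⟩
    have h1' : (#{d ∈ A | r₀ < |vel d - x|} : ℝ) + #{d ∈ A | ¬ r₀ < |vel d - x|} = #A := by exact_mod_cast h1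
    have h2' : (#{d ∈ A | ¬ r₀ < |vel d - x|} : ℝ) ≤ #{d ∈ D₁ | |vel d - x| ≤ r₀} := by exact_mod_cast h2
    have := hsep x
    linarith
  -- step 1
  obtain ⟨d₁, hd₁, s1⟩ := re6_dc_exists Pt₁ D₁ (fun p d => d ∈ Nb p) (δ * M) hD (by
    intro p hp
    have e : {d ∈ D₁ | d ∈ Nb p} = Nb p := by
      ext d
      rw [mem_filter]
      exact ⟨fun h => h.2, fun h => ⟨(hNb p hp).1 h, h⟩⟩
    rw [e, hM]
    exact (hNb p hp).2)
  rw [← hM, ← hn] at s1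
  obtain ⟨P₁, hP₁⟩ : ∃ P₁ : Finset P, P₁ = {p ∈ Pt₁ | d₁ ∈ Nb p} := ⟨_, rfl⟩
  rw [← hP₁] at s1
  have s1' : δ * n ≤ #P₁ := by
    have : (δ * n) * M ≤ #P₁ * M := by linarith
    exact le_of_mul_le_mul_right this hM0
  have hP₁ne : P₁.Nonempty := by
    rw [← card_pos]
    have : (0 : ℝ) < #P₁ := lt_of_lt_of_le (by positivity) s1'
    exact_mod_cast this
  have hP₁sub : ∀ p ∈ P₁, p ∈ Pt₁ ∧ d₁ ∈ Nb p := fun p hp => by
    rw [hP₁] at hp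
    exact mem_filter.1 hp
  -- step 2
  obtain ⟨d₂, hd₂, s2⟩ := re6_dc_exists P₁ D₁ (fun p d => d ∈ Nb p ∧ r₀ < |vel d - vel d₁|) (3 * δ * M / 4) hD (by
    intro p hp
    have hpP := (hP₁sub p hp).1
    have e : {d ∈ D₁ | d ∈ Nb p ∧ r₀ < |vel d - vel d₁|} = {d ∈ Nb p | r₀ < |vel d - vel d₁|} := by
      ext d
      simp only [mem_filter]
      exact ⟨fun h => h.2, fun h => ⟨(hNb p hpP).1 h.1, h⟩⟩
    rw [e]
    have h1 := hrem p hpP (Nb p) (vel d₁) (hNb p hpP).1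
    have h2 := (hNb p hpP).2
    rw [← hM] at h2
    linarith)
  rw [← hM] at s2
  obtain ⟨P₂, hP₂⟩ : ∃ P₂ : Finset P, P₂ = {p ∈ P₁ | d₂ ∈ Nb p ∧ r₀ < |vel d₂ - vel d₁|} := ⟨_, rfl⟩
  rw [← hP₂] at s2
  have s2' : 3 * δ / 4 * #P₁ ≤ #P₂ := by
    have : (3 * δ / 4 * #P₁) * M ≤ #P₂ * M := by linarith
    exact le_of_mul_le_mul_right this hM0
  have hP₁0 : (0 : ℝ) < #P₁ := by exact_mod_cast hP₁ne.card_pos
  have hP₂ne : P₂.Nonempty := by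
    rw [← card_pos]
    have : (0 : ℝ) < #P₂ := lt_of_lt_of_le (by positivity) s2'
    exact_mod_cast this
  have hP₂sub : ∀ p ∈ P₂, p ∈ Pt₁ ∧ d₁ ∈ Nb p ∧ d₂ ∈ Nb p ∧ r₀ < |vel d₂ - vel d₁| := fun p hp => by
    rw [hP₂] at hp
    obtain ⟨h1, h2, h3⟩ := mem_filter.1 hp
    exact ⟨(hP₁sub p h1).1, (hP₁sub p h1).2, h2, h3⟩
  have hsep12 : r₀ < |vel d₁ - vel d₂| := by
    obtain ⟨p, hp⟩ := hP₂ne
    rw [abs_sub_comm]
    exact (hP₂sub p hp).2.2.2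
  -- step 3
  have s3 := re6_dc_popular P₂ D₁ (fun p d => d ∈ Nb p ∧ r₀ < |vel d - vel d₁| ∧ r₀ < |vel d - vel d₂|) (δ * M / 2) M hP₂ne
    (by positivity) hM0 hM.ge (by
    intro p hp
    have hpP := (hP₂sub p hp).1
    have e : {d ∈ D₁ | d ∈ Nb p ∧ r₀ < |vel d - vel d₁| ∧ r₀ < |vel d - vel d₂|} =
        {d ∈ {d ∈ Nb p | r₀ < |vel d - vel d₁|} | r₀ < |vel d - vel d₂|} := by
      ext d
      simp only [mem_filter]
      exact ⟨fun h => ⟨⟨h.2.1, h.2.2.1⟩, h.2.2.2⟩, fun h => ⟨(hNb p hpP).1 h.1.1, h.1.1, h.1.2, h.2⟩⟩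
    rw [e]
    have h1 := hrem p hpP (Nb p) (vel d₁) (hNb p hpP).1
    have h3 := hrem p hpP {d ∈ Nb p | r₀ < |vel d - vel d₁|} (vel d₂) ((filter_subset _ _).trans (hNb p hpP).1)
    have h2 := (hNb p hpP).2
    rw [← hM] at h2
    linarith)
  have hP₂0 : (0 : ℝ) < #P₂ := by exact_mod_cast hP₂ne.card_pos
  have hthr : δ * M / 2 / (2 * M) * #P₂ = δ / 4 * #P₂ := by field_simp; ring
  rw [hthr] at s3
  refine ⟨d₁, hd₁, d₂, hd₂,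
    {d ∈ D₁ | δ / 4 * #P₂ ≤ (#{p ∈ P₂ | d ∈ Nb p ∧ r₀ < |vel d - vel d₁| ∧ r₀ < |vel d - vel d₂|} : ℝ)},
    filter_subset _ _, hsep12, ?_, ?_, ?_⟩
  · intro d hd
    have h1 := (mem_filter.1 hd).2
    have h2 : 0 < #{p ∈ P₂ | d ∈ Nb p ∧ r₀ < |vel d - vel d₁| ∧ r₀ < |vel d - vel d₂|} := by
      have : (0 : ℝ) < #{p ∈ P₂ | d ∈ Nb p ∧ r₀ < |vel d - vel d₁| ∧ r₀ < |vel d - vel d₂|} :=
        lt_of_lt_of_le (by positivity) h1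
      exact_mod_cast this
    obtain ⟨p, hp⟩ := card_pos.1 h2
    exact (mem_filter.1 hp).2.2
  · refine le_trans ?_ s3
    rw [← hM]
    have h3 : δ ^ 3 ≤ δ := by
      calc δ ^ 3 = δ * δ ^ 2 := by ring
        _ ≤ δ * 1 := by
          gcongr
          exact pow_le_one₀ hδ.le hδ1
        _ = δ := mul_one _
    nlinarith
  · intro d hd
    have h1 := (mem_filter.1 hd).2
    have h2 : #{p ∈ P₂ | d ∈ Nb p ∧ r₀ < |vel d - vel d₁| ∧ r₀ < |vel d - vel d₂|} ≤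
        #{p ∈ Pt₁ | d₁ ∈ Nb p ∧ d₂ ∈ Nb p ∧ d ∈ Nb p} := by
      refine card_le_card ?_
      intro p hp
      obtain ⟨h3, h4⟩ := mem_filter.1 hp
      obtain ⟨h5, h6, h7, -⟩ := hP₂sub p h3
      exact mem_filter.2 ⟨h5, h6, h7, h4.1⟩
    have h2' : (#{p ∈ P₂ | d ∈ Nb p ∧ r₀ < |vel d - vel d₁| ∧ r₀ < |vel d - vel d₂|} : ℝ) ≤
        #{p ∈ Pt₁ | d₁ ∈ Nb p ∧ d₂ ∈ Nb p ∧ d ∈ Nb p} := by exact_mod_cast h2
    refine le_trans ?_ (h1.trans h2')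
    rw [← hn]
    calc δ ^ 3 / 8 * n ≤ δ / 4 * (3 * δ / 4 * (δ * n)) := by
          have : 0 ≤ δ ^ 3 * n := by positivity
          nlinarith
      _ ≤ δ / 4 * (3 * δ / 4 * #P₁) := by gcongr
      _ ≤ δ / 4 * #P₂ := by gcongr

end Claimed.Agent.R252

end PkRe6CoreA

section PkRe6CoreB

/-!
# Row 252, unit Re6.  CONTRACT `CoreB`: two basis directions and many third directions (06a l.585-650).   Architect helper183.  GLUE (leaf L-252-RE6-CORE-GRAPH).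

PROOF.  `re6_core_pal`: `D₁, ϖ`, `M = #D₁`, `μ₀ = 1/(C K^C)`.   `m p d ≤ K pal d / L² ≤ 2 K ϖ / L² =: b` (`hcap` + `hm0`).   `re6_core_reg` + `re6_core_count`: `Pt₁`, degree `≥ μ₀/(8 b #Pt) ≥ δ M` (`ϖ M ≤ 1`),
`#Pt₁ ≥ μ₀ L²/(16 K)`, marginal `≥ μ₀/(36 K³ L²)`.   Uniform law of `D₁`: `#{d ∈ D₁ : |vel d - x| ≤ r} ϖ ≤ pal(B(x,r)) ≤ K r^S`, so `≤ K' r^S M`.   `r₀ = (δ/(4K'))^(1/S) ≥ 1/L`.   `re6_core_triple` with `Nb p = {d ∈ D₁ | 0 < m p d}`.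
`P₃ d = {p ∈ Pt₁ | d₁, d₂, d ∈ Nb p}`.   `C` depends on `S` (through `1/S`).
-/

set_option autoImplicit false

namespace Claimed.Agent.R252

open Finset

/-- explicit form of `re6_core_graph` -/
theorem re6_core_graph_aux {D : Type} [Fintype D] (L K S A r₀ : ℝ) (Pt : Finset ((ℤ × ℤ) × (ℤ × ℤ))) (vel pal : D → ℝ)
    (m : (ℤ × ℤ) × (ℤ × ℤ) → D → ℝ) (hL : 1 ≤ L) (hK : 1 ≤ K) (hA : 1 ≤ A)
    (h : Re6Core L K S Pt vel pal m) (D₁ : Finset D) (ϖ : ℝ) (hϖ : 0 < ϖ) (hpal : ∀ d ∈ D₁, ϖ ≤ pal d ∧ pal d ≤ 2 * ϖ)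
    (hup : ϖ * #D₁ ≤ 1) (hlo : 1 ≤ A * (ϖ * #D₁)) (hmass : 1 ≤ A * ∑ p ∈ Pt, ∑ d ∈ D₁, m p d)
    (hr₀L : 1 / L ≤ r₀) (hr₀1 : r₀ ≤ 1) (hr₀ : 576 * A ^ 2 * K ^ 5 * r₀ ^ S ≤ 1) :
    ∃ (d₁ d₂ : D) (D₃ : Finset D) (P₃ : D → Finset ((ℤ × ℤ) × (ℤ × ℤ))), D₃.Nonempty ∧ r₀ < |vel d₁ - vel d₂| ∧
      (∀ d ∈ D₃, r₀ < |vel d - vel d₁| ∧ r₀ < |vel d - vel d₂|) ∧
      (∀ x r : ℝ, 1 / L ≤ r → r ≤ 1 →
        (#{d ∈ D₃ | |vel d - x| ≤ r} : ℝ) ≤ 8 * (144 * A * K ^ 4) ^ 3 * (K * A) * r ^ S * #D₃) ∧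
      ∀ d ∈ D₃, P₃ d ⊆ Pt ∧ L ^ 2 ≤ 128 * (144 * A * K ^ 4) ^ 3 * (K * A) * #(P₃ d) ∧
        ∀ p ∈ P₃ d, 0 < m p d₁ ∧ 0 < m p d₂ ∧ 0 < m p d ∧ 1 ≤ 36 * A * K ^ 3 * L ^ 2 * ∑ d', m p d' := by
  classical
  have hL0 : 0 < L := by linarith
  have hK0 : 0 < K := by linarith
  have hA0 : 0 < A := by linarith
  have hM0 : (0 : ℝ) < #D₁ := by
    by_contra hc
    have h0 : (#D₁ : ℝ) = 0 := le_antisymm (not_lt.1 hc) (Nat.cast_nonneg _)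
    rw [h0] at hlo
    norm_num at hlo
  have hD₁ne : D₁.Nonempty := by
    rw [← card_pos]
    exact_mod_cast hM0
  set M : ℝ := (#D₁ : ℝ) with hM
  set b : ℝ := 2 * K * ϖ / L ^ 2 with hb
  have hb0 : 0 < b := by positivity
  have hmb : ∀ p ∈ Pt, ∀ d ∈ D₁, m p d ≤ b := by
    intro p hp d hd
    calc m p d ≤ ∑ p' ∈ Pt with p'.1 = p.1, m p' d :=
          single_le_sum (f := fun p' => m p' d) (fun i _ => h.hm0 i d) (mem_filter.2 ⟨hp, rfl⟩)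
      _ ≤ K * pal d / L ^ 2 := h.hcap p.1 d
      _ ≤ b := by
          rw [hb]
          have := (hpal d hd).2
          have h2 : K * pal d ≤ 2 * K * ϖ := by nlinarith
          gcongr
  set μ₀ : ℝ := 1 / A with hμ
  have hμ₀ : 0 < μ₀ := by positivity
  have hmass' : μ₀ ≤ ∑ p ∈ Pt, ∑ d ∈ D₁, m p d := by
    rw [hμ, div_le_iff₀ hA0]
    linarith
  obtain ⟨Pt₁, hsub, hcard, hPt₁⟩ := re6_core_reg Pt D₁ m μ₀ b h.hm0 hμ₀ hb0 hmass' hmb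
  have hcnt := (re6_core_count L K S Pt vel pal m hL hK h).2
  have hcard' : L ^ 2 / (16 * K * A) ≤ (#Pt₁ : ℝ) := by
    refine le_trans ?_ hcard
    have e : μ₀ / (8 * b * M) = L ^ 2 / (16 * K * A * (ϖ * M)) := by
      rw [hb, hμ]
      field_simp
      ring
    rw [e]
    apply div_le_div_of_nonneg_left (by positivity) (by positivity)
    have : 0 < 16 * K * A := by positivity
    nlinarith
  have hPt₁0 : (0 : ℝ) < #Pt₁ := lt_of_lt_of_le (by positivity) hcard'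
  have hPt₁ne : Pt₁.Nonempty := by
    rw [← card_pos]
    exact_mod_cast hPt₁0
  have hPt0 : (0 : ℝ) < #Pt := lt_of_lt_of_le hPt₁0 (by exact_mod_cast card_le_card hsub)
  set Q : ℝ := 144 * A * K ^ 4 with hQ
  have hQ0 : 0 < Q := by positivity
  set δ : ℝ := 1 / Q with hδ
  have hδ0 : 0 < δ := by positivity
  set Nb : (ℤ × ℤ) × (ℤ × ℤ) → Finset D := fun p => {d ∈ D₁ | 0 < m p d} with hNbdef
  have hNb : ∀ p ∈ Pt₁, Nb p ⊆ D₁ ∧ δ * #D₁ ≤ (#(Nb p) : ℝ) := by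
    intro p hp
    refine ⟨filter_subset _ _, le_trans ?_ (hPt₁ p hp).2⟩
    rw [le_div_iff₀ (by positivity)]
    calc δ * M * (8 * b * #Pt) ≤ δ * M * (8 * b * (9 * K ^ 3 * L ^ 2)) := by gcongr
      _ = (ϖ * M) * μ₀ := by
          rw [hδ, hQ, hb, hμ]
          field_simp
          ring
      _ ≤ 1 * μ₀ := by gcongr
      _ = μ₀ := one_mul _
  have hfr : ∀ x r : ℝ, 1 / L ≤ r → r ≤ 1 → (#{d ∈ D₁ | |vel d - x| ≤ r} : ℝ) ≤ K * A * r ^ S * M := by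
    intro x r hr1 hr2
    have hr0 : 0 < r := lt_of_lt_of_le (by positivity) hr1
    have h1 : ϖ * #{d ∈ D₁ | |vel d - x| ≤ r} ≤ K * r ^ S := by
      calc ϖ * #{d ∈ D₁ | |vel d - x| ≤ r} = ∑ _d ∈ D₁ with |vel _d - x| ≤ r, ϖ := by
            rw [sum_const, nsmul_eq_mul, mul_comm]
        _ ≤ ∑ d ∈ D₁ with |vel d - x| ≤ r, pal d := sum_le_sum fun d hd => (hpal d (mem_filter.1 hd).1).1
        _ ≤ ∑ d with dist (vel d) x ≤ r, pal d := by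
            refine sum_le_sum_of_subset_of_nonneg ?_ fun i _ _ => h.hpal0 i
            intro d hd
            rw [mem_filter] at hd ⊢
            exact ⟨mem_univ _, by rw [Real.dist_eq]; exact hd.2⟩
        _ ≤ K * r ^ S := h.hFr x r hr1 hr2
    have h0 : (0 : ℝ) ≤ #{d ∈ D₁ | |vel d - x| ≤ r} := Nat.cast_nonneg _
    calc (#{d ∈ D₁ | |vel d - x| ≤ r} : ℝ) = #{d ∈ D₁ | |vel d - x| ≤ r} * 1 := (mul_one _).symm
      _ ≤ #{d ∈ D₁ | |vel d - x| ≤ r} * (A * (ϖ * M)) := by gcongr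
      _ = (ϖ * #{d ∈ D₁ | |vel d - x| ≤ r}) * (A * M) := by ring
      _ ≤ (K * r ^ S) * (A * M) := by gcongr
      _ = _ := by ring
  have hsep : ∀ x : ℝ, (#{d ∈ D₁ | |vel d - x| ≤ r₀} : ℝ) ≤ δ * #D₁ / 4 := by
    intro x
    refine (hfr x r₀ hr₀L hr₀1).trans ?_
    have e : δ * M / 4 = (1 / (576 * A * K ^ 4)) * M := by
      rw [hδ, hQ]
      field_simp
      norm_num
    rw [e]
    gcongr
    rw [le_div_iff₀ (by positivity)]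
    calc K * A * r₀ ^ S * (576 * A * K ^ 4) = 576 * A ^ 2 * K ^ 5 * r₀ ^ S := by ring
      _ ≤ 1 := hr₀
  obtain ⟨d₁, hd₁, d₂, hd₂, D₃, hD₃sub, h12, h3, hD₃card, hP₃⟩ :=
    re6_core_triple Pt₁ D₁ Nb vel δ r₀ hδ0 hPt₁ne hD₁ne hNb hsep
  have hδ3 : δ ^ 3 / 8 = 1 / (8 * Q ^ 3) := by
    rw [hδ]
    field_simp
  rw [hδ3] at hD₃card hP₃
  have hD₃card' : M ≤ 8 * Q ^ 3 * #D₃ := by
    rw [div_mul_eq_mul_div, one_mul, div_le_iff₀ (by positivity)] at hD₃card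
    linarith
  have hD₃0 : (0 : ℝ) < #D₃ := by
    by_contra hc
    have h0 : (#D₃ : ℝ) = 0 := le_antisymm (not_lt.1 hc) (Nat.cast_nonneg _)
    rw [h0] at hD₃card'
    linarith
  refine ⟨d₁, d₂, D₃, fun d => {p ∈ Pt₁ | d₁ ∈ Nb p ∧ d₂ ∈ Nb p ∧ d ∈ Nb p}, ?_, h12, h3, ?_, ?_⟩
  · rw [← card_pos]
    exact_mod_cast hD₃0
  · intro x r hr1 hr2
    have hr0 : 0 < r := lt_of_lt_of_le (by positivity) hr1
    calc (#{d ∈ D₃ | |vel d - x| ≤ r} : ℝ) ≤ #{d ∈ D₁ | |vel d - x| ≤ r} := by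
          exact_mod_cast card_le_card (filter_subset_filter _ hD₃sub)
      _ ≤ K * A * r ^ S * M := hfr x r hr1 hr2
      _ ≤ K * A * r ^ S * (8 * Q ^ 3 * #D₃) := by gcongr
      _ = _ := by ring
  · intro d hd
    refine ⟨(filter_subset _ _).trans hsub, ?_, ?_⟩
    · have h1 := hP₃ d hd
      rw [div_mul_eq_mul_div, one_mul, div_le_iff₀ (by positivity)] at h1
      rw [div_le_iff₀ (by positivity)] at hcard'
      calc L ^ 2 ≤ #Pt₁ * (16 * K * A) := hcard'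
        _ ≤ (#{p ∈ Pt₁ | d₁ ∈ Nb p ∧ d₂ ∈ Nb p ∧ d ∈ Nb p} * (8 * Q ^ 3)) * (16 * K * A) := by gcongr
        _ = _ := by ring
    · intro p hp
      obtain ⟨hp1, n1, n2, n3⟩ := mem_filter.1 hp
      refine ⟨(mem_filter.1 n1).2, (mem_filter.1 n2).2, (mem_filter.1 n3).2, ?_⟩
      have h1 := (hPt₁ p hp1).1
      have h2 : ∑ d ∈ D₁, m p d ≤ ∑ d', m p d' :=
        sum_le_sum_of_subset_of_nonneg (subset_univ _) fun i _ _ => h.hm0 p i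
      have h4 : μ₀ / (4 * (9 * K ^ 3 * L ^ 2)) ≤ μ₀ / (4 * #Pt) := by
        apply div_le_div_of_nonneg_left hμ₀.le (by positivity)
        linarith
      have h5 := h4.trans (h1.trans h2)
      rw [hμ, div_div, div_le_iff₀ (by positivity)] at h5
      linarith


theorem re6_core_graph (S : ℝ) (hS : 0 < S) : ∃ C : ℕ, ∀ (L K : ℝ) (D : Type) [Fintype D] (Pt : Finset ((ℤ × ℤ) × (ℤ × ℤ))) (vel pal : D → ℝ)
    (m : (ℤ × ℤ) × (ℤ × ℤ) → D → ℝ), 1 ≤ K → Real.log L ≤ K → C * K ^ C ≤ L → Re6Core L K S Pt vel pal m →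
    ∃ (d₁ d₂ : D) (D₃ : Finset D) (P₃ : D → Finset ((ℤ × ℤ) × (ℤ × ℤ))), D₃.Nonempty ∧ 1 ≤ C * K ^ C * |vel d₁ - vel d₂| ∧
      (∀ d ∈ D₃, 1 ≤ C * K ^ C * |vel d - vel d₁| ∧ 1 ≤ C * K ^ C * |vel d - vel d₂|) ∧
      (∀ x r : ℝ, 1 / L ≤ r → r ≤ 1 → (#{d ∈ D₃ | |vel d - x| ≤ r} : ℝ) ≤ C * K ^ C * r ^ S * #D₃) ∧
      ∀ d ∈ D₃, P₃ d ⊆ Pt ∧ L ^ 2 ≤ C * K ^ C * #(P₃ d) ∧
        ∀ p ∈ P₃ d, 0 < m p d₁ ∧ 0 < m p d₂ ∧ 0 < m p d ∧ 1 ≤ C * K ^ C * L ^ 2 * ∑ d', m p d' := by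
  obtain ⟨C₁, hC₁⟩ := re6_core_pal
  obtain ⟨N, hN⟩ : ∃ N : ℕ, N = 5 + ⌈1 / S⌉₊ := ⟨_, rfl⟩
  obtain ⟨C, hC⟩ : ∃ C : ℕ, C = (576 * C₁ ^ 2) ^ N + (2 * C₁ + 5) * N + C₁ := ⟨_, rfl⟩
  refine ⟨C, ?_⟩
  intro L K D _ Pt vel pal m hK hlog hCL h
  have hK0 : 0 < K := by linarith
  obtain ⟨W, hW⟩ : ∃ W : ℝ, W = (C : ℝ) * K ^ C := ⟨_, rfl⟩
  obtain ⟨A, hA⟩ : ∃ A : ℝ, A = (C₁ : ℝ) * K ^ C₁ := ⟨_, rfl⟩
  obtain ⟨Θ, hΘ⟩ : ∃ Θ : ℝ, Θ = 576 * A ^ 2 * K ^ 5 := ⟨_, rfl⟩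
  rw [← hW] at hCL ⊢
  have hAW : A ≤ W := by
    rw [hA, hW]
    have h1 : (C₁ : ℝ) ≤ C := by
      rw [hC]
      exact_mod_cast Nat.le_add_left _ _
    have h2 : K ^ C₁ ≤ K ^ C := pow_le_pow_right₀ hK (by rw [hC]; exact Nat.le_add_left _ _)
    gcongr
  have hΘW : Θ ^ N ≤ W := by
    have e : Θ ^ N = (((576 * C₁ ^ 2) ^ N : ℕ) : ℝ) * K ^ ((2 * C₁ + 5) * N) := by
      have e1 : Θ = (576 * (C₁ : ℝ) ^ 2) * K ^ (2 * C₁ + 5) := by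
        rw [hΘ, hA]
        ring
      rw [e1, mul_pow, ← pow_mul]
      push_cast
      ring
    rw [e, hW]
    have h1 : (((576 * C₁ ^ 2) ^ N : ℕ) : ℝ) ≤ C := by
      rw [hC]
      exact_mod_cast (Nat.le_add_right _ _).trans (Nat.le_add_right _ _)
    have h2 : K ^ ((2 * C₁ + 5) * N) ≤ K ^ C :=
      pow_le_pow_right₀ hK (by rw [hC]; exact (Nat.le_add_left _ _).trans (Nat.le_add_right _ _))
    gcongr
  obtain ⟨D₁, ϖ, hϖ, hpal, hup, hlo, hmass⟩ := hC₁ L K S D Pt vel pal m hK hlog (by rw [← hA]; exact hAW.trans hCL) h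
  rw [← hA] at hlo hmass
  have hA0 : 0 ≤ A := by rw [hA]; positivity
  have hA1 : 1 ≤ A := by
    have : 0 ≤ ϖ * #D₁ := by positivity
    nlinarith
  have hK4 : 1 ≤ K ^ 4 := one_le_pow₀ hK
  have hK3 : 1 ≤ K ^ 3 := one_le_pow₀ hK
  have hQΘ : 144 * A * K ^ 4 ≤ Θ := by
    rw [hΘ]
    have h1 : A * K ^ 4 ≤ A ^ 2 * K ^ 5 := by
      calc A * K ^ 4 = A * 1 * (K ^ 4 * 1) := by ring
        _ ≤ A * A * (K ^ 4 * K) := by gcongr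
        _ = _ := by ring
    have : 0 ≤ A ^ 2 * K ^ 5 := by positivity
    nlinarith
  have hΘ1 : 1 ≤ Θ := by
    have : 1 ≤ A * K ^ 4 := one_le_mul_of_one_le_of_one_le hA1 hK4
    linarith
  have hΘ0 : 0 < Θ := by linarith
  have hKAΘ : 128 * (K * A) ≤ Θ := by
    rw [hΘ]
    have h1 : K * A ≤ A ^ 2 * K ^ 5 := by
      calc K * A = A * 1 * (K * 1) := by ring
        _ ≤ A * A * (K * K ^ 4) := by gcongr
        _ = _ := by ring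
    have : 0 ≤ A ^ 2 * K ^ 5 := by positivity
    nlinarith
  have h36 : 36 * A * K ^ 3 ≤ Θ := by
    rw [hΘ]
    have h1 : A * K ^ 3 ≤ A ^ 2 * K ^ 5 := by
      calc A * K ^ 3 = A * 1 * (K ^ 3 * 1) := by ring
        _ ≤ A * A * (K ^ 3 * K ^ 2) := by
            have : 1 ≤ K ^ 2 := one_le_pow₀ hK
            gcongr
        _ = _ := by ring
    have : 0 ≤ A ^ 2 * K ^ 5 := by positivity
    nlinarith
  have hΘ4 : Θ ^ 4 ≤ W := (pow_le_pow_right₀ hΘ1 (by rw [hN]; omega)).trans hΘW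
  have hΘ1W : Θ ≤ W := by
    calc Θ = Θ ^ 1 := (pow_one _).symm
      _ ≤ Θ ^ N := pow_le_pow_right₀ hΘ1 (by rw [hN]; omega)
      _ ≤ W := hΘW
  have hW0 : 0 < W := by linarith
  have hL : 1 ≤ L := by linarith
  have hL0 : 0 < L := by linarith
  -- the separation radius
  obtain ⟨r₀, hr₀⟩ : ∃ r₀ : ℝ, r₀ = Θ ^ (-(1 / S)) := ⟨_, rfl⟩
  have hr₀0 : 0 < r₀ := by rw [hr₀]; positivity
  have hr₀S : r₀ ^ S = 1 / Θ := by
    rw [hr₀, ← Real.rpow_mul hΘ0.le, neg_mul, one_div_mul_cancel hS.ne', Real.rpow_neg_one, one_div]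
  have hr₀1 : r₀ ≤ 1 := by
    rw [hr₀]
    exact Real.rpow_le_one_of_one_le_of_nonpos hΘ1 (by
      have : 0 < 1 / S := by positivity
      linarith)
  have hWr₀ : 1 ≤ W * r₀ := by
    have h1 : Θ ^ (1 / S) ≤ W := by
      calc Θ ^ (1 / S) ≤ Θ ^ (N : ℝ) := by
            apply Real.rpow_le_rpow_of_exponent_le hΘ1
            rw [hN]
            push_cast
            have := Nat.le_ceil (1 / S)
            linarith
        _ = Θ ^ N := Real.rpow_natCast _ _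
        _ ≤ W := hΘW
    rw [hr₀, Real.rpow_neg hΘ0.le, ← div_eq_mul_inv, le_div_iff₀ (by positivity), one_mul]
    exact h1
  have hr₀L : 1 / L ≤ r₀ := by
    rw [div_le_iff₀ hL0]
    calc (1 : ℝ) ≤ W * r₀ := hWr₀
      _ ≤ L * r₀ := by gcongr
      _ = r₀ * L := mul_comm _ _
  have hr₀' : 576 * A ^ 2 * K ^ 5 * r₀ ^ S ≤ 1 := by
    rw [← hΘ, hr₀S, mul_one_div_cancel hΘ0.ne']
  obtain ⟨d₁, d₂, D₃, P₃, hne, h12, h3, hfr, hP⟩ :=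
    re6_core_graph_aux L K S A r₀ Pt vel pal m hL hK hA1 h D₁ ϖ hϖ hpal hup hlo hmass hr₀L hr₀1 hr₀'
  have hsepW : ∀ t : ℝ, r₀ < t → 1 ≤ W * t := fun t ht => hWr₀.trans (by gcongr)
  have hQ0 : 0 ≤ 144 * A * K ^ 4 := by positivity
  have hKA0 : 0 ≤ K * A := by positivity
  have hc128 : 128 * (144 * A * K ^ 4) ^ 3 * (K * A) ≤ W := by
    calc 128 * (144 * A * K ^ 4) ^ 3 * (K * A) = (144 * A * K ^ 4) ^ 3 * (128 * (K * A)) := by ring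
      _ ≤ Θ ^ 3 * Θ := by gcongr
      _ = Θ ^ 4 := by ring
      _ ≤ W := hΘ4
  have hc8 : 8 * (144 * A * K ^ 4) ^ 3 * (K * A) ≤ W := by
    refine le_trans ?_ hc128
    have : 0 ≤ (144 * A * K ^ 4) ^ 3 * (K * A) := by positivity
    nlinarith
  refine ⟨d₁, d₂, D₃, P₃, hne, hsepW _ h12, fun d hd => ⟨hsepW _ (h3 d hd).1, hsepW _ (h3 d hd).2⟩, ?_, ?_⟩
  · intro x r hr1 hr2
    have hr0 : 0 < r := lt_of_lt_of_le (by positivity) hr1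
    refine (hfr x r hr1 hr2).trans ?_
    gcongr
  · intro d hd
    obtain ⟨g1, g2, g3⟩ := hP d hd
    refine ⟨g1, g2.trans (by gcongr), fun p hp => ?_⟩
    obtain ⟨k1, k2, k3, k4⟩ := g3 p hp
    refine ⟨k1, k2, k3, k4.trans ?_⟩
    have : 0 ≤ ∑ d', m p d' := sum_nonneg fun i _ => h.hm0 p i
    have h36W := h36.trans hΘ1W
    gcongr

end Claimed.Agent.R252

end PkRe6CoreB

section PkRe6CoreC

/-!
# Row 252, unit Re6.  CONTRACT `CoreC`: the planar graph data of L a06:row-fit (06a l.641-690).   Architect helper183.  Leaf L-252-RE6-CORE-PLANAR.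

`v₁, v₂` basis slopes, `ι` = retained third directions (uniform law), `κ i = (vel i - v₁)/(v₂ - vel i)`, endpoints = rounded projections.
FIELDS of `Re6Planar`.
* bounds: `|re6Pr v p| ≤ K L + K · K L`, rounding `+1`.      * `hAhi, hBhi`: the two covers.      * `1/(2K²) ≤ |κ| ≤ 2K²`.
* `hFr`: `1 + κ = (v₂ - v₁)/(v₂ - vel)`, `|1 + κ| ≥ 1/(2K²)`, MOEBIUS: `vel i - vel i' = (v₂ - v₁)(κ i - κ i')/((1 + κ i)(1 + κ i'))`, so `|vel i - vel i'| ≤ 8 K⁵ |κ i - κ i'|`: `{i : |κ i - x| ≤ r}` lies in a ball of radius `16 K⁵ r` about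
  one of its `vel`; if `16 K⁵ r > 1` use the trivial bound.
* multiplicity: `(a₁, b₁) = (⌊Z - v₁ t⌋, ⌊Z - v₂ t⌋)` confines `t (v₂ - v₁)` to an interval of length `2`: `≤ 2K+1` values of `t`, then `≤ 2` values of `Z`, then `≤ K` cells (fibres): `≤ 6 K²` points.   Gives `hcap` and `hGlo`.
* `hsum`: `re6Pr v₁ p + κ • re6Pr v₂ p = (1 + κ) • re6Pr (vel i) p` (because `v₁ + κ v₂ = (1 + κ) vel i`); `re6_card_pert` (radius `1 + |κ|`), `re6_card_smul`.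
-/

set_option autoImplicit false

namespace Claimed.Agent.R252

open Finset

theorem re6_cp_abs_floor (x : ℝ) : |((⌊x⌋ : ℤ) : ℝ)| ≤ |x| + 1 := by
  have h1 := Int.floor_le x
  have h2 := Int.lt_floor_add_one x
  have h3 := le_abs_self x
  have h4 := neg_abs_le x
  rw [abs_le]
  constructor <;> linarith

/-- bounds of the rounded projections -/
theorem re6_cp_bd (L K v : ℝ) (p : (ℤ × ℤ) × (ℤ × ℤ)) (hL : 1 ≤ L) (hK : 1 ≤ K) (hv : |v| ≤ K)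
    (hp : |(p.1.1 : ℝ)| ≤ K * L ∧ |(p.1.2 : ℝ)| ≤ K * L ∧ |(p.2.1 : ℝ)| ≤ K * L ∧ |(p.2.2 : ℝ)| ≤ K * L) :
    |((re6Rd (re6Pr v p)).1 : ℝ)| ≤ 3 * K ^ 2 * L ∧ |((re6Rd (re6Pr v p)).2 : ℝ)| ≤ 3 * K ^ 2 * L := by
  obtain ⟨h1, h2, h3, h4⟩ := hp
  have hKL : 0 ≤ K * L := by positivity
  have hKK : K * L ≤ K ^ 2 * L := by nlinarith [mul_nonneg (sub_nonneg.2 hK) (by positivity : (0:ℝ) ≤ K * L)]
  have h1L : 1 ≤ K ^ 2 * L := by nlinarith [mul_nonneg (sub_nonneg.2 hK) (sub_nonneg.2 hL)]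
  have m1 : |v * (p.1.1 : ℝ)| ≤ K ^ 2 * L := by
    rw [abs_mul]
    calc |v| * |(p.1.1 : ℝ)| ≤ K * (K * L) := mul_le_mul hv h1 (abs_nonneg _) (by positivity)
      _ = K ^ 2 * L := by ring
  have m2 : |v * (p.2.2 : ℝ)| ≤ K ^ 2 * L := by
    rw [abs_mul]
    calc |v| * |(p.2.2 : ℝ)| ≤ K * (K * L) := mul_le_mul hv h4 (abs_nonneg _) (by positivity)
      _ = K ^ 2 * L := by ring
  constructor
  · have e : ((re6Rd (re6Pr v p)).1 : ℝ) = ((⌊(p.1.2 : ℝ) - v * p.1.1⌋ : ℤ) : ℝ) := by rw [re6Rd, re6Pr]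
    rw [e]
    refine (re6_cp_abs_floor _).trans ?_
    have := abs_sub (p.1.2 : ℝ) (v * p.1.1)
    linarith
  · have e : ((re6Rd (re6Pr v p)).2 : ℝ) = ((⌊(p.2.1 : ℝ) + v * p.2.2⌋ : ℤ) : ℝ) := by rw [re6Rd, re6Pr]
    rw [e]
    refine (re6_cp_abs_floor _).trans ?_
    have := abs_add_le (p.2.1 : ℝ) (v * p.2.2)
    linarith

/-- integers in an interval of length `2 R` -/
theorem re6_cp_int_card (s : Finset ℤ) (c R : ℝ) (hR : 0 ≤ R) (h : ∀ t ∈ s, |(t : ℝ) - c| ≤ R) : (#s : ℝ) ≤ 2 * R + 1 := by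
  have hsub : s ⊆ Icc ⌈c - R⌉ ⌊c + R⌋ := by
    intro t ht
    have h1 := abs_le.1 (h t ht)
    rw [mem_Icc]
    exact ⟨Int.ceil_le.2 (by linarith), Int.le_floor.2 (by linarith)⟩
  have h1 : (#s : ℝ) ≤ (#(Icc ⌈c - R⌉ ⌊c + R⌋) : ℝ) := by exact_mod_cast card_le_card hsub
  refine h1.trans ?_
  rw [Int.card_Icc]
  rcases le_total (⌊c + R⌋ + 1 - ⌈c - R⌉) 0 with hz | hz
  · rw [Int.toNat_of_nonpos hz]
    simp only [Nat.cast_zero]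
    linarith
  · have e1 : (((⌊c + R⌋ + 1 - ⌈c - R⌉).toNat : ℤ) : ℝ) = ((⌊c + R⌋ + 1 - ⌈c - R⌉ : ℤ) : ℝ) := by
      rw [Int.toNat_of_nonneg hz]
    have e2 : (((⌊c + R⌋ + 1 - ⌈c - R⌉).toNat : ℤ) : ℝ) = ((⌊c + R⌋ + 1 - ⌈c - R⌉).toNat : ℝ) := by
      push_cast
      rfl
    rw [← e2, e1]
    push_cast
    have a1 := Int.floor_le (c + R)
    have a2 := Int.le_ceil (c - R)
    linarith

theorem re6_cp_fst (v : ℝ) (p : (ℤ × ℤ) × (ℤ × ℤ)) : (re6Rd (re6Pr v p)).1 = ⌊(p.1.2 : ℝ) - v * p.1.1⌋ := by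
  rw [re6Rd, re6Pr]

/-- multiplicity of the first coordinates of the two rounded projections -/
theorem re6_cp_mult (K v₁ v₂ : ℝ) (Pt : Finset ((ℤ × ℤ) × (ℤ × ℤ))) (hK : 1 ≤ K) (hv : 1 ≤ K * |v₁ - v₂|)
    (hfib : ∀ q : ℤ × ℤ, (#{p ∈ Pt | p.1 = q} : ℝ) ≤ K) (m n : ℤ) :
    (#{p ∈ Pt | (re6Rd (re6Pr v₁ p)).1 = m ∧ (re6Rd (re6Pr v₂ p)).1 = n} : ℝ) ≤ 3 * K ^ 2 := by
  classical
  obtain ⟨T, hT⟩ : ∃ T : Finset ((ℤ × ℤ) × (ℤ × ℤ)),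
    T = {p ∈ Pt | (re6Rd (re6Pr v₁ p)).1 = m ∧ (re6Rd (re6Pr v₂ p)).1 = n} := ⟨_, rfl⟩
  rw [← hT]
  have hK0 : 0 < K := lt_of_lt_of_le one_pos hK
  have hmem : ∀ p ∈ T, ((m : ℝ) ≤ (p.1.2 : ℝ) - v₁ * p.1.1 ∧ (p.1.2 : ℝ) - v₁ * p.1.1 < m + 1) ∧
      ((n : ℝ) ≤ (p.1.2 : ℝ) - v₂ * p.1.1 ∧ (p.1.2 : ℝ) - v₂ * p.1.1 < n + 1) := by
    intro p hp
    rw [hT, mem_filter, re6_cp_fst, re6_cp_fst] at hp
    exact ⟨Int.floor_eq_iff.1 hp.2.1, Int.floor_eq_iff.1 hp.2.2⟩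
  -- fibres over the position
  have s1 : #T ≤ ⌊K⌋₊ * #(T.image fun p => p.1) := by
    refine Finset.card_le_mul_card_image _ _ fun q _ => ?_
    refine Nat.le_floor ?_
    refine le_trans ?_ (hfib q)
    have : #{p ∈ T | p.1 = q} ≤ #{p ∈ Pt | p.1 = q} := card_le_card (fun p hp => by
      rw [mem_filter] at hp ⊢
      rw [hT] at hp
      exact ⟨(mem_filter.1 hp.1).1, hp.2⟩)
    exact_mod_cast this
  -- the position is determined by its first coordinate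
  have s2 : #((T.image fun p => p.1).image fun q => q.1) = #(T.image fun p => p.1) := by
    refine card_image_of_injOn ?_
    intro q hq q' hq' hqq
    obtain ⟨p, hp, rfl⟩ := mem_image.1 (mem_coe.1 hq)
    obtain ⟨p', hp', rfl⟩ := mem_image.1 (mem_coe.1 hq')
    have hqq' : p.1.1 = p'.1.1 := hqq
    have a := (hmem p hp).1
    have a' := (hmem p' hp').1
    rw [← hqq'] at a'
    have b1 : ((p.1.2 - p'.1.2 : ℤ) : ℝ) < ((1 : ℤ) : ℝ) := by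
      push_cast
      linarith [a.1, a.2, a'.1, a'.2]
    have b2 : ((-1 : ℤ) : ℝ) < ((p.1.2 - p'.1.2 : ℤ) : ℝ) := by
      push_cast
      linarith [a.1, a.2, a'.1, a'.2]
    have c1 := Int.cast_lt.1 b1
    have c2 := Int.cast_lt.1 b2
    exact Prod.ext hqq' (by omega)
  -- the first coordinate lies in a short interval
  have hw : 0 < |v₂ - v₁| := by
    rw [abs_sub_comm]
    by_contra hc
    have : |v₁ - v₂| = 0 := le_antisymm (not_lt.1 hc) (abs_nonneg _)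
    rw [this, mul_zero] at hv
    linarith
  have hwne : v₂ - v₁ ≠ 0 := abs_pos.1 hw
  have s3 : (#((T.image fun p => p.1).image fun q => q.1) : ℝ) ≤ 2 * K + 1 := by
    refine re6_cp_int_card _ (((m : ℝ) - n) / (v₂ - v₁)) K hK0.le ?_
    intro t ht
    obtain ⟨q, hq, rfl⟩ := mem_image.1 ht
    obtain ⟨p, hp, rfl⟩ := mem_image.1 hq
    have a := hmem p hp
    have e : (p.1.1 : ℝ) - ((m : ℝ) - n) / (v₂ - v₁) = ((v₂ - v₁) * p.1.1 - ((m : ℝ) - n)) / (v₂ - v₁) := by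
      field_simp
    rw [e, abs_div, div_le_iff₀ hw]
    have h1 : |(v₂ - v₁) * (p.1.1 : ℝ) - ((m : ℝ) - n)| ≤ 1 := by
      rw [abs_le]
      constructor <;> nlinarith [a.1.1, a.1.2, a.2.1, a.2.2]
    rw [abs_sub_comm v₂ v₁]
    exact h1.trans hv
  have hfl : ((⌊K⌋₊ : ℕ) : ℝ) ≤ K := Nat.floor_le hK0.le
  calc (#T : ℝ) ≤ ((⌊K⌋₊ * #(T.image fun p => p.1) : ℕ) : ℝ) := by exact_mod_cast s1
    _ = ((⌊K⌋₊ : ℕ) : ℝ) * #((T.image fun p => p.1).image fun q => q.1) := by rw [s2]; push_cast; ring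
    _ ≤ K * (2 * K + 1) := mul_le_mul hfl s3 (Nat.cast_nonneg _) hK0.le
    _ ≤ 3 * K ^ 2 := by nlinarith

theorem re6_cp_pos_of {K x : ℝ} (hK : 1 ≤ K) (h : 1 ≤ K * |x|) : 1 / K ≤ |x| ∧ 0 < |x| ∧ x ≠ 0 := by
  have hK0 : 0 < K := lt_of_lt_of_le one_pos hK
  have h1 : 1 / K ≤ |x| := by
    rw [div_le_iff₀ hK0, mul_comm]
    exact h
  have h2 : 0 < |x| := lt_of_lt_of_le (by positivity) h1
  exact ⟨h1, h2, abs_pos.1 h2⟩

theorem re6_cp_abs_sub_le {K x y : ℝ} (hx : |x| ≤ K) (hy : |y| ≤ K) : |x - y| ≤ 2 * K := by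
  have := abs_sub x y
  linarith

/-- the parameter `κ = (w - v₁)/(v₂ - w)` -/
theorem re6_cp_kappa (K v₁ v₂ w : ℝ) (hK : 1 ≤ K) (hv₁ : |v₁| ≤ K) (hv₂ : |v₂| ≤ K) (hw : |w| ≤ K)
    (h1 : 1 ≤ K * |w - v₁|) (h2 : 1 ≤ K * |w - v₂|) :
    1 / (2 * K ^ 2) ≤ |(w - v₁) / (v₂ - w)| ∧ |(w - v₁) / (v₂ - w)| ≤ 2 * K ^ 2 ∧ |1 + (w - v₁) / (v₂ - w)| ≤ 2 * K ^ 2 ∧
      v₁ + (w - v₁) / (v₂ - w) * v₂ = (1 + (w - v₁) / (v₂ - w)) * w := by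
  have hK0 : 0 < K := lt_of_lt_of_le one_pos hK
  rw [abs_sub_comm w v₂] at h2
  obtain ⟨a1, a2, a3⟩ := re6_cp_pos_of hK h1
  obtain ⟨b1, b2, b3⟩ := re6_cp_pos_of hK h2
  have a4 : |w - v₁| ≤ 2 * K := re6_cp_abs_sub_le hw hv₁
  have b4 : |v₂ - w| ≤ 2 * K := re6_cp_abs_sub_le hv₂ hw
  have c4 : |v₂ - v₁| ≤ 2 * K := re6_cp_abs_sub_le hv₂ hv₁
  have hb : 2 * K ≤ 2 * K ^ 2 * |v₂ - w| := by
    calc 2 * K = 2 * K * 1 := (mul_one _).symm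
      _ ≤ 2 * K * (K * |v₂ - w|) := mul_le_mul_of_nonneg_left h2 (by positivity)
      _ = 2 * K ^ 2 * |v₂ - w| := by ring
  refine ⟨?_, ?_, ?_, ?_⟩
  · rw [abs_div, le_div_iff₀ b2]
    calc 1 / (2 * K ^ 2) * |v₂ - w| ≤ 1 / (2 * K ^ 2) * (2 * K) := mul_le_mul_of_nonneg_left b4 (by positivity)
      _ = 1 / K := by field_simp
      _ ≤ |w - v₁| := a1
  · rw [abs_div, div_le_iff₀ b2]
    exact a4.trans hb
  · have e : 1 + (w - v₁) / (v₂ - w) = (v₂ - v₁) / (v₂ - w) := by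
      field_simp
      ring
    rw [e, abs_div, div_le_iff₀ b2]
    exact c4.trans hb
  · field_simp
    ring

/-- Moebius: the slopes are Lipschitz functions of the parameters -/
theorem re6_cp_moebius (K v₁ v₂ w w' : ℝ) (hK : 1 ≤ K) (hv₂ : |v₂| ≤ K) (hw : |w| ≤ K) (hw' : |w'| ≤ K)
    (hv : 1 ≤ K * |v₁ - v₂|) (h2 : 1 ≤ K * |w - v₂|) (h2' : 1 ≤ K * |w' - v₂|) :
    |w - w'| ≤ 4 * K ^ 3 * |(w - v₁) / (v₂ - w) - (w' - v₁) / (v₂ - w')| := by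
  have hK0 : 0 < K := lt_of_lt_of_le one_pos hK
  rw [abs_sub_comm w v₂] at h2
  rw [abs_sub_comm w' v₂] at h2'
  rw [abs_sub_comm v₁ v₂] at hv
  obtain ⟨-, b2, b3⟩ := re6_cp_pos_of hK h2
  obtain ⟨-, b2', b3'⟩ := re6_cp_pos_of hK h2'
  have b4 : |v₂ - w| ≤ 2 * K := re6_cp_abs_sub_le hv₂ hw
  have b4' : |v₂ - w'| ≤ 2 * K := re6_cp_abs_sub_le hv₂ hw'
  have e : (w - v₁) / (v₂ - w) - (w' - v₁) / (v₂ - w') = (v₂ - v₁) * (w - w') / ((v₂ - w) * (v₂ - w')) := by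
    field_simp
    ring
  rw [e, abs_div, abs_mul, abs_mul, mul_div_assoc', le_div_iff₀ (mul_pos b2 b2')]
  have h0 : 0 ≤ |w - w'| := abs_nonneg _
  calc |w - w'| * (|v₂ - w| * |v₂ - w'|) ≤ |w - w'| * ((2 * K) * (2 * K)) :=
        mul_le_mul_of_nonneg_left (mul_le_mul b4 b4' (abs_nonneg _) (by positivity)) h0
    _ = |w - w'| * (4 * K ^ 2) * 1 := by ring
    _ ≤ |w - w'| * (4 * K ^ 2) * (K * |v₂ - v₁|) := mul_le_mul_of_nonneg_left hv (by positivity)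
    _ = 4 * K ^ 3 * (|v₂ - v₁| * |w - w'|) := by ring

/-- the Frostman condition of the parameters -/
theorem re6_cp_frost {ι : Type} [Fintype ι] [Nonempty ι] (L K S v₁ v₂ : ℝ) (vel : ι → ℝ) (n : ℕ) (hn : S ≤ n) (hS : 0 < S)
    (hL : 1 ≤ L) (hK : 1 ≤ K) (hv₂ : |v₂| ≤ K) (hvel : ∀ i, |vel i| ≤ K) (hv : 1 ≤ K * |v₁ - v₂|)
    (hvi : ∀ i, 1 ≤ K * |vel i - v₂|)
    (hfr : ∀ x r : ℝ, 1 / L ≤ r → r ≤ 1 → (#{i | |vel i - x| ≤ r} : ℝ) ≤ K * r ^ S * Fintype.card ι) :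
    RW.KfFrost (fun _ : ι => 1 / (Fintype.card ι : ℝ)) (fun i => (vel i - v₁) / (v₂ - vel i)) (8 ^ n * K ^ (3 * n + 1)) S (1 / L) := by
  classical
  intro z r hr hr1
  have hK0 : 0 < K := lt_of_lt_of_le one_pos hK
  have hL0 : 0 < L := lt_of_lt_of_le one_pos hL
  have hr0 : 0 < r := lt_of_lt_of_le (by positivity) hr
  have hcard : (0 : ℝ) < Fintype.card ι := by exact_mod_cast Fintype.card_pos
  rw [Finset.sum_const, nsmul_eq_mul, mul_one_div, div_le_iff₀ hcard]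
  have hrS : 0 < r ^ S := Real.rpow_pos_of_pos hr0 _
  rcases (Finset.univ.filter fun i : ι => dist ((vel i - v₁) / (v₂ - vel i)) z ≤ r).eq_empty_or_nonempty with h | ⟨i', hi'⟩
  · rw [h, card_empty, Nat.cast_zero]
    positivity
  have hsub : (Finset.univ.filter fun i : ι => dist ((vel i - v₁) / (v₂ - vel i)) z ≤ r)
      ⊆ Finset.univ.filter fun i : ι => |vel i - vel i'| ≤ 8 * K ^ 3 * r := by
    intro i hi
    rw [mem_filter] at hi hi' ⊢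
    refine ⟨mem_univ _, ?_⟩
    have h1 := hi.2
    have h2 := hi'.2
    rw [Real.dist_eq] at h1 h2
    have h3 : |(vel i - v₁) / (v₂ - vel i) - (vel i' - v₁) / (v₂ - vel i')| ≤ 2 * r := by
      have := abs_sub_le ((vel i - v₁) / (v₂ - vel i)) z ((vel i' - v₁) / (v₂ - vel i'))
      rw [abs_sub_comm z] at this
      linarith
    calc |vel i - vel i'| ≤ 4 * K ^ 3 * |(vel i - v₁) / (v₂ - vel i) - (vel i' - v₁) / (v₂ - vel i')| :=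
          re6_cp_moebius K v₁ v₂ (vel i) (vel i') hK hv₂ (hvel i) (hvel i') hv (hvi i) (hvi i')
      _ ≤ 4 * K ^ 3 * (2 * r) := mul_le_mul_of_nonneg_left h3 (by positivity)
      _ = 8 * K ^ 3 * r := by ring
  have h8 : 1 ≤ 8 * K ^ 3 := by
    have : 1 ≤ K ^ 3 := one_le_pow₀ hK
    linarith
  have hpow : (8 * K ^ 3 * r) ^ S ≤ 8 ^ n * K ^ (3 * n) * r ^ S := by
    rw [Real.mul_rpow (by positivity) hr0.le]
    refine mul_le_mul_of_nonneg_right ?_ hrS.le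
    calc (8 * K ^ 3) ^ S ≤ (8 * K ^ 3) ^ (n : ℝ) := Real.rpow_le_rpow_of_exponent_le h8 hn
      _ = (8 * K ^ 3) ^ n := Real.rpow_natCast _ _
      _ = 8 ^ n * K ^ (3 * n) := by rw [mul_pow, ← pow_mul]
  have hcnt : (#(Finset.univ.filter fun i : ι => |vel i - vel i'| ≤ 8 * K ^ 3 * r) : ℝ)
      ≤ K * (8 * K ^ 3 * r) ^ S * Fintype.card ι := by
    by_cases hbig : 8 * K ^ 3 * r ≤ 1
    · exact hfr (vel i') (8 * K ^ 3 * r) (hr.trans (le_mul_of_one_le_left hr0.le h8)) hbig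
    · push Not at hbig
      have h1 : 1 ≤ (8 * K ^ 3 * r) ^ S := Real.one_le_rpow hbig.le hS.le
      have h2 : (#(Finset.univ.filter fun i : ι => |vel i - vel i'| ≤ 8 * K ^ 3 * r) : ℝ) ≤ Fintype.card ι := by
        exact_mod_cast card_le_univ _
      calc (#(Finset.univ.filter fun i : ι => |vel i - vel i'| ≤ 8 * K ^ 3 * r) : ℝ) ≤ 1 * 1 * Fintype.card ι := by
            rw [one_mul, one_mul]; exact h2
        _ ≤ K * (8 * K ^ 3 * r) ^ S * Fintype.card ι :=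
            mul_le_mul_of_nonneg_right (mul_le_mul hK h1 zero_le_one hK0.le) hcard.le
  calc (#(Finset.univ.filter fun i : ι => dist ((vel i - v₁) / (v₂ - vel i)) z ≤ r) : ℝ)
      ≤ (#(Finset.univ.filter fun i : ι => |vel i - vel i'| ≤ 8 * K ^ 3 * r) : ℝ) := by
        exact_mod_cast card_le_card hsub
    _ ≤ K * (8 * K ^ 3 * r) ^ S * Fintype.card ι := hcnt
    _ ≤ K * (8 ^ n * K ^ (3 * n) * r ^ S) * Fintype.card ι :=
        mul_le_mul_of_nonneg_right (mul_le_mul_of_nonneg_left hpow hK0.le) hcard.le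
    _ = 8 ^ n * K ^ (3 * n + 1) * r ^ S * Fintype.card ι := by ring

theorem re6_cp_floor_comb (κ x y : ℝ) : |((⌊x⌋ : ℤ) : ℝ) + κ * ((⌊y⌋ : ℤ) : ℝ) - (x + κ * y)| ≤ 1 + |κ| := by
  have hx : |((⌊x⌋ : ℤ) : ℝ) - x| ≤ 1 := by
    rw [abs_le]
    constructor <;> linarith [Int.floor_le x, Int.lt_floor_add_one x]
  have hy : |((⌊y⌋ : ℤ) : ℝ) - y| ≤ 1 := by
    rw [abs_le]
    constructor <;> linarith [Int.floor_le y, Int.lt_floor_add_one y]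
  have e : ((⌊x⌋ : ℤ) : ℝ) + κ * ((⌊y⌋ : ℤ) : ℝ) - (x + κ * y) = (((⌊x⌋ : ℤ) : ℝ) - x) + κ * (((⌊y⌋ : ℤ) : ℝ) - y) := by ring
  rw [e]
  refine (abs_add_le _ _).trans ?_
  rw [abs_mul]
  have : |κ| * |((⌊y⌋ : ℤ) : ℝ) - y| ≤ |κ| * 1 := mul_le_mul_of_nonneg_left hy (abs_nonneg _)
  linarith

/-- the cells of `a + κ b` -/
theorem re6_cp_sum (L K v₁ v₂ w : ℝ) (P : Finset ((ℤ × ℤ) × (ℤ × ℤ))) (hL : 1 ≤ L) (hK : 1 ≤ K) (hv₁ : |v₁| ≤ K) (hv₂ : |v₂| ≤ K)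
    (hw : |w| ≤ K) (h1 : 1 ≤ K * |w - v₁|) (h2 : 1 ≤ K * |w - v₂|)
    (hc : (#(P.image fun p => re6Rd (re6Pr w p)) : ℝ) ≤ K * L) :
    (#((P.image fun p => (re6Rd (re6Pr v₁ p), re6Rd (re6Pr v₂ p))).image (re6Cl ((w - v₁) / (v₂ - w)))) : ℝ)
      ≤ 1296 * K ^ 9 * L := by
  classical
  obtain ⟨-, k2, k3, k4⟩ := re6_cp_kappa K v₁ v₂ w hK hv₁ hv₂ hw h1 h2
  obtain ⟨κ, hκ⟩ : ∃ κ : ℝ, κ = (w - v₁) / (v₂ - w) := ⟨_, rfl⟩
  rw [← hκ] at k2 k3 k4 ⊢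
  have hK0 : 0 < K := lt_of_lt_of_le one_pos hK
  have hL0 : 0 < L := lt_of_lt_of_le one_pos hL
  rw [image_image]
  have e : (re6Cl κ ∘ fun p : (ℤ × ℤ) × (ℤ × ℤ) => (re6Rd (re6Pr v₁ p), re6Rd (re6Pr v₂ p)))
      = fun p => re6Rd (re6Emb (re6Rd (re6Pr v₁ p)) + κ • re6Emb (re6Rd (re6Pr v₂ p))) := by
    funext p
    rw [Function.comp, re6Cl]
  rw [e]
  have p1 := re6_card_pert P (fun p => re6Emb (re6Rd (re6Pr v₁ p)) + κ • re6Emb (re6Rd (re6Pr v₂ p)))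
    (fun p => (1 + κ) • re6Pr w p) (1 + |κ|) (by positivity) (fun p _ => by
      constructor
      · have a := re6_cp_floor_comb κ ((p.1.2 : ℝ) - v₁ * p.1.1) ((p.1.2 : ℝ) - v₂ * p.1.1)
        have b : ((p.1.2 : ℝ) - v₁ * p.1.1) + κ * ((p.1.2 : ℝ) - v₂ * p.1.1) = (1 + κ) * ((p.1.2 : ℝ) - w * p.1.1) := by
          linear_combination (-(p.1.1 : ℝ)) * k4
        rw [b] at a
        simpa [re6Emb, re6Rd, re6Pr] using a
      · have a := re6_cp_floor_comb κ ((p.2.1 : ℝ) + v₁ * p.2.2) ((p.2.1 : ℝ) + v₂ * p.2.2)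
        have b : ((p.2.1 : ℝ) + v₁ * p.2.2) + κ * ((p.2.1 : ℝ) + v₂ * p.2.2) = (1 + κ) * ((p.2.1 : ℝ) + w * p.2.2) := by
          linear_combination ((p.2.2 : ℝ)) * k4
        rw [b] at a
        simpa [re6Emb, re6Rd, re6Pr] using a)
  have p2 := re6_card_smul P (fun p => re6Pr w p) (1 + κ)
  have hK2 : 1 ≤ K ^ 2 := one_le_pow₀ hK
  have q1 : (2 * (1 + |κ|) + 3) ^ 2 ≤ 81 * K ^ 4 := by
    have : 2 * (1 + |κ|) + 3 ≤ 9 * K ^ 2 := by linarith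
    calc (2 * (1 + |κ|) + 3) ^ 2 ≤ (9 * K ^ 2) ^ 2 := pow_le_pow_left₀ (by positivity) this 2
      _ = 81 * K ^ 4 := by ring
  have q2 : (|1 + κ| + 2) ^ 2 ≤ 16 * K ^ 4 := by
    have : |1 + κ| + 2 ≤ 4 * K ^ 2 := by linarith
    calc (|1 + κ| + 2) ^ 2 ≤ (4 * K ^ 2) ^ 2 := pow_le_pow_left₀ (by positivity) this 2
      _ = 16 * K ^ 4 := by ring
  calc (#(P.image fun p => re6Rd (re6Emb (re6Rd (re6Pr v₁ p)) + κ • re6Emb (re6Rd (re6Pr v₂ p)))) : ℝ)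
      ≤ (2 * (1 + |κ|) + 3) ^ 2 * #(P.image fun p => re6Rd ((1 + κ) • re6Pr w p)) := p1
    _ ≤ (2 * (1 + |κ|) + 3) ^ 2 * ((|1 + κ| + 2) ^ 2 * #(P.image fun p => re6Rd (re6Pr w p))) :=
        mul_le_mul_of_nonneg_left p2 (by positivity)
    _ ≤ (81 * K ^ 4) * ((16 * K ^ 4) * (K * L)) :=
        mul_le_mul q1 (mul_le_mul q2 hc (Nat.cast_nonneg _) (by positivity)) (by positivity) (by positivity)
    _ = 1296 * K ^ 9 * L := by ring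

theorem re6_cp_dom (C : ℕ) (K a : ℝ) (b : ℕ) (hK : 1 ≤ K) (ha : a ≤ C) (hb : b ≤ C) : a * K ^ b ≤ C * K ^ C := by
  have h1 : K ^ b ≤ K ^ C := pow_le_pow_right₀ hK hb
  have h0 : 0 < K ^ b := pow_pos (lt_of_lt_of_le one_pos hK) _
  calc a * K ^ b ≤ C * K ^ b := mul_le_mul_of_nonneg_right ha h0.le
    _ ≤ C * K ^ C := mul_le_mul_of_nonneg_left h1 (Nat.cast_nonneg _)

theorem re6_core_planar (S : ℝ) (hS : 0 < S) : ∃ C : ℕ, ∀ (L K v₁ v₂ : ℝ) (ι : Type) [Fintype ι] [Nonempty ι] (vel : ι → ℝ)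
    (Pt : Finset ((ℤ × ℤ) × (ℤ × ℤ))) (P₃ : ι → Finset ((ℤ × ℤ) × (ℤ × ℤ))), 1 ≤ L → 1 ≤ K → |v₁| ≤ K → |v₂| ≤ K → (∀ i, |vel i| ≤ K) →
    1 ≤ K * |v₁ - v₂| → (∀ i, 1 ≤ K * |vel i - v₁| ∧ 1 ≤ K * |vel i - v₂|) →
    (∀ p ∈ Pt, |(p.1.1 : ℝ)| ≤ K * L ∧ |(p.1.2 : ℝ)| ≤ K * L ∧ |(p.2.1 : ℝ)| ≤ K * L ∧ |(p.2.2 : ℝ)| ≤ K * L) →
    (∀ q : ℤ × ℤ, (#{p ∈ Pt | p.1 = q} : ℝ) ≤ K) → (∀ i, P₃ i ⊆ Pt ∧ L ^ 2 ≤ K * #(P₃ i)) →
    (#((univ.biUnion P₃).image fun p => re6Rd (re6Pr v₁ p)) : ℝ) ≤ K * L →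
    (#((univ.biUnion P₃).image fun p => re6Rd (re6Pr v₂ p)) : ℝ) ≤ K * L →
    (∀ i, (#((P₃ i).image fun p => re6Rd (re6Pr (vel i) p)) : ℝ) ≤ K * L) →
    (∀ x r : ℝ, 1 / L ≤ r → r ≤ 1 → (#{i | |vel i - x| ≤ r} : ℝ) ≤ K * r ^ S * Fintype.card ι) →
    Re6Planar L (C * K ^ C) S ((univ.biUnion P₃).image fun p => re6Rd (re6Pr v₁ p)) ((univ.biUnion P₃).image fun p => re6Rd (re6Pr v₂ p))
      (fun _ : ι => 1 / (Fintype.card ι : ℝ)) (fun i => (vel i - v₁) / (v₂ - vel i))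
      (fun i => (P₃ i).image fun p => (re6Rd (re6Pr v₁ p), re6Rd (re6Pr v₂ p))) := by
  classical
  obtain ⟨n, hn⟩ : ∃ n : ℕ, S ≤ n := ⟨⌈S⌉₊, Nat.le_ceil S⟩
  obtain ⟨C, hC⟩ : ∃ C : ℕ, C = 1296 + 8 ^ n + 3 * n + 9 := ⟨_, rfl⟩
  refine ⟨C, ?_⟩
  intro L K v₁ v₂ ι _ _ vel Pt P₃ hL hK hv₁ hv₂ hvel hv hvi hbd hfib hP3 hc1 hc2 hc3 hfr
  have hK0 : 0 < K := lt_of_lt_of_le one_pos hK
  have hL0 : 0 < L := lt_of_lt_of_le one_pos hL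
  have hCr : (C : ℝ) = 1296 + 8 ^ n + 3 * n + 9 := by rw [hC]; push_cast; ring
  have hCn : 3 * n + 9 ≤ C := by
    rw [hC]
    generalize 8 ^ n = E
    omega
  have h8 : (0 : ℝ) < 8 ^ n := by positivity
  have hn0 : (0 : ℝ) ≤ n := Nat.cast_nonneg _
  have dom : ∀ (a : ℝ) (b : ℕ), a ≤ C → b ≤ C → a * K ^ b ≤ C * K ^ C := fun a b ha hb => re6_cp_dom C K a b hK ha hb
  have d1 : K ≤ C * K ^ C := by
    have := dom 1 1 (by rw [hCr]; linarith) (by omega)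
    rwa [one_mul, pow_one] at this
  have d2 : 3 * K ^ 2 ≤ C * K ^ C := dom 3 2 (by rw [hCr]; linarith) (by omega)
  have d2' : 2 * K ^ 2 ≤ C * K ^ C := dom 2 2 (by rw [hCr]; linarith) (by omega)
  have d3 : 3 * K ^ 3 ≤ C * K ^ C := dom 3 3 (by rw [hCr]; linarith) (by omega)
  have d4 : 1296 * K ^ 9 ≤ C * K ^ C := dom 1296 9 (by rw [hCr]; linarith) (by omega)
  have d5 : 8 ^ n * K ^ (3 * n + 1) ≤ C * K ^ C := dom (8 ^ n) (3 * n + 1) (by rw [hCr]; linarith) (by omega)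
  have hKt : 0 < (C : ℝ) * K ^ C := lt_of_lt_of_le hK0 d1
  have hmemPt : ∀ p ∈ univ.biUnion P₃, p ∈ Pt := by
    intro p hp
    obtain ⟨i, -, hi⟩ := mem_biUnion.1 hp
    exact (hP3 i).1 hi
  have hcard : (0 : ℝ) < Fintype.card ι := by exact_mod_cast Fintype.card_pos
  have hmult := re6_cp_mult K v₁ v₂ Pt hK hv hfib
  exact
    { hAbd := by
        intro a ha
        obtain ⟨p, hp, rfl⟩ := mem_image.1 ha
        have := re6_cp_bd L K v₁ p hL hK hv₁ (hbd p (hmemPt p hp))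
        exact ⟨this.1.trans (mul_le_mul_of_nonneg_right d2 hL0.le), this.2.trans (mul_le_mul_of_nonneg_right d2 hL0.le)⟩
      hBbd := by
        intro a ha
        obtain ⟨p, hp, rfl⟩ := mem_image.1 ha
        have := re6_cp_bd L K v₂ p hL hK hv₂ (hbd p (hmemPt p hp))
        exact ⟨this.1.trans (mul_le_mul_of_nonneg_right d2 hL0.le), this.2.trans (mul_le_mul_of_nonneg_right d2 hL0.le)⟩
      hAhi := hc1.trans (mul_le_mul_of_nonneg_right d1 hL0.le)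
      hBhi := hc2.trans (mul_le_mul_of_nonneg_right d1 hL0.le)
      hν0 := fun _ => by positivity
      hν1 := by
        rw [Finset.sum_const, card_univ, nsmul_eq_mul, mul_one_div, div_self hcard.ne']
      hκlo := by
        intro i
        refine le_trans ?_ (re6_cp_kappa K v₁ v₂ (vel i) hK hv₁ hv₂ (hvel i) (hvi i).1 (hvi i).2).1
        exact one_div_le_one_div_of_le (by positivity) d2'
      hκhi := fun i => (re6_cp_kappa K v₁ v₂ (vel i) hK hv₁ hv₂ (hvel i) (hvi i).1 (hvi i).2).2.1.trans d2'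
      hFr := by
        intro z r hr hr1
        have hr0 : 0 < r := lt_of_lt_of_le (by positivity) hr
        exact (re6_cp_frost L K S v₁ v₂ vel n hn hS hL hK hv₂ hvel hv (fun i => (hvi i).2) hfr z r hr hr1).trans
          (mul_le_mul_of_nonneg_right d5 (Real.rpow_nonneg hr0.le _))
      hGsub := by
        intro i g hg
        obtain ⟨p, hp, rfl⟩ := mem_image.1 hg
        have hp' : p ∈ univ.biUnion P₃ := mem_biUnion.2 ⟨i, mem_univ _, hp⟩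
        exact mem_product.2 ⟨mem_image_of_mem _ hp', mem_image_of_mem _ hp'⟩
      hGlo := by
        intro i
        rw [div_le_iff₀ hKt]
        have s1 : #(P₃ i) ≤ ⌊3 * K ^ 2⌋₊ * #((P₃ i).image fun p => (re6Rd (re6Pr v₁ p), re6Rd (re6Pr v₂ p))) := by
          refine Finset.card_le_mul_card_image _ _ fun g _ => ?_
          refine Nat.le_floor ?_
          refine le_trans ?_ (hmult g.1.1 g.2.1)
          have : #{p ∈ P₃ i | (re6Rd (re6Pr v₁ p), re6Rd (re6Pr v₂ p)) = g}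
              ≤ #{p ∈ Pt | (re6Rd (re6Pr v₁ p)).1 = g.1.1 ∧ (re6Rd (re6Pr v₂ p)).1 = g.2.1} := card_le_card (fun p hp => by
            rw [mem_filter] at hp ⊢
            refine ⟨(hP3 i).1 hp.1, ?_, ?_⟩
            · rw [← hp.2]
            · rw [← hp.2])
          exact_mod_cast this
        have hfl : ((⌊3 * K ^ 2⌋₊ : ℕ) : ℝ) ≤ 3 * K ^ 2 := Nat.floor_le (by positivity)
        have s2 : (#(P₃ i) : ℝ) ≤ 3 * K ^ 2 * #((P₃ i).image fun p => (re6Rd (re6Pr v₁ p), re6Rd (re6Pr v₂ p))) := by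
          calc (#(P₃ i) : ℝ) ≤ ((⌊3 * K ^ 2⌋₊ * #((P₃ i).image fun p => (re6Rd (re6Pr v₁ p), re6Rd (re6Pr v₂ p))) : ℕ) : ℝ) := by
                exact_mod_cast s1
            _ = ((⌊3 * K ^ 2⌋₊ : ℕ) : ℝ) * #((P₃ i).image fun p => (re6Rd (re6Pr v₁ p), re6Rd (re6Pr v₂ p))) := by push_cast; ring
            _ ≤ _ := mul_le_mul_of_nonneg_right hfl (Nat.cast_nonneg _)
        calc L ^ 2 ≤ K * #(P₃ i) := (hP3 i).2
          _ ≤ K * (3 * K ^ 2 * #((P₃ i).image fun p => (re6Rd (re6Pr v₁ p), re6Rd (re6Pr v₂ p)))) :=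
              mul_le_mul_of_nonneg_left s2 hK0.le
          _ = 3 * K ^ 3 * #((P₃ i).image fun p => (re6Rd (re6Pr v₁ p), re6Rd (re6Pr v₂ p))) := by ring
          _ ≤ C * K ^ C * #((P₃ i).image fun p => (re6Rd (re6Pr v₁ p), re6Rd (re6Pr v₂ p))) :=
              mul_le_mul_of_nonneg_right d3 (Nat.cast_nonneg _)
          _ = _ := mul_comm _ _
      hsum := fun i => (re6_cp_sum L K v₁ v₂ (vel i) (P₃ i) hL hK hv₁ hv₂ (hvel i) (hvi i).1 (hvi i).2 (hc3 i)).trans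
        (mul_le_mul_of_nonneg_right d4 hL0.le)
      hcap := by
        intro i m n'
        refine le_trans ?_ ((hmult m n').trans d2)
        have : #{g ∈ (P₃ i).image fun p => (re6Rd (re6Pr v₁ p), re6Rd (re6Pr v₂ p)) | g.1.1 = m ∧ g.2.1 = n'}
            ≤ #{p ∈ Pt | (re6Rd (re6Pr v₁ p)).1 = m ∧ (re6Rd (re6Pr v₂ p)).1 = n'} := by
          refine le_trans (card_le_card ?_) (card_image_le (f := fun p => (re6Rd (re6Pr v₁ p), re6Rd (re6Pr v₂ p))))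
          intro g hg
          rw [mem_filter] at hg
          obtain ⟨p, hp, rfl⟩ := mem_image.1 hg.1
          exact mem_image_of_mem _ (mem_filter.2 ⟨(hP3 i).1 hp, hg.2⟩)
        exact_mod_cast this }

end Claimed.Agent.R252

end PkRe6CoreC

section PkRe6Core

/-!
# Row 252, unit Re6.  CONTRACT `Core`: the finite core of L a06:row-fit.   Architect helper183.
Leaves L-252-RE6-CORE-REC (`re6_core_recover`), L-252-RE6-CORE-COEFF (`re6_core_coeff`), L-252-RE6-CORE (`re6_core`, GLUE).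

RECOVER (algebra).  `a = re6Rd (re6Pr v₁ p)`: `a₁ = Z - v₁ t - f₁`, `a₂ = V₁ + v₁ V₂ - f₂`, `f ∈ [0,1)`.   So `V₁ + v_i V₂ = c_i + lam (Z - v_i t) + e_i`, `|e_i| ≤ 2 M + 1`.   Subtract: `V₂ = B₂ - lam t + (e₁ - e₂)/(v₁ - v₂)`,
`B₂ = (cA - cB)/(v₁ - v₂)`;  `V₁ = B₁ + lam Z + ...`, `B₁ = cA - v₁ B₂`.   (`λ₀ = - lam`, `J(t,Z) = (-Z,t)`.)
COEFF.  two points of `Sel`: `|λ₀| |Z - Z'|, |λ₀| |t - t'| ≤ 2 Rb + 2 M`: the positions of `Sel` lie in a square of side `ℓ = (2Rb + 2M)/|λ₀|`: `≤ (ℓ+1)²` positions, each of mass `≤ ∑_d K pal d / L² ≤ K/L²` (`hcap`).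
`1/M ≤ K (ℓ+1)²/L²`, so `ℓ ≥ L/(2 √(K M))` when `L ≥ 2 √(K M)`.   Then `|B₁| ≤ Rb + |λ₀| K L + M`.
CORE.  `K₁ = max K (log L)`…: apply `re6_core_graph` (needs `log L ≤ K₁ ≤ L^τ`), `re6_core_planar` with `ι = {d // d ∈ D₃}`, the covers from `hcov` at `d₁, d₂, d` (monotonicity: `P₃ d ⊆ {p ∈ Pt | 0 < m p d}`), `re6_rigid S τ''`,
`Sel = {p ∈ P₃ i₀ | (a(p), b(p)) ∈ Γ'}`, `#Sel ≥ #Γ'`, each point of mass `≥ 1/(C K^C L²)`; `re6_core_recover`.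
-/

set_option autoImplicit false

namespace Claimed.Agent.R252

open Finset

theorem re6_core_recover_aux (M v lam c t Z V₁ V₂ : ℝ) (hM : 1 ≤ M) (hlam : |lam| ≤ M)
    (hA : |((⌊V₁ + v * V₂⌋ : ℤ) : ℝ) - lam * (⌊Z - v * t⌋ : ℤ) - c| ≤ M) :
    |V₁ + v * V₂ - lam * (Z - v * t) - c| ≤ 3 * M := by
  have f1 := Int.floor_le (V₁ + v * V₂)
  have f2 := Int.lt_floor_add_one (V₁ + v * V₂)
  have g1 := Int.floor_le (Z - v * t)
  have g2 := Int.lt_floor_add_one (Z - v * t)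
  obtain ⟨a, ha⟩ : ∃ a : ℝ, a = ((⌊V₁ + v * V₂⌋ : ℤ) : ℝ) := ⟨_, rfl⟩
  obtain ⟨b, hb⟩ : ∃ b : ℝ, b = ((⌊Z - v * t⌋ : ℤ) : ℝ) := ⟨_, rfl⟩
  rw [← ha, ← hb] at hA
  rw [← ha] at f1 f2
  rw [← hb] at g1 g2
  have h1 : |lam * (Z - v * t - b)| ≤ M := by
    rw [abs_mul]
    have : |Z - v * t - b| ≤ 1 := by
      rw [abs_le]
      constructor <;> linarith
    calc |lam| * |Z - v * t - b| ≤ M * 1 := mul_le_mul hlam this (abs_nonneg _) (by linarith)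
      _ = M := mul_one _
  rw [abs_le] at hA h1 ⊢
  constructor <;> nlinarith [hA.1, hA.2, h1.1, h1.2]

theorem re6_core_recover (K M v₁ v₂ lam cA cB : ℝ) (p : (ℤ × ℤ) × (ℤ × ℤ)) (hK : 1 ≤ K) (hM : 1 ≤ M) (hv₁ : |v₁| ≤ K) (hv₂ : |v₂| ≤ K)
    (hv : 1 ≤ K * |v₁ - v₂|) (hlam : |lam| ≤ M)
    (hA : |((re6Rd (re6Pr v₁ p)).2 : ℝ) - lam * (re6Rd (re6Pr v₁ p)).1 - cA| ≤ M)
    (hB : |((re6Rd (re6Pr v₂ p)).2 : ℝ) - lam * (re6Rd (re6Pr v₂ p)).1 - cB| ≤ M) :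
    |(p.2.1 : ℝ) - (cA - v₁ * ((cA - cB) / (v₁ - v₂))) + (-lam) * p.1.2| ≤ 20 * K ^ 2 * M ∧
    |(p.2.2 : ℝ) - (cA - cB) / (v₁ - v₂) - (-lam) * p.1.1| ≤ 20 * K ^ 2 * M := by
  obtain ⟨t, ht⟩ : ∃ t : ℝ, t = (p.1.1 : ℝ) := ⟨_, rfl⟩
  obtain ⟨Z, hZ⟩ : ∃ Z : ℝ, Z = (p.1.2 : ℝ) := ⟨_, rfl⟩
  obtain ⟨V₁, hV₁⟩ : ∃ V₁ : ℝ, V₁ = (p.2.1 : ℝ) := ⟨_, rfl⟩
  obtain ⟨V₂, hV₂⟩ : ∃ V₂ : ℝ, V₂ = (p.2.2 : ℝ) := ⟨_, rfl⟩
  have e1 := re6_core_recover_aux M v₁ lam cA t Z V₁ V₂ hM hlam (by rw [ht, hZ, hV₁, hV₂]; exact hA)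
  have e2 := re6_core_recover_aux M v₂ lam cB t Z V₁ V₂ hM hlam (by rw [ht, hZ, hV₁, hV₂]; exact hB)
  rw [← ht, ← hZ, ← hV₁, ← hV₂]
  have hK0 : 0 < K := by linarith
  have hM0 : 0 < M := by linarith
  have hw : v₁ - v₂ ≠ 0 := by
    intro h0
    rw [h0, abs_zero, mul_zero] at hv
    linarith
  obtain ⟨g, hg⟩ : ∃ g : ℝ, g = V₂ - (cA - cB) / (v₁ - v₂) - (-lam) * t := ⟨_, rfl⟩
  have hgw : g * (v₁ - v₂) = (V₁ + v₁ * V₂ - lam * (Z - v₁ * t) - cA) - (V₁ + v₂ * V₂ - lam * (Z - v₂ * t) - cB) := by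
    rw [hg]
    field_simp
    ring
  have hgw' : |g| * |v₁ - v₂| ≤ 6 * M := by
    rw [← abs_mul, hgw]
    refine (abs_sub _ _).trans ?_
    linarith
  have hg6 : |g| ≤ 6 * K * M := by
    calc |g| = |g| * 1 := (mul_one _).symm
      _ ≤ |g| * (K * |v₁ - v₂|) := mul_le_mul_of_nonneg_left hv (abs_nonneg _)
      _ = K * (|g| * |v₁ - v₂|) := by ring
      _ ≤ K * (6 * M) := mul_le_mul_of_nonneg_left hgw' hK0.le
      _ = 6 * K * M := by ring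
  have hKK : K ≤ K ^ 2 := by nlinarith
  have hKM : K * M ≤ K ^ 2 * M := mul_le_mul_of_nonneg_right hKK hM0.le
  have hMM : M ≤ K ^ 2 * M := by nlinarith
  constructor
  · have e : V₁ - (cA - v₁ * ((cA - cB) / (v₁ - v₂))) + (-lam) * Z = (V₁ + v₁ * V₂ - lam * (Z - v₁ * t) - cA) - v₁ * g := by
      rw [hg]
      ring
    rw [e]
    refine (abs_sub _ _).trans ?_
    rw [abs_mul]
    have : |v₁| * |g| ≤ K * (6 * K * M) := mul_le_mul hv₁ hg6 (abs_nonneg _) hK0.le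
    nlinarith
  · rw [← hg]
    nlinarith

theorem re6_core_coeff_mass {D : Type} [Fintype D] (L K S : ℝ) (Pt Sel : Finset ((ℤ × ℤ) × (ℤ × ℤ))) (vel pal : D → ℝ)
    (m : (ℤ × ℤ) × (ℤ × ℤ) → D → ℝ) (hL : 0 < L) (hK : 1 ≤ K) (h : Re6Core L K S Pt vel pal m) (hSel : Sel ⊆ Pt) :
    ∑ p ∈ Sel, ∑ d, m p d ≤ #(Sel.image Prod.fst) * (K / L ^ 2) := by
  rw [← Finset.sum_fiberwise_of_maps_to (g := Prod.fst) (t := Sel.image Prod.fst) (fun p hp => Finset.mem_image_of_mem _ hp)]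
  rw [← nsmul_eq_mul]
  refine Finset.sum_le_card_nsmul _ _ _ ?_
  intro q _
  rw [Finset.sum_comm]
  calc ∑ d, ∑ p ∈ Sel with p.1 = q, m p d ≤ ∑ d, K * pal d / L ^ 2 := by
        refine Finset.sum_le_sum fun d _ => ?_
        refine le_trans ?_ (h.hcap q d)
        exact Finset.sum_le_sum_of_subset_of_nonneg (Finset.filter_subset_filter _ hSel) (fun p _ _ => h.hm0 p d)
    _ = K / L ^ 2 * ∑ d, pal d := by
        rw [Finset.mul_sum]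
        exact Finset.sum_congr rfl fun d _ => by ring
    _ ≤ K / L ^ 2 * 1 := mul_le_mul_of_nonneg_left h.hpal1 (by positivity)
    _ = K / L ^ 2 := mul_one _

theorem re6_core_coeff_int (a b : ℤ) (ℓ : ℝ) (h : |(a : ℝ) - b| ≤ ℓ) : a ∈ Finset.Icc (b - ⌊ℓ⌋) (b + ⌊ℓ⌋) := by
  rw [abs_le] at h
  rw [Finset.mem_Icc]
  have h1 : a - b ≤ ⌊ℓ⌋ := Int.le_floor.2 (by push_cast; linarith [h.2])
  have h2 : b - a ≤ ⌊ℓ⌋ := Int.le_floor.2 (by push_cast; linarith [h.1])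
  constructor <;> linarith

theorem re6_core_coeff_box (Q : Finset (ℤ × ℤ)) (q₀ : ℤ × ℤ) (ℓ : ℝ) (hℓ : 0 ≤ ℓ)
    (h : ∀ q ∈ Q, |(q.1 : ℝ) - q₀.1| ≤ ℓ ∧ |(q.2 : ℝ) - q₀.2| ≤ ℓ) : (#Q : ℝ) ≤ (2 * ℓ + 1) ^ 2 := by
  have hsub : Q ⊆ Finset.Icc (q₀.1 - ⌊ℓ⌋) (q₀.1 + ⌊ℓ⌋) ×ˢ Finset.Icc (q₀.2 - ⌊ℓ⌋) (q₀.2 + ⌊ℓ⌋) := by
    intro q hq
    obtain ⟨h1, h2⟩ := h q hq
    exact Finset.mem_product.2 ⟨re6_core_coeff_int _ _ _ h1, re6_core_coeff_int _ _ _ h2⟩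
  have hc := Finset.card_le_card hsub
  rw [Finset.card_product, Int.card_Icc, Int.card_Icc] at hc
  have hf0 : 0 ≤ ⌊ℓ⌋ := Int.floor_nonneg.2 hℓ
  have e1 : (q₀.1 + ⌊ℓ⌋ + 1 - (q₀.1 - ⌊ℓ⌋)).toNat = (2 * ⌊ℓ⌋ + 1).toNat := by congr 1; ring
  have e2 : (q₀.2 + ⌊ℓ⌋ + 1 - (q₀.2 - ⌊ℓ⌋)).toNat = (2 * ⌊ℓ⌋ + 1).toNat := by congr 1; ring
  rw [e1, e2] at hc
  have hc' : (#Q : ℝ) ≤ ((2 * ⌊ℓ⌋ + 1).toNat : ℝ) * ((2 * ⌊ℓ⌋ + 1).toNat : ℝ) := by exact_mod_cast hc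
  have e3 : (((2 * ⌊ℓ⌋ + 1).toNat : ℤ) : ℝ) = ((2 * ⌊ℓ⌋ + 1 : ℤ) : ℝ) := by
    rw [Int.toNat_of_nonneg (by linarith)]
  have e4 : ((2 * ⌊ℓ⌋ + 1).toNat : ℝ) = 2 * (⌊ℓ⌋ : ℝ) + 1 := by
    rw [← Int.cast_natCast, e3]
    push_cast
    ring
  rw [e4] at hc'
  have hfl := Int.floor_le ℓ
  have hf0' : (0 : ℝ) ≤ (⌊ℓ⌋ : ℝ) := by exact_mod_cast hf0
  refine hc'.trans ?_
  rw [sq]
  exact mul_le_mul (by linarith) (by linarith) (by linarith) (by linarith)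

theorem re6_core_coeff_diff (lam B M Rb x x₀ y y₀ : ℝ) (hy : |y| ≤ Rb) (hy₀ : |y₀| ≤ Rb)
    (h : |y - B - lam * x| ≤ M) (h₀ : |y₀ - B - lam * x₀| ≤ M) : |lam| * |x - x₀| ≤ 2 * Rb + 2 * M := by
  rw [← abs_mul]
  rw [abs_le] at *
  constructor <;> nlinarith [hy.1, hy.2, hy₀.1, hy₀.2, h.1, h.2, h₀.1, h₀.2]

theorem re6_core_coeff : ∃ C : ℕ, ∀ (L K M Rb S B₁ B₂ lam₀ : ℝ) (D : Type) [Fintype D] (Pt Sel : Finset ((ℤ × ℤ) × (ℤ × ℤ))) (vel pal : D → ℝ)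
    (m : (ℤ × ℤ) × (ℤ × ℤ) → D → ℝ), 1 ≤ K → 1 ≤ M → 1 ≤ Rb → C * (K * M) ^ C ≤ L → Re6Core L K S Pt vel pal m → Sel ⊆ Pt →
    1 / M ≤ ∑ p ∈ Sel, ∑ d, m p d → (∀ p ∈ Sel, |(p.2.1 : ℝ)| ≤ Rb ∧ |(p.2.2 : ℝ)| ≤ Rb) →
    (∀ p ∈ Sel, |(p.2.1 : ℝ) - B₁ + lam₀ * p.1.2| ≤ M ∧ |(p.2.2 : ℝ) - B₂ - lam₀ * p.1.1| ≤ M) →
    |lam₀| ≤ C * (K * M) ^ C * Rb / L ∧ |B₁| ≤ C * (K * M) ^ C * Rb ∧ |B₂| ≤ C * (K * M) ^ C * Rb := by
  refine ⟨18, ?_⟩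
  intro L K M Rb S B₁ B₂ lam₀ D _ Pt Sel vel pal m hK hM hRb hL h hSel hmass hRbd hfit
  obtain ⟨X, hX⟩ : ∃ X : ℝ, X = K * M := ⟨_, rfl⟩
  rw [← hX] at hL ⊢
  push_cast at hL ⊢
  have hX1 : 1 ≤ X := by rw [hX]; nlinarith
  have hKX : K ≤ X := by rw [hX]; nlinarith
  have hMX : M ≤ X := by rw [hX]; nlinarith
  have hX3 : X ^ 3 ≤ X ^ 18 := pow_le_pow_right₀ hX1 (by norm_num)
  have hX2 : X ^ 2 ≤ X ^ 3 := pow_le_pow_right₀ hX1 (by norm_num)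
  have hXX : X ≤ X ^ 2 := by nlinarith
  have hL0 : 0 < L := by linarith
  have hM0 : 0 < M := by linarith
  have hne : Sel.Nonempty := by
    rw [Finset.nonempty_iff_ne_empty]
    intro h0
    rw [h0, Finset.sum_empty] at hmass
    have : 0 < 1 / M := by positivity
    linarith
  obtain ⟨p₀, hp₀⟩ := hne
  have hlam : |lam₀| ≤ 16 * X ^ 2 * Rb / L := by
    by_cases hl0 : lam₀ = 0
    · rw [hl0, abs_zero]
      positivity
    have hl : 0 < |lam₀| := abs_pos.2 hl0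
    obtain ⟨ℓ, hℓ⟩ : ∃ ℓ : ℝ, ℓ = (2 * Rb + 2 * M) / |lam₀| := ⟨_, rfl⟩
    have hℓ0 : 0 ≤ ℓ := by rw [hℓ]; positivity
    have hbox := re6_core_coeff_box (Sel.image Prod.fst) p₀.1 ℓ hℓ0 (by
      intro q hq
      obtain ⟨p, hp, rfl⟩ := Finset.mem_image.1 hq
      constructor
      · rw [hℓ, le_div_iff₀ hl, mul_comm]
        exact re6_core_coeff_diff lam₀ B₂ M Rb _ _ _ _ (hRbd p hp).2 (hRbd p₀ hp₀).2 (hfit p hp).2 (hfit p₀ hp₀).2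
      · rw [hℓ, le_div_iff₀ hl, mul_comm, ← abs_neg lam₀]
        refine re6_core_coeff_diff (-lam₀) B₁ M Rb _ _ _ _ (hRbd p hp).1 (hRbd p₀ hp₀).1 ?_ ?_
        · have := (hfit p hp).1
          rwa [show (p.2.1 : ℝ) - B₁ - -lam₀ * (p.1.2 : ℝ) = (p.2.1 : ℝ) - B₁ + lam₀ * p.1.2 by ring]
        · have := (hfit p₀ hp₀).1
          rwa [show (p₀.2.1 : ℝ) - B₁ - -lam₀ * (p₀.1.2 : ℝ) = (p₀.2.1 : ℝ) - B₁ + lam₀ * p₀.1.2 by ring])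
    have hms := hmass.trans (re6_core_coeff_mass L K S Pt Sel vel pal m hL0 hK h hSel)
    have h1 : 1 / M ≤ (2 * ℓ + 1) ^ 2 * (K / L ^ 2) := hms.trans (mul_le_mul_of_nonneg_right hbox (by positivity))
    have h2 : L ^ 2 ≤ (X * (2 * ℓ + 1)) ^ 2 := by
      have h3 : L ^ 2 ≤ X * (2 * ℓ + 1) ^ 2 := by
        rw [div_le_iff₀ hM0] at h1
        have e : (2 * ℓ + 1) ^ 2 * (K / L ^ 2) * M = X * (2 * ℓ + 1) ^ 2 / L ^ 2 := by
          rw [hX]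
          ring
        rw [e, le_div_iff₀ (by positivity), one_mul] at h1
        exact h1
      rw [mul_pow]
      exact h3.trans (mul_le_mul_of_nonneg_right hXX (by positivity))
    have h4 : L ≤ X * (2 * ℓ + 1) := by
      have := abs_le_of_sq_le_sq h2 (by positivity)
      exact (le_abs_self L).trans this
    have h5 : L / 2 ≤ 2 * X * ℓ := by nlinarith
    rw [hℓ, mul_div_assoc', le_div_iff₀ hl] at h5
    rw [le_div_iff₀ hL0]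
    have h6 : 2 * Rb + 2 * M ≤ 4 * (X * Rb) := by nlinarith
    have h7 : 2 * X * (2 * Rb + 2 * M) ≤ 2 * X * (4 * (X * Rb)) := mul_le_mul_of_nonneg_left h6 (by linarith)
    nlinarith
  have hRb0 : 0 < Rb := by linarith
  have hbig : ∀ z : ℝ, |z| ≤ K * L → |lam₀| * |z| ≤ 16 * X ^ 3 * Rb := by
    intro z hz
    calc |lam₀| * |z| ≤ (16 * X ^ 2 * Rb / L) * (K * L) := mul_le_mul hlam hz (abs_nonneg _) (by positivity)
      _ = 16 * X ^ 2 * K * Rb := by field_simp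
      _ ≤ 16 * X ^ 2 * X * Rb := by
          refine mul_le_mul_of_nonneg_right ?_ hRb0.le
          exact mul_le_mul_of_nonneg_left hKX (by positivity)
      _ = 16 * X ^ 3 * Rb := by ring
  have hX3R : X ^ 3 * Rb ≤ X ^ 18 * Rb := mul_le_mul_of_nonneg_right hX3 hRb0.le
  have hR1 : Rb ≤ X ^ 3 * Rb := by nlinarith
  have hM1 : M ≤ X ^ 3 * Rb := by nlinarith
  have hb := h.hbd p₀ (hSel hp₀)
  refine ⟨?_, ?_, ?_⟩
  · refine hlam.trans ?_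
    refine div_le_div_of_nonneg_right ?_ hL0.le
    nlinarith
  · have a1 := hbig _ hb.2.1
    rw [← abs_mul] at a1
    have a2 := (hfit p₀ hp₀).1
    have a3 := (hRbd p₀ hp₀).1
    rw [abs_le] at a1 a2 a3 ⊢
    constructor <;> linarith [a1.1, a1.2, a2.1, a2.2, a3.1, a3.2]
  · have a1 := hbig _ hb.1
    rw [← abs_mul] at a1
    have a2 := (hfit p₀ hp₀).2
    have a3 := (hRbd p₀ hp₀).2
    rw [abs_le] at a1 a2 a3 ⊢
    constructor <;> linarith [a1.1, a1.2, a2.1, a2.2, a3.1, a3.2]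

/-- `Re6Core` is monotone in the loss `K` -/
theorem re6_co_mono {D : Type} [Fintype D] {L K K' S : ℝ} {Pt : Finset ((ℤ × ℤ) × (ℤ × ℤ))} {vel pal : D → ℝ}
    {m : (ℤ × ℤ) × (ℤ × ℤ) → D → ℝ} (hL : 0 < L) (hK : 0 < K) (hKK : K ≤ K') (h : Re6Core L K S Pt vel pal m) :
    Re6Core L K' S Pt vel pal m where
  hm0 := h.hm0
  hmass := (one_div_le_one_div_of_le hK hKK).trans h.hmass
  hbd := fun p hp => by
    have hm : K * L ≤ K' * L := mul_le_mul_of_nonneg_right hKK hL.le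
    obtain ⟨h1, h2, h3, h4⟩ := h.hbd p hp
    exact ⟨h1.trans hm, h2.trans hm, h3.trans hm, h4.trans hm⟩
  hvel := fun d => (h.hvel d).trans hKK
  hD := h.hD.trans (mul_le_mul_of_nonneg_right hKK hL.le)
  hfib := fun q => (h.hfib q).trans hKK
  hcap := fun q d => (h.hcap q d).trans (by
    have : K * pal d ≤ K' * pal d := mul_le_mul_of_nonneg_right hKK (h.hpal0 d)
    exact div_le_div_of_nonneg_right this (by positivity))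
  hpal0 := h.hpal0
  hpal1 := h.hpal1
  hFr := fun z r hr hr1 => (h.hFr z r hr hr1).trans (by
    have hr0 : 0 < r := lt_of_lt_of_le (by positivity) hr
    exact mul_le_mul_of_nonneg_right hKK (Real.rpow_nonneg hr0.le _))
  hcov := fun d => (h.hcov d).trans (mul_le_mul_of_nonneg_right hKK hL.le)

/-- the count over a subtype -/
theorem re6_co_card_sub {D : Type} [Fintype D] (D₃ : Finset D) (P : D → Prop) [DecidablePred P] :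
    #(Finset.univ.filter fun i : {d // d ∈ D₃} => P i.1) = #(D₃.filter P) := by
  rw [Finset.card_filter, Finset.card_filter]
  exact Finset.sum_coe_sort D₃ fun d => if P d then 1 else 0

/-- `log L ≤ L ^ σ` for large `L` -/
theorem re6_co_log {σ L : ℝ} (hσ : 0 < σ) (hL : 1 ≤ L) (h : 2 / σ ≤ L ^ (σ / 2)) : Real.log L ≤ L ^ σ := by
  have hL0 : 0 < L := lt_of_lt_of_le one_pos hL
  have h1 := Real.log_le_rpow_div hL0.le (by positivity : 0 < σ / 2)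
  calc Real.log L ≤ L ^ (σ / 2) / (σ / 2) := h1
    _ = L ^ (σ / 2) * (2 / σ) := by field_simp
    _ ≤ L ^ (σ / 2) * L ^ (σ / 2) := mul_le_mul_of_nonneg_left h (by positivity)
    _ = L ^ σ := by
        rw [← Real.rpow_add hL0]
        congr 1
        ring

/-- the bookkeeping of the exponents -/
theorem re6_co_num (τ' τr ρ σ : ℝ) (Cg Cp : ℕ)
    (hρ1 : ρ * (Cp : ℝ) ≤ τr / 2) (hρ2 : ρ ≤ τ' / 8) (hσ : σ = ρ / (2 * (Cg + 1)))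
    (L K₁ : ℝ) (hL : 1 ≤ L) (hK₁ : 1 ≤ K₁) (hK₁L : K₁ ≤ L ^ σ)
    (q1 : (Cg : ℝ) + 1 ≤ L ^ (ρ / 2)) (q2 : (Cp : ℝ) ≤ L ^ (τr / 2)) (q3 : (20 : ℝ) ≤ L ^ (τ' / 4)) :
    Cg * K₁ ^ Cg + K₁ ≤ L ^ ρ ∧ Cp * (Cg * K₁ ^ Cg + K₁) ^ Cp ≤ L ^ τr ∧
      20 * (Cg * K₁ ^ Cg + K₁) ^ 2 * L ^ (τ' / 2) ≤ L ^ τ' := by
  have hL0 : 0 < L := lt_of_lt_of_le one_pos hL
  have hK0 : 0 < K₁ := lt_of_lt_of_le one_pos hK₁
  have b1 : K₁ ^ (Cg + 1) ≤ L ^ (ρ / 2) := by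
    have hpos : (0 : ℝ) < (Cg : ℝ) + 1 := by positivity
    calc K₁ ^ (Cg + 1) = K₁ ^ ((Cg : ℝ) + 1) := by
          rw [← Real.rpow_natCast]
          push_cast
          rfl
      _ ≤ (L ^ σ) ^ ((Cg : ℝ) + 1) := Real.rpow_le_rpow hK0.le hK₁L hpos.le
      _ = L ^ (ρ / 2) := by
          rw [← Real.rpow_mul hL0.le, hσ]
          congr 1
          field_simp
  have b2 : K₁ ^ Cg ≤ K₁ ^ (Cg + 1) := pow_le_pow_right₀ hK₁ (Nat.le_succ _)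
  have b3 : K₁ ≤ K₁ ^ (Cg + 1) := by
    calc K₁ = K₁ ^ 1 := (pow_one K₁).symm
      _ ≤ K₁ ^ (Cg + 1) := pow_le_pow_right₀ hK₁ (by omega)
  have b4 : (Cg : ℝ) * K₁ ^ Cg + K₁ ≤ L ^ ρ := by
    calc (Cg : ℝ) * K₁ ^ Cg + K₁ ≤ (Cg : ℝ) * K₁ ^ (Cg + 1) + K₁ ^ (Cg + 1) :=
          add_le_add (mul_le_mul_of_nonneg_left b2 (Nat.cast_nonneg _)) b3
      _ = ((Cg : ℝ) + 1) * K₁ ^ (Cg + 1) := by ring
      _ ≤ L ^ (ρ / 2) * L ^ (ρ / 2) := mul_le_mul q1 b1 (by positivity) (by positivity)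
      _ = L ^ ρ := by
          rw [← Real.rpow_add hL0]
          congr 1
          ring
  have hK₂0 : 0 ≤ (Cg : ℝ) * K₁ ^ Cg + K₁ := by positivity
  refine ⟨b4, ?_, ?_⟩
  · have c1 : ((Cg : ℝ) * K₁ ^ Cg + K₁) ^ Cp ≤ L ^ (τr / 2) := by
      calc ((Cg : ℝ) * K₁ ^ Cg + K₁) ^ Cp ≤ (L ^ ρ) ^ Cp := pow_le_pow_left₀ hK₂0 b4 _
        _ = L ^ (ρ * Cp) := by rw [← Real.rpow_natCast, ← Real.rpow_mul hL0.le]
        _ ≤ L ^ (τr / 2) := Real.rpow_le_rpow_of_exponent_le hL hρ1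
    calc (Cp : ℝ) * ((Cg : ℝ) * K₁ ^ Cg + K₁) ^ Cp ≤ L ^ (τr / 2) * L ^ (τr / 2) :=
          mul_le_mul q2 c1 (by positivity) (by positivity)
      _ = L ^ τr := by
          rw [← Real.rpow_add hL0]
          congr 1
          ring
  · have c1 : ((Cg : ℝ) * K₁ ^ Cg + K₁) ^ 2 ≤ L ^ (τ' / 4) := by
      calc ((Cg : ℝ) * K₁ ^ Cg + K₁) ^ 2 ≤ (L ^ ρ) ^ 2 := pow_le_pow_left₀ hK₂0 b4 _
        _ = L ^ (ρ * 2) := by rw [← Real.rpow_natCast, ← Real.rpow_mul hL0.le]; norm_num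
        _ ≤ L ^ (τ' / 4) := Real.rpow_le_rpow_of_exponent_le hL (by linarith)
    calc 20 * ((Cg : ℝ) * K₁ ^ Cg + K₁) ^ 2 * L ^ (τ' / 2) ≤ L ^ (τ' / 4) * L ^ (τ' / 4) * L ^ (τ' / 2) :=
          mul_le_mul_of_nonneg_right (mul_le_mul q3 c1 (by positivity) (by positivity)) (by positivity)
      _ = L ^ τ' := by
          rw [← Real.rpow_add hL0, ← Real.rpow_add hL0]
          congr 1
          ring

/-- **finite core of L a06:row-fit** -/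
theorem re6_core (S τ' : ℝ) (hS : 0 < S) (hτ' : 0 < τ') :
    ∃ τ L₀ : ℝ, 0 < τ ∧ 1 ≤ L₀ ∧ ∀ L K : ℝ, L₀ ≤ L → 1 ≤ K → K ≤ L ^ τ →
      ∀ (D : Type) [Fintype D] (Pt : Finset ((ℤ × ℤ) × (ℤ × ℤ))) (vel pal : D → ℝ) (m : (ℤ × ℤ) × (ℤ × ℤ) → D → ℝ),
        Re6Core L K S Pt vel pal m →
        ∃ (B₁ B₂ lam₀ : ℝ), ∃ Sel ⊆ Pt, L ^ (-τ') ≤ ∑ p ∈ Sel, ∑ d, m p d ∧
          ∀ p ∈ Sel, |(p.2.1 : ℝ) - B₁ + lam₀ * p.1.2| ≤ L ^ τ' ∧ |(p.2.2 : ℝ) - B₂ - lam₀ * p.1.1| ≤ L ^ τ' := by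
  classical
  obtain ⟨Cg, hgraph⟩ := re6_core_graph S hS
  obtain ⟨Cp, hplanar⟩ := re6_core_planar S hS
  obtain ⟨τr, Lr, hτr, hLr, hrig⟩ := re6_rigid S (τ' / 2) hS (by positivity)
  obtain ⟨ρ, hρ⟩ : ∃ ρ : ℝ, ρ = min (τr / (2 * (Cp + 1))) (min (τ' / 8) 1) := ⟨_, rfl⟩
  have hρ0 : 0 < ρ := by
    rw [hρ]
    exact lt_min (by positivity) (lt_min (by positivity) one_pos)
  have hρ1 : ρ * (Cp : ℝ) ≤ τr / 2 := by
    have h1 : ρ ≤ τr / (2 * (Cp + 1)) := hρ ▸ min_le_left _ _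
    have hc : (0 : ℝ) ≤ Cp := Nat.cast_nonneg _
    calc ρ * (Cp : ℝ) ≤ τr / (2 * (Cp + 1)) * Cp := mul_le_mul_of_nonneg_right h1 hc
      _ = τr / 2 * (Cp / (Cp + 1)) := by field_simp
      _ ≤ τr / 2 * 1 := by
          refine mul_le_mul_of_nonneg_left ?_ (by positivity)
          rw [div_le_one (by positivity)]
          linarith
      _ = τr / 2 := mul_one _
  have hρ2 : ρ ≤ τ' / 8 := hρ ▸ (min_le_right _ _).trans (min_le_left _ _)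
  have hρ3 : ρ ≤ 1 := hρ ▸ (min_le_right _ _).trans (min_le_right _ _)
  obtain ⟨σ, hσ⟩ : ∃ σ : ℝ, σ = ρ / (2 * (Cg + 1)) := ⟨_, rfl⟩
  have hσ0 : 0 < σ := by rw [hσ]; positivity
  refine ⟨σ, max (max 1 Lr) (max (((Cg : ℝ) + 1) ^ (1 / (ρ / 2))) (max ((2 / σ) ^ (1 / (σ / 2)))
    (max ((Cp : ℝ) ^ (1 / (τr / 2))) ((20 : ℝ) ^ (1 / (τ' / 4)))))), hσ0,
    le_trans (le_max_left _ _) (le_max_left _ _), ?_⟩
  intro L K hLL hK hKL D _ Pt vel pal m hC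
  have hL : 1 ≤ L := le_trans (le_trans (le_max_left _ _) (le_max_left _ _)) hLL
  have hL0 : 0 < L := lt_of_lt_of_le one_pos hL
  have hK0 : 0 < K := lt_of_lt_of_le one_pos hK
  have hLrL : Lr ≤ L := le_trans (le_trans (le_max_right _ _) (le_max_left _ _)) hLL
  have q1 : (Cg : ℝ) + 1 ≤ L ^ (ρ / 2) :=
    re6_rgd_le_rpow (by positivity) (by positivity) (le_trans (le_trans (le_max_left _ _) (le_max_right _ _)) hLL)
  have q0 : 2 / σ ≤ L ^ (σ / 2) :=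
    re6_rgd_le_rpow (by positivity) (by positivity)
      (le_trans (le_trans (le_trans (le_max_left _ _) (le_max_right _ _)) (le_max_right _ _)) hLL)
  have q2 : (Cp : ℝ) ≤ L ^ (τr / 2) :=
    re6_rgd_le_rpow (Nat.cast_nonneg _) (by positivity)
      (le_trans (le_trans (le_trans (le_trans (le_max_left _ _) (le_max_right _ _)) (le_max_right _ _)) (le_max_right _ _)) hLL)
  have q3 : (20 : ℝ) ≤ L ^ (τ' / 4) :=
    re6_rgd_le_rpow (by norm_num) (by positivity)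
      (le_trans (le_trans (le_trans (le_trans (le_max_right _ _) (le_max_right _ _)) (le_max_right _ _)) (le_max_right _ _)) hLL)
  -- the loss `K₁`
  obtain ⟨K₁, hK₁⟩ : ∃ K₁ : ℝ, K₁ = max K (Real.log L) := ⟨_, rfl⟩
  have hKK₁ : K ≤ K₁ := hK₁ ▸ le_max_left _ _
  have hlog : Real.log L ≤ K₁ := hK₁ ▸ le_max_right _ _
  have h1K₁ : 1 ≤ K₁ := hK.trans hKK₁
  have hK₁0 : 0 < K₁ := lt_of_lt_of_le one_pos h1K₁
  have hK₁L : K₁ ≤ L ^ σ := by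
    rw [hK₁]
    exact max_le hKL (re6_co_log hσ0 hL q0)
  obtain ⟨n1, n2, n3⟩ := re6_co_num τ' τr ρ σ Cg Cp hρ1 hρ2 hσ L K₁ hL h1K₁ hK₁L q1 q2 q3
  obtain ⟨Kg, hKg⟩ : ∃ Kg : ℝ, Kg = Cg * K₁ ^ Cg := ⟨_, rfl⟩
  obtain ⟨K₂, hK₂⟩ : ∃ K₂ : ℝ, K₂ = Kg + K₁ := ⟨_, rfl⟩
  rw [← hKg, ← hK₂] at n1 n2 n3
  have hKg0 : 0 ≤ Kg := by rw [hKg]; positivity
  have hKgK₂ : Kg ≤ K₂ := by rw [hK₂]; linarith
  have hK₁K₂ : K₁ ≤ K₂ := by rw [hK₂]; linarith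
  have h1K₂ : 1 ≤ K₂ := h1K₁.trans hK₁K₂
  have hK₂0 : 0 < K₂ := lt_of_lt_of_le one_pos h1K₂
  have hKgL : Kg ≤ L := by
    calc Kg ≤ L ^ ρ := hKgK₂.trans n1
      _ ≤ L ^ (1 : ℝ) := Real.rpow_le_rpow_of_exponent_le hL hρ3
      _ = L := Real.rpow_one L
  have hKgτ : Kg ≤ L ^ (τ' / 2) := by
    calc Kg ≤ L ^ ρ := hKgK₂.trans n1
      _ ≤ L ^ (τ' / 2) := Real.rpow_le_rpow_of_exponent_le hL (by linarith)
  have hC₁ : Re6Core L K₁ S Pt vel pal m := re6_co_mono hL0 hK0 hKK₁ hC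
  -- the graph
  obtain ⟨d₁, d₂, D₃, P₃, hD₃, hd12, hd3, hfr, hP₃⟩ := hgraph L K₁ D Pt vel pal m h1K₁ hlog (hKg ▸ hKgL) hC₁
  rw [← hKg] at hd12 hd3 hfr hP₃
  have : Nonempty {d // d ∈ D₃} := hD₃.to_subtype
  have up : ∀ x : ℝ, 0 ≤ x → Kg * x ≤ K₂ * x := fun x hx => mul_le_mul_of_nonneg_right hKgK₂ hx
  have up1 : K₁ * L ≤ K₂ * L := mul_le_mul_of_nonneg_right hK₁K₂ hL0.le
  have hPl := hplanar L K₂ (vel d₁) (vel d₂) {d // d ∈ D₃} (fun i => vel i.1) Pt (fun i => P₃ i.1) hL h1K₂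
    ((hC₁.hvel d₁).trans hK₁K₂) ((hC₁.hvel d₂).trans hK₁K₂) (fun i => (hC₁.hvel i.1).trans hK₁K₂)
    (hd12.trans (up _ (abs_nonneg _)))
    (fun i => ⟨(hd3 i.1 i.2).1.trans (up _ (abs_nonneg _)), (hd3 i.1 i.2).2.trans (up _ (abs_nonneg _))⟩)
    (fun p hp => by
      obtain ⟨h1, h2, h3, h4⟩ := hC₁.hbd p hp
      exact ⟨h1.trans up1, h2.trans up1, h3.trans up1, h4.trans up1⟩)
    (fun q => (hC₁.hfib q).trans hK₁K₂)
    (fun i => ⟨(hP₃ i.1 i.2).1, (hP₃ i.1 i.2).2.1.trans (up _ (Nat.cast_nonneg _))⟩)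
    (by
      refine le_trans ?_ ((hC₁.hcov d₁).trans up1)
      refine Nat.cast_le.2 (card_le_card (image_subset_image ?_))
      intro p hp
      obtain ⟨i, -, hi⟩ := mem_biUnion.1 hp
      exact mem_filter.2 ⟨(hP₃ i.1 i.2).1 hi, ((hP₃ i.1 i.2).2.2 p hi).1⟩)
    (by
      refine le_trans ?_ ((hC₁.hcov d₂).trans up1)
      refine Nat.cast_le.2 (card_le_card (image_subset_image ?_))
      intro p hp
      obtain ⟨i, -, hi⟩ := mem_biUnion.1 hp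
      exact mem_filter.2 ⟨(hP₃ i.1 i.2).1 hi, ((hP₃ i.1 i.2).2.2 p hi).2.1⟩)
    (fun i => by
      refine le_trans ?_ ((hC₁.hcov i.1).trans up1)
      refine Nat.cast_le.2 (card_le_card (image_subset_image ?_))
      intro p hp
      exact mem_filter.2 ⟨(hP₃ i.1 i.2).1 hp, ((hP₃ i.1 i.2).2.2 p hp).2.2.1⟩)
    (fun x r hr hr1 => by
      have hr0 : 0 < r := lt_of_lt_of_le (by positivity) hr
      rw [re6_co_card_sub D₃ fun d => |vel d - x| ≤ r, Fintype.card_coe]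
      refine (hfr x r hr hr1).trans ?_
      exact mul_le_mul_of_nonneg_right (up _ (Real.rpow_nonneg hr0.le _)) (Nat.cast_nonneg _))
  -- `1 ≤ Cp K₂ ^ Cp`
  have h1K₃ : (1 : ℝ) ≤ Cp * K₂ ^ Cp := by
    rcases Nat.eq_zero_or_pos Cp with h0 | hpos
    · exfalso
      obtain ⟨d, hd⟩ := hD₃
      have h1 := hPl.hAhi
      rw [h0, Nat.cast_zero, zero_mul, zero_mul] at h1
      have h2 : 0 < #(P₃ d) := by
        by_contra hc
        have h3 : #(P₃ d) = 0 := by omega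
        have h4 := (hP₃ d hd).2.1
        rw [h3, Nat.cast_zero, mul_zero] at h4
        have : 0 < L ^ 2 := by positivity
        linarith
      obtain ⟨p, hp⟩ := card_pos.1 h2
      have h5 : 0 < #((univ.biUnion fun i : {d // d ∈ D₃} => P₃ i.1).image fun p => re6Rd (re6Pr (vel d₁) p)) :=
        card_pos.2 ⟨_, mem_image_of_mem _ (mem_biUnion.2 ⟨⟨d, hd⟩, mem_univ _, hp⟩)⟩
      have h6 : (0 : ℝ) < #((univ.biUnion fun i : {d // d ∈ D₃} => P₃ i.1).image fun p => re6Rd (re6Pr (vel d₁) p)) := by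
        exact_mod_cast h5
      linarith
    · have h1 : (1 : ℝ) ≤ Cp := by exact_mod_cast hpos
      have h2 : (1 : ℝ) ≤ K₂ ^ Cp := one_le_pow₀ h1K₂
      calc (1 : ℝ) = 1 * 1 := (one_mul 1).symm
        _ ≤ Cp * K₂ ^ Cp := mul_le_mul h1 h2 zero_le_one (Nat.cast_nonneg _)
  -- rigidity
  obtain ⟨i₀, Γ', hΓ', lam, cA, cB, hcount, hlam, hfit⟩ := hrig L (Cp * K₂ ^ Cp) hLrL h1K₃ n2 _ _ _ _ _ _ hPl
  have hM1 : 1 ≤ L ^ (τ' / 2) := Real.one_le_rpow hL (by positivity)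
  refine ⟨cA - vel d₁ * ((cA - cB) / (vel d₁ - vel d₂)), (cA - cB) / (vel d₁ - vel d₂), -lam,
    {p ∈ P₃ i₀.1 | (re6Rd (re6Pr (vel d₁) p), re6Rd (re6Pr (vel d₂) p)) ∈ Γ'},
    (filter_subset _ _).trans (hP₃ i₀.1 i₀.2).1, ?_, ?_⟩
  · -- the mass
    obtain ⟨Sel, hSel⟩ : ∃ Sel : Finset ((ℤ × ℤ) × (ℤ × ℤ)),
      Sel = {p ∈ P₃ i₀.1 | (re6Rd (re6Pr (vel d₁) p), re6Rd (re6Pr (vel d₂) p)) ∈ Γ'} := ⟨_, rfl⟩
    rw [← hSel]
    have c1 : #Γ' ≤ #Sel := by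
      refine le_trans (card_le_card ?_)
        (card_image_le (s := Sel) (f := fun p => (re6Rd (re6Pr (vel d₁) p), re6Rd (re6Pr (vel d₂) p))))
      intro g hg
      obtain ⟨p, hp, rfl⟩ := mem_image.1 (hΓ' hg)
      exact mem_image_of_mem _ (hSel ▸ mem_filter.2 ⟨hp, hg⟩)
    have c2 : (#Sel : ℝ) ≤ Kg * L ^ 2 * ∑ p ∈ Sel, ∑ d, m p d := by
      rw [Finset.mul_sum, card_eq_sum_ones]
      push_cast
      refine Finset.sum_le_sum fun p hp => ?_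
      rw [hSel] at hp
      exact ((hP₃ i₀.1 i₀.2).2.2 p (mem_filter.1 hp).1).2.2.2
    have hSg : 0 ≤ ∑ p ∈ Sel, ∑ d, m p d := Finset.sum_nonneg fun p _ => Finset.sum_nonneg fun d _ => hC.hm0 p d
    have c3 : L ^ (2 - τ' / 2) ≤ L ^ (τ' / 2) * L ^ 2 * ∑ p ∈ Sel, ∑ d, m p d := by
      calc L ^ (2 - τ' / 2) ≤ (#Γ' : ℝ) := hcount
        _ ≤ (#Sel : ℝ) := by exact_mod_cast c1
        _ ≤ Kg * L ^ 2 * ∑ p ∈ Sel, ∑ d, m p d := c2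
        _ ≤ L ^ (τ' / 2) * L ^ 2 * ∑ p ∈ Sel, ∑ d, m p d :=
            mul_le_mul_of_nonneg_right (mul_le_mul_of_nonneg_right hKgτ (by positivity)) hSg
    have hpos : 0 < L ^ (τ' / 2) * L ^ 2 := by positivity
    have c4 : L ^ (-τ') * (L ^ (τ' / 2) * L ^ 2) = L ^ (2 - τ' / 2) := by
      rw [← Real.rpow_two, ← Real.rpow_add hL0, ← Real.rpow_add hL0]
      congr 1
      ring
    rw [← c4, mul_comm (L ^ (τ' / 2) * L ^ 2)] at c3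
    exact le_of_mul_le_mul_right c3 hpos
  · intro p hp
    have hg := (mem_filter.1 hp).2
    have h1 := hfit _ hg
    have h2 := re6_core_recover K₂ (L ^ (τ' / 2)) (vel d₁) (vel d₂) lam cA cB p h1K₂ hM1 ((hC₁.hvel d₁).trans hK₁K₂)
      ((hC₁.hvel d₂).trans hK₁K₂) (hd12.trans (up _ (abs_nonneg _))) hlam h1.1 h1.2
    exact ⟨h2.1.trans n3, h2.2.trans n3⟩

end Claimed.Agent.R252

end PkRe6Core
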