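-- KEEP
import Claimed.Agent.R252.Re6.FitDefs
import Claimed.Agent.R252.Re6.PkC

/-! PACKED FILE (helper183, closed unit Re6 = Sec 6a of row 252, FROZEN): parts Re6.FitA, Re6.FitCore, Re6.Fit.  Each part is wrapped in its own `section`. -/

section PkRe6FitA

/-!
# Row 252, unit Re6.  CONTRACT `FitA`: the five tools of the passage measure -> finite core in L a06:row-fit (06a l.560-584).   Architect helper183.
Leaves L-252-RE6-FIT-WIT (`re6_fit_wit`), L-252-RE6-FIT-MEAS (`re6_fit_time`, `re6_fit_bad`), L-252-RE6-FIT-DIAM (`re6_fit_diam`), L-252-RE6-FIT-PAL (`re6_fit_pal`).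

WIT (finite, abstract: "long lines give projection covers").  Take a maximal pairwise disjoint subfamily `W_1..W_k` of `𝒲` (subsets of `Occ`): `k n₀ ≤ #Occ`.   Every `p ∈ U` lies in some `W ∈ 𝒲`, which meets some `W_j`:
`f p` is within `2R` of `f p_j` (`p_j ∈ W_j` fixed).   A square of side `4R` meets `≤ (4R+2)²` unit cells.
TIME.  `τ ⊆ ⋃_{k ∈ Kc} [kξ, (k+1)ξ)`, so `vol τ ≤ #Kc ξ`.
BAD.  `l ↦ vol {t | (l,t) ∈ W}` is measurable (`measurable_measure_prodMk_left`);  `μ S ≤ K (P ⊗ Leb) S`, `S = W ∩ (bad × ℝ)`, `Measure.prod_apply`: `∫⁻_{bad} vol(τ_l) dP ≤ c P(univ)`.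
DIAM.  `v_d = kξ`, `0 ≤ vel l - v_d < ξ`.   `p_Z - v_d p_t = Z0/ξ + (vel - v_d) t/ξ - f + v_d f'`;   `p_V1 + v_d p_V2 = (T₁ + vel T₂)/E + (v_d - vel) T₂/E - g₁ - v_d g₂`, fractional parts in `[0,1)`, `ξ ≤ E`.
PAL.  `∑_{|kξ - x| ≤ r} pal [kξ,(k+1)ξ) ≤ pal [x - r, x + r + ξ]` = three intervals of length `(2r+ξ)/3 ∈ [ξ, 1]`, `≤ r`.
-/

set_option autoImplicit false

namespace Claimed.Agent.R252

open Finset MeasureTheory

theorem re6_fit_wit {P : Type*} [DecidableEq P] (Occ U : Finset P) (f : P → ℝ × ℝ) (Wf : Set (Finset P)) (n₀ R : ℝ) (hn₀ : 0 < n₀) (hR : 0 ≤ R)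
    (hW : ∀ W ∈ Wf, W ⊆ Occ ∧ n₀ ≤ (#W : ℝ) ∧ ∀ p ∈ W, ∀ p' ∈ W, |(f p).1 - (f p').1| ≤ R ∧ |(f p).2 - (f p').2| ≤ R)
    (hU : ∀ p ∈ U, ∃ W ∈ Wf, p ∈ W) :
    (#(U.image fun p => re6Rd (f p)) : ℝ) ≤ (4 * R + 3) ^ 2 * #Occ / n₀ := by
  classical
  rcases isEmpty_or_nonempty P with hP | hP
  · rw [Finset.eq_empty_of_isEmpty U]
    simp only [Finset.image_empty, Finset.card_empty, Nat.cast_zero]
    positivity
  -- a maximal pairwise disjoint subfamily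
  obtain ⟨Wfin, hWfin⟩ : ∃ Wfin : Finset (Finset P), Wfin = Occ.powerset.filter (· ∈ Wf) := ⟨_, rfl⟩
  have hWfin_mem : ∀ W, W ∈ Wfin ↔ W ⊆ Occ ∧ W ∈ Wf := by
    intro W; rw [hWfin, Finset.mem_filter, Finset.mem_powerset]
  obtain ⟨Fam, hFam⟩ : ∃ Fam : Finset (Finset (Finset P)),
      Fam = Wfin.powerset.filter (fun D : Finset (Finset P) => (D : Set (Finset P)).PairwiseDisjoint id) := ⟨_, rfl⟩
  have hFam_mem : ∀ D, D ∈ Fam ↔ D ⊆ Wfin ∧ (D : Set (Finset P)).PairwiseDisjoint id := by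
    intro D; rw [hFam, Finset.mem_filter, Finset.mem_powerset]
  have hne : Fam.Nonempty := ⟨∅, (hFam_mem ∅).2 ⟨Finset.empty_subset _, by simp⟩⟩
  obtain ⟨D, hD⟩ := Fam.exists_maximal hne
  obtain ⟨hDsub, hDdisj⟩ := (hFam_mem D).1 hD.prop
  have hDW : ∀ W ∈ D, W ⊆ Occ ∧ W ∈ Wf := fun W hWD => (hWfin_mem W).1 (hDsub hWD)
  -- the count of the subfamily
  have hcount : (#D : ℝ) * n₀ ≤ #Occ := by
    have h1 : #(D.biUnion id) = ∑ W ∈ D, #(id W) := Finset.card_biUnion hDdisj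
    have h2 : D.biUnion id ⊆ Occ := by
      intro p hp
      obtain ⟨W, hWD, hpW⟩ := Finset.mem_biUnion.1 hp
      exact (hDW W hWD).1 hpW
    have h3 : (∑ W ∈ D, (#W : ℝ)) ≤ #Occ := by
      have := Finset.card_le_card h2
      rw [h1] at this
      exact_mod_cast this
    have h4 : (#D : ℝ) * n₀ ≤ ∑ W ∈ D, (#W : ℝ) := by
      rw [← nsmul_eq_mul]
      exact Finset.card_nsmul_le_sum _ _ _ (fun W hWD => (hW W (hDW W hWD).2).2.1)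
    linarith
  -- representatives
  have hrep : ∀ W ∈ D, ∃ p, p ∈ W := by
    intro W hWD
    have h1 := (hW W (hDW W hWD).2).2.1
    have h2 : 0 < #W := by
      have : (0 : ℝ) < #W := lt_of_lt_of_le hn₀ h1
      exact_mod_cast this
    exact Finset.card_pos.1 h2
  choose! rep hrepmem using hrep
  -- the boxes
  obtain ⟨box, hbox⟩ : ∃ box : Finset P → Finset (ℤ × ℤ), box = fun W =>
      (Finset.Icc ⌊(f (rep W)).1 - 2 * R⌋ ⌊(f (rep W)).1 + 2 * R⌋) ×ˢ (Finset.Icc ⌊(f (rep W)).2 - 2 * R⌋ ⌊(f (rep W)).2 + 2 * R⌋) := ⟨_, rfl⟩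
  have hI : ∀ y : ℝ, (#(Finset.Icc ⌊y - 2 * R⌋ ⌊y + 2 * R⌋) : ℝ) ≤ 4 * R + 3 := by
    intro y
    rw [Int.card_Icc]
    have h1 : ((⌊y + 2 * R⌋ : ℤ) : ℝ) ≤ y + 2 * R := Int.floor_le _
    have h2 : y - 2 * R < ((⌊y - 2 * R⌋ : ℤ) : ℝ) + 1 := Int.lt_floor_add_one _
    have h3 : ⌊y - 2 * R⌋ ≤ ⌊y + 2 * R⌋ := Int.floor_le_floor (by linarith)
    have h4 : (((⌊y + 2 * R⌋ + 1 - ⌊y - 2 * R⌋).toNat : ℕ) : ℝ) = ((⌊y + 2 * R⌋ + 1 - ⌊y - 2 * R⌋ : ℤ) : ℝ) := by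
      have : (((⌊y + 2 * R⌋ + 1 - ⌊y - 2 * R⌋).toNat : ℕ) : ℤ) = ⌊y + 2 * R⌋ + 1 - ⌊y - 2 * R⌋ := Int.toNat_of_nonneg (by omega)
      exact_mod_cast this
    rw [h4]
    push_cast
    linarith
  have hboxcard : ∀ W, (#(box W) : ℝ) ≤ (4 * R + 3) ^ 2 := by
    intro W
    rw [hbox]
    simp only [Finset.card_product, Nat.cast_mul]
    rw [sq]
    exact mul_le_mul (hI _) (hI _) (Nat.cast_nonneg _) (by linarith)
  have hfl : ∀ x y : ℝ, |x - y| ≤ 2 * R → ⌊x⌋ ∈ Finset.Icc ⌊y - 2 * R⌋ ⌊y + 2 * R⌋ := by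
    intro x y hxy
    obtain ⟨h1, h2⟩ := abs_le.1 hxy
    exact Finset.mem_Icc.2 ⟨Int.floor_le_floor (by linarith), Int.floor_le_floor (by linarith)⟩
  have hsub : (U.image fun p => re6Rd (f p)) ⊆ D.biUnion box := by
    intro c hc
    obtain ⟨p, hpU, rfl⟩ := Finset.mem_image.1 hc
    obtain ⟨W, hWf, hpW⟩ := hU p hpU
    have hmeet : ∃ W' ∈ D, ¬ Disjoint W W' := by
      by_contra hcon
      push Not at hcon
      have hins : insert W D ∈ Fam := by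
        refine (hFam_mem _).2 ⟨?_, ?_⟩
        · intro X hX
          rcases Finset.mem_insert.1 hX with rfl | hX
          · exact (hWfin_mem _).2 ⟨(hW _ hWf).1, hWf⟩
          · exact hDsub hX
        · rw [Finset.coe_insert]
          refine hDdisj.insert fun X hX _ => ?_
          exact hcon X hX
      have hle : insert W D ≤ D := hD.le_of_ge hins (Finset.subset_insert _ _)
      have hWD : W ∈ D := hle (Finset.mem_insert_self _ _)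
      have := hcon W hWD
      exact (Finset.disjoint_left.1 this hpW) hpW
    obtain ⟨W', hW'D, hnd⟩ := hmeet
    obtain ⟨p', hp'W, hp'W'⟩ := Finset.not_disjoint_iff.1 hnd
    have a1 := (hW W hWf).2.2 p hpW p' hp'W
    have a2 := (hW W' (hDW W' hW'D).2).2.2 p' hp'W' (rep W') (hrepmem W' hW'D)
    refine Finset.mem_biUnion.2 ⟨W', hW'D, ?_⟩
    rw [hbox]
    refine Finset.mem_product.2 ⟨hfl _ _ ?_, hfl _ _ ?_⟩
    · calc |(f p).1 - (f (rep W')).1| = |((f p).1 - (f p').1) + ((f p').1 - (f (rep W')).1)| := by ring_nf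
        _ ≤ |(f p).1 - (f p').1| + |(f p').1 - (f (rep W')).1| := abs_add_le _ _
        _ ≤ 2 * R := by linarith [a1.1, a2.1]
    · calc |(f p).2 - (f (rep W')).2| = |((f p).2 - (f p').2) + ((f p').2 - (f (rep W')).2)| := by ring_nf
        _ ≤ |(f p).2 - (f p').2| + |(f p').2 - (f (rep W')).2| := abs_add_le _ _
        _ ≤ 2 * R := by linarith [a1.2, a2.2]
  have h5 : (#(U.image fun p => re6Rd (f p)) : ℝ) ≤ (#D : ℝ) * (4 * R + 3) ^ 2 := by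
    have h6 : #(U.image fun p => re6Rd (f p)) ≤ ∑ W ∈ D, #(box W) := (Finset.card_le_card hsub).trans Finset.card_biUnion_le
    have h7 : (#(U.image fun p => re6Rd (f p)) : ℝ) ≤ ∑ W ∈ D, (#(box W) : ℝ) := by exact_mod_cast h6
    refine h7.trans ?_
    rw [← nsmul_eq_mul]
    exact Finset.sum_le_card_nsmul _ _ _ fun W _ => hboxcard W
  rw [le_div_iff₀ hn₀]
  calc (#(U.image fun p => re6Rd (f p)) : ℝ) * n₀ ≤ (#D : ℝ) * (4 * R + 3) ^ 2 * n₀ := mul_le_mul_of_nonneg_right h5 hn₀.le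
    _ = (4 * R + 3) ^ 2 * ((#D : ℝ) * n₀) := by ring
    _ ≤ (4 * R + 3) ^ 2 * #Occ := mul_le_mul_of_nonneg_left hcount (by positivity)

theorem re6_fit_time (ξ c : ℝ) (hξ : 0 < ξ) (τ : Set ℝ) (Kc : Finset ℤ) (h : ∀ t ∈ τ, ⌊t / ξ⌋ ∈ Kc)
    (hc : ENNReal.ofReal c ≤ volume τ) : c / ξ ≤ (#Kc : ℝ) := by
  have hsub : τ ⊆ ⋃ k ∈ Kc, Set.Ico ((k : ℝ) * ξ) (((k : ℝ) + 1) * ξ) := by
    intro t ht
    refine Set.mem_biUnion (h t ht) ⟨?_, ?_⟩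
    · rw [← le_div_iff₀ hξ]
      exact Int.floor_le _
    · rw [← div_lt_iff₀ hξ]
      exact Int.lt_floor_add_one _
  have h1 : volume τ ≤ ∑ k ∈ Kc, volume (Set.Ico ((k : ℝ) * ξ) (((k : ℝ) + 1) * ξ)) :=
    (measure_mono hsub).trans (measure_biUnion_finset_le _ _)
  have h2 : ∀ k : ℤ, volume (Set.Ico ((k : ℝ) * ξ) (((k : ℝ) + 1) * ξ)) = ENNReal.ofReal ξ := by
    intro k
    rw [Real.volume_Ico]
    congr 1
    ring
  simp only [h2, Finset.sum_const, nsmul_eq_mul] at h1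
  have h3 : ENNReal.ofReal c ≤ ENNReal.ofReal ((#Kc : ℝ) * ξ) := by
    rw [ENNReal.ofReal_mul (Nat.cast_nonneg _), ENNReal.ofReal_natCast]
    exact hc.trans h1
  have h4 := (ENNReal.ofReal_le_ofReal_iff (by positivity)).1 h3
  rw [div_le_iff₀ hξ]
  exact h4

theorem re6_fit_bad {Λ : Type*} [MeasurableSpace Λ] (ξ E K S : ℝ) (P : Measure Λ) (Z0 vel cst : Λ → ℝ) (T : Λ × ℝ → ℝ × ℝ)
    (W : Set (Λ × ℝ)) (μ : Measure (Λ × ℝ)) (pal : Measure ℝ) (h : Re6Fit ξ E K S P Z0 vel cst T W μ pal) (hK : 1 ≤ K) (c : ℝ) (hc : 0 ≤ c) :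
    MeasurableSet {l : Λ | volume {t : ℝ | (l, t) ∈ W} < ENNReal.ofReal c} ∧
    μ {ω | ω ∈ W ∧ volume {t : ℝ | (ω.1, t) ∈ W} < ENNReal.ofReal c} ≤ ENNReal.ofReal (K * c) := by
  have hm : Measurable fun l : Λ => (volume : Measure ℝ) (Prod.mk l ⁻¹' W) := measurable_measure_prodMk_left h.hWm
  have hbad : MeasurableSet {l : Λ | volume {t : ℝ | (l, t) ∈ W} < ENNReal.ofReal c} :=
    measurableSet_lt hm measurable_const
  refine ⟨hbad, ?_⟩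
  have hS : MeasurableSet {ω : Λ × ℝ | ω ∈ W ∧ volume {t : ℝ | (ω.1, t) ∈ W} < ENNReal.ofReal c} :=
    h.hWm.inter (measurable_fst hbad)
  have h1 := h.hdom {ω : Λ × ℝ | ω ∈ W ∧ volume {t : ℝ | (ω.1, t) ∈ W} < ENNReal.ofReal c}
  rw [Measure.smul_apply, Measure.prod_apply hS, smul_eq_mul] at h1
  refine h1.trans ?_
  have h2 : ∫⁻ l, (volume.restrict (Set.Icc (0 : ℝ) 1))
      (Prod.mk l ⁻¹' {ω : Λ × ℝ | ω ∈ W ∧ volume {t : ℝ | (ω.1, t) ∈ W} < ENNReal.ofReal c}) ∂P ≤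
      ∫⁻ _ : Λ, ENNReal.ofReal c ∂P := by
    refine lintegral_mono fun l => ?_
    by_cases hl : volume {t : ℝ | (l, t) ∈ W} < ENNReal.ofReal c
    · refine (Measure.restrict_apply_le _ _).trans ((measure_mono ?_).trans hl.le)
      intro t ht
      exact ht.1
    · have e : Prod.mk l ⁻¹' {ω : Λ × ℝ | ω ∈ W ∧ volume {t : ℝ | (ω.1, t) ∈ W} < ENNReal.ofReal c} = ∅ := by
        refine Set.eq_empty_of_forall_notMem fun t ht => hl ?_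
        exact ht.2
      rw [e, measure_empty]
      exact bot_le
  rw [lintegral_const] at h2
  have h3 : ENNReal.ofReal c * P Set.univ ≤ ENNReal.ofReal c := by
    calc ENNReal.ofReal c * P Set.univ ≤ ENNReal.ofReal c * 1 := mul_le_mul_right h.hP _
      _ = ENNReal.ofReal c := mul_one _
  rw [ENNReal.ofReal_mul (by linarith)]
  exact mul_le_mul_right (h2.trans h3) _

theorem re6_fit_diam {Λ : Type*} [MeasurableSpace Λ] (ξ E K S : ℝ) (P : Measure Λ) (Z0 vel cst : Λ → ℝ) (T : Λ × ℝ → ℝ × ℝ)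
    (W : Set (Λ × ℝ)) (μ : Measure (Λ × ℝ)) (pal : Measure ℝ) (h : Re6Fit ξ E K S P Z0 vel cst T W μ pal) (hK : 1 ≤ K) (hξ : 0 < ξ) (hξ1 : ξ ≤ 1)
    (hE : ξ ≤ E) (l : Λ) (t t' : ℝ) (ht : (l, t) ∈ W) (ht' : (l, t') ∈ W) :
    |(re6Pr (⌊vel l / ξ⌋ * ξ) (re6Pc ξ E Z0 vel T (l, t))).1 - (re6Pr (⌊vel l / ξ⌋ * ξ) (re6Pc ξ E Z0 vel T (l, t'))).1| ≤ 10 * K ∧
    |(re6Pr (⌊vel l / ξ⌋ * ξ) (re6Pc ξ E Z0 vel T (l, t))).2 - (re6Pr (⌊vel l / ξ⌋ * ξ) (re6Pc ξ E Z0 vel T (l, t'))).2| ≤ 10 * K := by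
  have hE0 : 0 < E := hξ.trans_le hE
  -- the slope bin
  obtain ⟨vd, hvd⟩ : ∃ vd : ℝ, vd = ⌊vel l / ξ⌋ * ξ := ⟨_, rfl⟩
  have hv1 : vd ≤ vel l := by
    rw [hvd, ← le_div_iff₀ hξ]; exact Int.floor_le _
  have hv2 : vel l - vd ≤ ξ := by
    have := (Int.lt_floor_add_one (vel l / ξ)).le
    rw [div_le_iff₀ hξ] at this
    rw [hvd]; linarith
  have hvK : |vel l| ≤ K := (h.hbd _ ht).2
  have hvdK : |vd| ≤ 2 * K := by
    rw [abs_le] at hvK ⊢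
    constructor <;> linarith [hvK.1, hvK.2]
  have htt : |t - t'| ≤ 1 := by
    have a := h.hWt _ ht
    have b := h.hWt _ ht'
    simp only at a b
    rw [abs_le]; constructor <;> linarith [a.1, a.2, b.1, b.2]
  -- differences of fractional parts
  have hfr : ∀ x y : ℝ, |Int.fract x - Int.fract y| ≤ 1 := by
    intro x y
    rw [abs_le]
    constructor <;> linarith [Int.fract_nonneg x, Int.fract_nonneg y, (Int.fract_lt_one x).le, (Int.fract_lt_one y).le]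
  have hfl : ∀ x : ℝ, ((⌊x⌋ : ℤ) : ℝ) = x - Int.fract x := by
    intro x; rw [Int.fract]; ring
  rw [← hvd]
  simp only [re6Pr, re6Pc, re6Zc]
  constructor
  · rw [hfl, hfl, hfl, hfl]
    have e : (Z0 l + vel l * t) / ξ - Int.fract ((Z0 l + vel l * t) / ξ) - vd * (t / ξ - Int.fract (t / ξ))
        - ((Z0 l + vel l * t') / ξ - Int.fract ((Z0 l + vel l * t') / ξ) - vd * (t' / ξ - Int.fract (t' / ξ)))
        = (vel l - vd) * (t - t') / ξ - (Int.fract ((Z0 l + vel l * t) / ξ) - Int.fract ((Z0 l + vel l * t') / ξ))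
          + vd * (Int.fract (t / ξ) - Int.fract (t' / ξ)) := by
      field_simp
      ring
    rw [e]
    have b1 : |(vel l - vd) * (t - t') / ξ| ≤ 1 := by
      rw [abs_div, abs_mul, abs_of_pos hξ, div_le_one hξ, abs_of_nonneg (sub_nonneg.mpr hv1)]
      calc (vel l - vd) * |t - t'| ≤ ξ * 1 := mul_le_mul hv2 htt (abs_nonneg _) hξ.le
        _ = ξ := mul_one _
    have b2 := hfr ((Z0 l + vel l * t) / ξ) ((Z0 l + vel l * t') / ξ)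
    have b3 : |vd * (Int.fract (t / ξ) - Int.fract (t' / ξ))| ≤ 2 * K := by
      rw [abs_mul]
      calc |vd| * |Int.fract (t / ξ) - Int.fract (t' / ξ)| ≤ (2 * K) * 1 :=
            mul_le_mul hvdK (hfr _ _) (abs_nonneg _) (by linarith)
        _ = 2 * K := mul_one _
    calc _ ≤ |(vel l - vd) * (t - t') / ξ - (Int.fract ((Z0 l + vel l * t) / ξ) - Int.fract ((Z0 l + vel l * t') / ξ))|
          + |vd * (Int.fract (t / ξ) - Int.fract (t' / ξ))| := abs_add_le _ _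
      _ ≤ |(vel l - vd) * (t - t') / ξ| + |Int.fract ((Z0 l + vel l * t) / ξ) - Int.fract ((Z0 l + vel l * t') / ξ)|
          + |vd * (Int.fract (t / ξ) - Int.fract (t' / ξ))| := by
          gcongr; exact abs_sub _ _
      _ ≤ 1 + 1 + 2 * K := by gcongr
      _ ≤ 10 * K := by linarith
  · rw [hfl, hfl, hfl, hfl]
    have e : (T (l, t)).1 / E - Int.fract ((T (l, t)).1 / E) + vd * ((T (l, t)).2 / E - Int.fract ((T (l, t)).2 / E))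
        - ((T (l, t')).1 / E - Int.fract ((T (l, t')).1 / E) + vd * ((T (l, t')).2 / E - Int.fract ((T (l, t')).2 / E)))
        = ((T (l, t)).1 + vel l * (T (l, t)).2 - cst l) / E - ((T (l, t')).1 + vel l * (T (l, t')).2 - cst l) / E
          - (vel l - vd) * ((T (l, t)).2 - (T (l, t')).2) / E
          - (Int.fract ((T (l, t)).1 / E) - Int.fract ((T (l, t')).1 / E))
          - vd * (Int.fract ((T (l, t)).2 / E) - Int.fract ((T (l, t')).2 / E)) := by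
      field_simp
      ring
    rw [e]
    have c1 : |((T (l, t)).1 + vel l * (T (l, t)).2 - cst l) / E| ≤ K := by
      rw [abs_div, abs_of_pos hE0, div_le_iff₀ hE0]; exact h.hrow _ ht
    have c2 : |((T (l, t')).1 + vel l * (T (l, t')).2 - cst l) / E| ≤ K := by
      rw [abs_div, abs_of_pos hE0, div_le_iff₀ hE0]; exact h.hrow _ ht'
    have c3 : |(vel l - vd) * ((T (l, t)).2 - (T (l, t')).2) / E| ≤ 2 * K := by
      rw [abs_div, abs_mul, abs_of_pos hE0, div_le_iff₀ hE0, abs_of_nonneg (sub_nonneg.mpr hv1)]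
      have d1 : |(T (l, t)).2 - (T (l, t')).2| ≤ 2 * K := by
        have a := (h.hT _ ht).2
        have b := (h.hT _ ht').2
        calc _ ≤ |(T (l, t)).2| + |(T (l, t')).2| := abs_sub _ _
          _ ≤ 2 * K := by linarith
      calc (vel l - vd) * |(T (l, t)).2 - (T (l, t')).2| ≤ E * (2 * K) :=
            mul_le_mul (hv2.trans hE) d1 (abs_nonneg _) hE0.le
        _ = 2 * K * E := by ring
    have c4 := hfr ((T (l, t)).1 / E) ((T (l, t')).1 / E)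
    have c5 : |vd * (Int.fract ((T (l, t)).2 / E) - Int.fract ((T (l, t')).2 / E))| ≤ 2 * K := by
      rw [abs_mul]
      calc |vd| * |Int.fract ((T (l, t)).2 / E) - Int.fract ((T (l, t')).2 / E)| ≤ (2 * K) * 1 :=
            mul_le_mul hvdK (hfr _ _) (abs_nonneg _) (by linarith)
        _ = 2 * K := mul_one _
    rw [abs_le] at c1 c2 c3 c4 c5 ⊢
    constructor <;> linarith [c1.1, c1.2, c2.1, c2.2, c3.1, c3.2, c4.1, c4.2, c5.1, c5.2]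

/-- the cells of the mesh `ξ` inside a set `A` carry at most the mass of `A` -/
theorem re6_fit_pal_sum (ξ : ℝ) (hξ : 0 < ξ) (pal : Measure ℝ) (hpal1 : pal Set.univ ≤ 1) {ι : Type} (F : Finset ι) (κ : ι → ℤ)
    (hinj : Function.Injective κ) (A : Set ℝ) (hA : ∀ i ∈ F, Set.Ico ((κ i : ℝ) * ξ) (((κ i : ℝ) + 1) * ξ) ⊆ A) :
    ∑ i ∈ F, (pal (Set.Ico ((κ i : ℝ) * ξ) (((κ i : ℝ) + 1) * ξ))).toReal ≤ (pal A).toReal := by
  have hfin : ∀ B : Set ℝ, pal B ≠ ⊤ := fun B =>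
    ne_top_of_le_ne_top ENNReal.one_ne_top ((measure_mono (Set.subset_univ B)).trans hpal1)
  rw [← ENNReal.toReal_sum fun i _ => hfin _]
  refine ENNReal.toReal_mono (hfin A) ?_
  rw [← measure_biUnion_finset (f := fun i => Set.Ico ((κ i : ℝ) * ξ) (((κ i : ℝ) + 1) * ξ)) ?_ fun i _ => measurableSet_Ico]
  · exact measure_mono (Set.iUnion₂_subset hA)
  · intro i _ j _ hij
    refine Set.disjoint_left.2 fun x hxi hxj => hij (hinj ?_)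
    have hfl : ∀ k : ℤ, x ∈ Set.Ico ((k : ℝ) * ξ) (((k : ℝ) + 1) * ξ) → ⌊x / ξ⌋ = k := by
      intro k hk
      rw [Int.floor_eq_iff]
      exact ⟨(le_div_iff₀ hξ).2 hk.1, (div_lt_iff₀ hξ).2 hk.2⟩
    rw [← hfl _ hxi, ← hfl _ hxj]

theorem re6_fit_pal (ξ K S : ℝ) (pal : Measure ℝ) (Kf : Finset ℤ) (hξ : 0 < ξ) (hξ1 : ξ ≤ 1) (hK : 1 ≤ K) (hS : 0 < S) (hpal1 : pal Set.univ ≤ 1)
    (hpal : ∀ a b : ℝ, ξ ≤ b - a → b - a ≤ 1 → pal (Set.Icc a b) ≤ ENNReal.ofReal (K * (b - a) ^ S)) :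
    ∑ k : {k // k ∈ Kf}, (pal (Set.Ico ((k : ℤ) * ξ) (((k : ℤ) + 1) * ξ))).toReal ≤ 1 ∧
    RW.KfFrost (fun k : {k // k ∈ Kf} => (pal (Set.Ico ((k : ℤ) * ξ) (((k : ℤ) + 1) * ξ))).toReal) (fun k : {k // k ∈ Kf} => ((k : ℤ) : ℝ) * ξ)
      (3 * K) S ξ := by
  constructor
  · refine (re6_fit_pal_sum ξ hξ pal hpal1 Finset.univ (fun k : {k // k ∈ Kf} => (k : ℤ)) Subtype.val_injective Set.univ
      fun _ _ => Set.subset_univ _).trans ?_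
    exact ENNReal.toReal_le_of_le_ofReal zero_le_one (by rw [ENNReal.ofReal_one]; exact hpal1)
  · intro z r hr hr1
    refine (re6_fit_pal_sum ξ hξ pal hpal1 _ (fun k : {k // k ∈ Kf} => (k : ℤ)) Subtype.val_injective
      (Set.Icc (z - r) (z + r + ξ)) ?_).trans ?_
    · intro k hk x hx
      have hd : dist (((k : ℤ) : ℝ) * ξ) z ≤ r := (Finset.mem_filter.1 hk).2
      rw [Real.dist_eq, abs_le] at hd
      constructor
      · linarith [hx.1, hd.1]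
      · have := hx.2
        linarith [hd.2]
    · obtain ⟨ℓ, hℓ⟩ : ∃ ℓ : ℝ, ℓ = (2 * r + ξ) / 3 := ⟨_, rfl⟩
      have hℓ1 : ξ ≤ ℓ := by
        rw [hℓ]
        linarith
      have hℓ2 : ℓ ≤ 1 := by
        rw [hℓ]
        linarith
      have hℓ3 : ℓ ≤ r := by
        rw [hℓ]
        linarith
      have hℓ0 : 0 ≤ ℓ := hξ.le.trans hℓ1
      have hsub : Set.Icc (z - r) (z + r + ξ) ⊆ Set.Icc (z - r) (z - r + ℓ) ∪ Set.Icc (z - r + ℓ) (z - r + 2 * ℓ) ∪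
          Set.Icc (z - r + 2 * ℓ) (z - r + 3 * ℓ) := by
        intro x hx
        rcases le_total x (z - r + ℓ) with h1 | h1
        · exact Or.inl (Or.inl ⟨hx.1, h1⟩)
        · rcases le_total x (z - r + 2 * ℓ) with h2 | h2
          · exact Or.inl (Or.inr ⟨h1, h2⟩)
          · refine Or.inr ⟨h2, ?_⟩
            have := hx.2
            rw [hℓ]
            linarith
      have hone : ∀ a b : ℝ, b - a = ℓ → pal (Set.Icc a b) ≤ ENNReal.ofReal (K * ℓ ^ S) := by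
        intro a b hab
        have := hpal a b (by rw [hab]; exact hℓ1) (by rw [hab]; exact hℓ2)
        rwa [hab] at this
      have h3 : pal (Set.Icc (z - r) (z + r + ξ)) ≤ ENNReal.ofReal (3 * (K * ℓ ^ S)) := by
        have hnn : 0 ≤ K * ℓ ^ S := mul_nonneg (by linarith) (Real.rpow_nonneg hℓ0 S)
        have e : ENNReal.ofReal (3 * (K * ℓ ^ S)) =
            ENNReal.ofReal (K * ℓ ^ S) + ENNReal.ofReal (K * ℓ ^ S) + ENNReal.ofReal (K * ℓ ^ S) := by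
          rw [← ENNReal.ofReal_add hnn hnn, ← ENNReal.ofReal_add (by linarith) hnn]
          congr 1
          ring
        rw [e]
        refine (measure_mono hsub).trans ((measure_union_le _ _).trans (add_le_add ((measure_union_le _ _).trans
          (add_le_add (hone _ _ (by ring)) (hone _ _ (by ring)))) (hone _ _ (by ring))))
      have hpow : ℓ ^ S ≤ r ^ S := Real.rpow_le_rpow hℓ0 hℓ3 hS.le
      have hnn : 0 ≤ 3 * (K * ℓ ^ S) := by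
        have : 0 ≤ K * ℓ ^ S := mul_nonneg (by linarith) (Real.rpow_nonneg hℓ0 S)
        linarith
      refine (ENNReal.toReal_le_of_le_ofReal hnn h3).trans ?_
      have := mul_le_mul_of_nonneg_left hpow (by linarith : (0 : ℝ) ≤ K)
      linarith

end Claimed.Agent.R252

end PkRe6FitA

section PkRe6FitCore

/-!
# Row 252, unit Re6.  CONTRACT `FitCore`: from the measure data `Re6Fit` to the finite core data `Re6Core` (06a l.545-584).   Architect helper183.  Leaf L-252-RE6-FIT-CORE.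

CONSTRUCTION (`L = 1/ξ`).  good lines `Gl = {l | vol {t | (l,t) ∈ W} ≥ 1/(2K²)}`, `Good = {ω ∈ W | ω.1 ∈ Gl}`: `μ(W \ Good) ≤ 1/(2K)` (`re6_fit_bad`), `μ W = μ univ ≥ 1/K`.
`Pt` = the (finite: bounded) set of the cells `re6Pc ξ E Z0 vel T ω`, `ω ∈ W`.   `D = {k // k ∈ Icc (-N) N}`, `N = ⌈K/ξ⌉ + 1`, `vel' k = k ξ`, `pal' k = (pal [kξ,(k+1)ξ)).toReal`,
`m p k = (μ (Good ∩ {re6Pc = p} ∩ {⌊vel/ξ⌋ = k})).toReal` (finite: `μ ≤ K (P ⊗ Leb)`, total mass `≤ K`).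
FIELDS.  `hmass`: finite measurable partition of `Good`.   `hbd`: `|⌊T/E⌋| ≤ K/E + 1 ≤ K L + 1`.   `hfib`: `hbins`, a square of side `2E` meets `≤ 9` bins.   `hcap`: `Re6Fit.hcap`.   `hpal*`, `hFr`: `re6_fit_pal`.   `hD`: `2N+1`.
`hcov` at `k`: `re6_fit_wit` with `Occ = Pt`, `f = re6Pr (kξ)`, `Wf` = the sets `W_l = {re6Pc (l,t) | (l,t) ∈ W}` for the good lines `l` of the bin `k`, `R = 10 K` (`re6_fit_diam`), `n₀ = L/(2K²)` (`re6_fit_time`: the first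
coordinate of the cell is `⌊t/ξ⌋`), `#Pt ≤ 9K · (positions)`;  `m p k > 0` gives an `ω ∈ Good` in the cell `p` and the bin `k`.
LAST CLAIM.  `∑_{p ∈ Sel} ∑_k m p k = μ(Good ∩ {re6Pc ∈ Sel}) ≤ μ {ω ∈ W | re6Pc ω ∈ Sel}`.
-/

set_option autoImplicit false

namespace Claimed.Agent.R252

open Finset MeasureTheory

/-! ### elementary tools -/

theorem re6_fc_abs_floor (x : ℝ) : |((⌊x⌋ : ℤ) : ℝ)| ≤ |x| + 1 := by
  have h1 := Int.floor_le x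
  have h2 := Int.lt_floor_add_one x
  rw [abs_le]
  constructor
  · have := neg_abs_le x
    linarith
  · have := le_abs_self x
    linarith

theorem re6_fc_card_Icc (a b : ℤ) (h : a ≤ b + 1) : (#(Finset.Icc a b) : ℝ) = (b : ℝ) + 1 - a := by
  rw [Int.card_Icc]
  have h1 : ((b + 1 - a).toNat : ℤ) = b + 1 - a := Int.toNat_of_nonneg (by omega)
  have h2 : (((b + 1 - a).toNat : ℤ) : ℝ) = ((b + 1 - a : ℤ) : ℝ) := by rw [h1]
  push_cast at h2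
  exact h2

theorem re6_fc_const {K : ℝ} (hK : 1 ≤ K) (C : ℕ) (a : ℝ) (j : ℕ) (ha : a ≤ C) (hj : j ≤ C) : a * K ^ j ≤ C * K ^ C := by
  have h1 : K ^ j ≤ K ^ C := pow_le_pow_right₀ hK hj
  have h0 : 0 ≤ K ^ j := by positivity
  calc a * K ^ j ≤ C * K ^ j := mul_le_mul_of_nonneg_right ha h0
    _ ≤ C * K ^ C := mul_le_mul_of_nonneg_left h1 (Nat.cast_nonneg _)

theorem re6_fc_mem_Icc (x : ℝ) (n : ℤ) (hn : |(n : ℝ)| ≤ x + 1) : n ∈ Finset.Icc (-(⌈x⌉ + 1)) (⌈x⌉ + 1) := by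
  have hc := Int.le_ceil x
  rw [abs_le] at hn
  rw [Finset.mem_Icc]
  constructor
  · have : ((-(⌈x⌉ + 1) : ℤ) : ℝ) ≤ n := by
      push_cast
      linarith
    exact_mod_cast this
  · have : (n : ℝ) ≤ ((⌈x⌉ + 1 : ℤ) : ℝ) := by
      push_cast
      linarith
    exact_mod_cast this

theorem re6_fc_floor_near {E x b : ℝ} (hE : 0 < E) (h : |x - b| ≤ E) : ⌊x / E⌋ ∈ Finset.Icc (⌊b / E⌋ - 1) (⌊b / E⌋ + 1) := by
  rw [abs_le] at h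
  have h1 : x / E ≤ b / E + 1 := by
    rw [div_add_one hE.ne', div_le_div_iff_of_pos_right hE]
    linarith
  have h2 : b / E - 1 ≤ x / E := by
    rw [div_sub_one hE.ne', div_le_div_iff_of_pos_right hE]
    linarith
  rw [Finset.mem_Icc]
  constructor
  · rw [← Int.floor_sub_one]
    exact Int.floor_le_floor h2
  · rw [← Int.floor_add_one]
    exact Int.floor_le_floor h1

/-! ### the classification map and the good incidences -/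

/-- the classification map: (point cell, slope bin) -/
noncomputable def re6FcF {Λ : Type} (ξ E : ℝ) (Z0 vel : Λ → ℝ) (T : Λ × ℝ → ℝ × ℝ) (ω : Λ × ℝ) : ((ℤ × ℤ) × (ℤ × ℤ)) × ℤ :=
  (re6Pc ξ E Z0 vel T ω, ⌊vel ω.1 / ξ⌋)

/-- good incidences: on a line which spends the time `≥ 1/(2K²)` in `W` -/
def re6FcGood {Λ : Type} (K : ℝ) (W : Set (Λ × ℝ)) : Set (Λ × ℝ) :=
  {ω | ω ∈ W ∧ ¬ volume {t : ℝ | (ω.1, t) ∈ W} < ENNReal.ofReal (1 / (2 * K ^ 2))}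

theorem re6_fc_defs_eqns_cite : True := by
  have := @re6FcF.eq_1
  have := @re6FcGood.eq_1
  trivial

section meas

variable {Λ : Type} [MeasurableSpace Λ] {ξ E K S : ℝ} {P : Measure Λ} {Z0 vel cst : Λ → ℝ} {T : Λ × ℝ → ℝ × ℝ}
  {W : Set (Λ × ℝ)} {μ : Measure (Λ × ℝ)} {pal : Measure ℝ}

theorem re6_fc_measF (h : Re6Fit ξ E K S P Z0 vel cst T W μ pal) : Measurable (re6FcF ξ E Z0 vel T) := by
  have hv : Measurable fun ω : Λ × ℝ => vel ω.1 := h.hvelm.comp measurable_fst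
  have hz : Measurable fun ω : Λ × ℝ => Z0 ω.1 := h.hZ0m.comp measurable_fst
  have h1 : Measurable fun ω : Λ × ℝ => ⌊ω.2 / ξ⌋ := (measurable_snd.div_const ξ).floor
  have h2 : Measurable fun ω : Λ × ℝ => ⌊(Z0 ω.1 + vel ω.1 * ω.2) / ξ⌋ := ((hz.add (hv.mul measurable_snd)).div_const ξ).floor
  have h3 : Measurable fun ω : Λ × ℝ => ⌊(T ω).1 / E⌋ := ((measurable_fst.comp h.hTm).div_const E).floor
  have h4 : Measurable fun ω : Λ × ℝ => ⌊(T ω).2 / E⌋ := ((measurable_snd.comp h.hTm).div_const E).floor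
  have h5 : Measurable fun ω : Λ × ℝ => ⌊vel ω.1 / ξ⌋ := (hv.div_const ξ).floor
  exact ((h1.prodMk h2).prodMk (h3.prodMk h4)).prodMk h5

theorem re6_fc_finite (h : Re6Fit ξ E K S P Z0 vel cst T W μ pal) : IsFiniteMeasure μ := by
  have : IsFiniteMeasure P := ⟨lt_of_le_of_lt h.hP ENNReal.one_lt_top⟩
  have : IsFiniteMeasure (ENNReal.ofReal K • (P.prod (volume.restrict (Set.Icc (0 : ℝ) 1)))) :=
    Measure.smul_finite _ ENNReal.ofReal_ne_top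
  exact isFiniteMeasure_of_le _ h.hdom

theorem re6_fc_measGood (h : Re6Fit ξ E K S P Z0 vel cst T W μ pal) (hK : 1 ≤ K) : MeasurableSet (re6FcGood K W) := by
  have hb := (re6_fit_bad ξ E K S P Z0 vel cst T W μ pal h hK (1 / (2 * K ^ 2)) (by positivity)).1
  have e : re6FcGood K W = W ∩ Prod.fst ⁻¹' {l : Λ | volume {t : ℝ | (l, t) ∈ W} < ENNReal.ofReal (1 / (2 * K ^ 2))}ᶜ := by
    ext ω
    rfl
  rw [e]
  exact h.hWm.inter (measurable_fst hb.compl)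

theorem re6_fc_massGood (h : Re6Fit ξ E K S P Z0 vel cst T W μ pal) (hK : 1 ≤ K) : 1 / (2 * K) ≤ (μ (re6FcGood K W)).toReal := by
  have := re6_fc_finite h
  have hK0 : 0 < K := by linarith
  have hb := (re6_fit_bad ξ E K S P Z0 vel cst T W μ pal h hK (1 / (2 * K ^ 2)) (by positivity)).2
  have e1 : K * (1 / (2 * K ^ 2)) = 1 / (2 * K) := by
    field_simp
  rw [e1] at hb
  have h1 : μ Set.univ ≤ μ W + μ Wᶜ := measure_univ_le_add_compl W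
  rw [h.hW, add_zero] at h1
  have hsub : W ⊆ re6FcGood K W ∪ {ω | ω ∈ W ∧ volume {t : ℝ | (ω.1, t) ∈ W} < ENNReal.ofReal (1 / (2 * K ^ 2))} := by
    intro ω hω
    by_cases hc : volume {t : ℝ | (ω.1, t) ∈ W} < ENNReal.ofReal (1 / (2 * K ^ 2))
    · exact Or.inr ⟨hω, hc⟩
    · exact Or.inl ⟨hω, hc⟩
  have h2 : μ W ≤ μ (re6FcGood K W) + ENNReal.ofReal (1 / (2 * K)) :=
    (measure_mono hsub).trans ((measure_union_le _ _).trans (add_le_add_right hb _))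
  have h3 : ENNReal.ofReal (1 / K) ≤ μ (re6FcGood K W) + ENNReal.ofReal (1 / (2 * K)) := h.hmass.trans (h1.trans h2)
  rw [← ENNReal.ofReal_toReal (measure_ne_top μ (re6FcGood K W)), ← ENNReal.ofReal_add ENNReal.toReal_nonneg (by positivity),
    ENNReal.ofReal_le_ofReal_iff (add_nonneg ENNReal.toReal_nonneg (by positivity))] at h3
  have e2 : 1 / K = 1 / (2 * K) + 1 / (2 * K) := by
    field_simp
    norm_num
  linarith

theorem re6_fc_sum (h : Re6Fit ξ E K S P Z0 vel cst T W μ pal) (s : Finset (((ℤ × ℤ) × (ℤ × ℤ)) × ℤ)) :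
    ∑ x ∈ s, (μ (re6FcF ξ E Z0 vel T ⁻¹' {x} ∩ re6FcGood K W)).toReal =
      (μ (re6FcF ξ E Z0 vel T ⁻¹' (s : Set (((ℤ × ℤ) × (ℤ × ℤ)) × ℤ)) ∩ re6FcGood K W)).toReal := by
  have := re6_fc_finite h
  have hF := re6_fc_measF h
  rw [← ENNReal.toReal_sum (fun x _ => measure_ne_top _ _)]
  congr 1
  have key := sum_measure_preimage_singleton (μ := μ.restrict (re6FcGood K W)) s (f := re6FcF ξ E Z0 vel T)
    (fun y _ => hF (measurableSet_singleton y))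
  rw [Measure.restrict_apply (hF s.measurableSet)] at key
  rw [← key]
  refine Finset.sum_congr rfl fun x _ => ?_
  rw [Measure.restrict_apply (hF (measurableSet_singleton x))]

theorem re6_fc_sum2 (h : Re6Fit ξ E K S P Z0 vel cst T W μ pal) (A : Finset ((ℤ × ℤ) × (ℤ × ℤ))) (Kf : Finset ℤ) :
    ∑ p ∈ A, ∑ d : {k // k ∈ Kf}, (μ (re6FcF ξ E Z0 vel T ⁻¹' {(p, (d : ℤ))} ∩ re6FcGood K W)).toReal =
      (μ (re6FcF ξ E Z0 vel T ⁻¹' ((A ×ˢ Kf : Finset _) : Set (((ℤ × ℤ) × (ℤ × ℤ)) × ℤ)) ∩ re6FcGood K W)).toReal := by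
  rw [← re6_fc_sum h, Finset.sum_product]
  refine Finset.sum_congr rfl fun p _ => ?_
  exact Finset.sum_coe_sort Kf (fun k => (μ (re6FcF ξ E Z0 vel T ⁻¹' {(p, k)} ∩ re6FcGood K W)).toReal)

theorem re6_fc_sum1 (h : Re6Fit ξ E K S P Z0 vel cst T W μ pal) (A : Finset ((ℤ × ℤ) × (ℤ × ℤ))) (k : ℤ) :
    ∑ p ∈ A, (μ (re6FcF ξ E Z0 vel T ⁻¹' {(p, k)} ∩ re6FcGood K W)).toReal =
      (μ (re6FcF ξ E Z0 vel T ⁻¹' ((A ×ˢ {k} : Finset _) : Set (((ℤ × ℤ) × (ℤ × ℤ)) × ℤ)) ∩ re6FcGood K W)).toReal := by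
  rw [← re6_fc_sum h, Finset.sum_product]
  simp only [Finset.sum_singleton]

/-! ### the cells -/

theorem re6_fc_cell (h : Re6Fit ξ E K S P Z0 vel cst T W μ pal) (hξ : 0 < ξ) (hE : 0 < E) (ω : Λ × ℝ) (hω : ω ∈ W) :
    0 ≤ (re6Pc ξ E Z0 vel T ω).1.1 ∧ ((re6Pc ξ E Z0 vel T ω).1.1 : ℝ) ≤ 1 / ξ ∧
    |((re6Pc ξ E Z0 vel T ω).1.2 : ℝ)| ≤ K / ξ + 1 ∧ |((re6Pc ξ E Z0 vel T ω).2.1 : ℝ)| ≤ K / E + 1 ∧
    |((re6Pc ξ E Z0 vel T ω).2.2 : ℝ)| ≤ K / E + 1 ∧ |((⌊vel ω.1 / ξ⌋ : ℤ) : ℝ)| ≤ K / ξ + 1 := by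
  obtain ⟨t0, t1⟩ := h.hWt ω hω
  obtain ⟨b1, b2⟩ := h.hbd ω hω
  obtain ⟨c1, c2⟩ := h.hT ω hω
  have key : ∀ (x e : ℝ), 0 < e → |x| ≤ K → |((⌊x / e⌋ : ℤ) : ℝ)| ≤ K / e + 1 := by
    intro x e he hx
    refine (re6_fc_abs_floor _).trans ?_
    rw [abs_div, abs_of_pos he]
    have := div_le_div_of_nonneg_right hx he.le
    linarith
  refine ⟨?_, ?_, key _ _ hξ b1, key _ _ hE c1, key _ _ hE c2, key _ _ hξ b2⟩
  · exact Int.floor_nonneg.2 (div_nonneg t0 hξ.le)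
  · exact (Int.floor_le _).trans (div_le_div_of_nonneg_right t1 hξ.le)

theorem re6_fc_fib (h : Re6Fit ξ E K S P Z0 vel cst T W μ pal) (hE : 0 < E) (Pt : Finset ((ℤ × ℤ) × (ℤ × ℤ)))
    (hPt : ∀ p ∈ Pt, ∃ ω ∈ W, re6Pc ξ E Z0 vel T ω = p) (q : ℤ × ℤ) : (#{p ∈ Pt | p.1 = q} : ℝ) ≤ 9 * K := by
  classical
  obtain ⟨bins, hb, hbins⟩ := h.hbins q
  have hsub : {p ∈ Pt | p.1 = q} ⊆ bins.biUnion fun b => ({q} : Finset (ℤ × ℤ)) ×ˢ
      (Finset.Icc (⌊b.1 / E⌋ - 1) (⌊b.1 / E⌋ + 1) ×ˢ Finset.Icc (⌊b.2 / E⌋ - 1) (⌊b.2 / E⌋ + 1)) := by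
    intro p hp
    rw [Finset.mem_filter] at hp
    obtain ⟨ω, hω, rfl⟩ := hPt p hp.1
    obtain ⟨b, hbb, h1, h2⟩ := hbins ω hω hp.2
    rw [Finset.mem_biUnion]
    refine ⟨b, hbb, ?_⟩
    rw [Finset.mem_product, Finset.mem_product, Finset.mem_singleton]
    exact ⟨hp.2, re6_fc_floor_near hE h1, re6_fc_floor_near hE h2⟩
  have h9 : #(bins.biUnion fun b => ({q} : Finset (ℤ × ℤ)) ×ˢ
      (Finset.Icc (⌊b.1 / E⌋ - 1) (⌊b.1 / E⌋ + 1) ×ˢ Finset.Icc (⌊b.2 / E⌋ - 1) (⌊b.2 / E⌋ + 1))) ≤ #bins * 9 := by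
    refine Finset.card_biUnion_le_card_mul _ _ 9 fun b _ => ?_
    rw [Finset.card_product, Finset.card_product, Finset.card_singleton, Int.card_Icc, Int.card_Icc]
    have e1 : (⌊b.1 / E⌋ + 1 + 1 - (⌊b.1 / E⌋ - 1)).toNat = 3 := by
      have : ⌊b.1 / E⌋ + 1 + 1 - (⌊b.1 / E⌋ - 1) = 3 := by ring
      rw [this]
      rfl
    have e2 : (⌊b.2 / E⌋ + 1 + 1 - (⌊b.2 / E⌋ - 1)).toNat = 3 := by
      have : ⌊b.2 / E⌋ + 1 + 1 - (⌊b.2 / E⌋ - 1) = 3 := by ring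
      rw [this]
      rfl
    rw [e1, e2]
  have hc : (#{p ∈ Pt | p.1 = q} : ℝ) ≤ (#bins : ℝ) * 9 := by
    exact_mod_cast (Finset.card_le_card hsub).trans h9
  linarith

theorem re6_fc_card (h : Re6Fit ξ E K S P Z0 vel cst T W μ pal) (hξ : 0 < ξ) (hE : 0 < E) (hK : 1 ≤ K) (Pt : Finset ((ℤ × ℤ) × (ℤ × ℤ)))
    (hPt : ∀ p ∈ Pt, ∃ ω ∈ W, re6Pc ξ E Z0 vel T ω = p) :
    (#Pt : ℝ) ≤ 9 * K * (((⌈K / ξ⌉ : ℝ) + 2) * (2 * (⌈K / ξ⌉ : ℝ) + 3)) := by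
  classical
  have hK0 : 0 < K := by linarith
  have hN0 : 0 ≤ ⌈K / ξ⌉ := Int.ceil_nonneg (div_nonneg hK0.le hξ.le)
  have e : (#Pt : ℝ) = ∑ q ∈ Pt.image Prod.fst, (#{p ∈ Pt | p.1 = q} : ℝ) := by
    rw [Finset.card_eq_sum_card_image Prod.fst Pt]
    push_cast
    rfl
  have hpos : Pt.image Prod.fst ⊆ Finset.Icc 0 (⌈K / ξ⌉ + 1) ×ˢ Finset.Icc (-(⌈K / ξ⌉ + 1)) (⌈K / ξ⌉ + 1) := by
    intro q hq
    rw [Finset.mem_image] at hq
    obtain ⟨p, hp, rfl⟩ := hq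
    obtain ⟨ω, hω, rfl⟩ := hPt p hp
    obtain ⟨a1, a2, a3, -⟩ := re6_fc_cell h hξ hE ω hω
    rw [Finset.mem_product]
    refine ⟨?_, re6_fc_mem_Icc _ _ a3⟩
    rw [Finset.mem_Icc]
    refine ⟨a1, ?_⟩
    have h1 : (1 : ℝ) / ξ ≤ K / ξ := div_le_div_of_nonneg_right hK hξ.le
    have h2 := Int.le_ceil (K / ξ)
    have : ((re6Pc ξ E Z0 vel T ω).1.1 : ℝ) ≤ ((⌈K / ξ⌉ + 1 : ℤ) : ℝ) := by
      push_cast
      linarith
    exact_mod_cast this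
  have hcp : (#(Pt.image Prod.fst) : ℝ) ≤ ((⌈K / ξ⌉ : ℝ) + 2) * (2 * (⌈K / ξ⌉ : ℝ) + 3) := by
    have h1 : (#(Pt.image Prod.fst) : ℝ) ≤ (#(Finset.Icc 0 (⌈K / ξ⌉ + 1) ×ˢ Finset.Icc (-(⌈K / ξ⌉ + 1)) (⌈K / ξ⌉ + 1)) : ℝ) := by
      exact_mod_cast Finset.card_le_card hpos
    rw [Finset.card_product] at h1
    push_cast at h1
    rw [re6_fc_card_Icc _ _ (by omega), re6_fc_card_Icc _ _ (by omega)] at h1
    push_cast at h1
    refine h1.trans (le_of_eq ?_)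
    ring
  rw [e]
  calc ∑ q ∈ Pt.image Prod.fst, (#{p ∈ Pt | p.1 = q} : ℝ) ≤ ∑ _q ∈ Pt.image Prod.fst, 9 * K :=
        Finset.sum_le_sum fun q _ => re6_fc_fib h hE Pt hPt q
    _ = (#(Pt.image Prod.fst) : ℝ) * (9 * K) := by rw [Finset.sum_const, nsmul_eq_mul]
    _ ≤ ((⌈K / ξ⌉ : ℝ) + 2) * (2 * (⌈K / ξ⌉ : ℝ) + 3) * (9 * K) := mul_le_mul_of_nonneg_right hcp (by positivity)
    _ = _ := by ring

theorem re6_fc_cov (h : Re6Fit ξ E K S P Z0 vel cst T W μ pal) (hξ : 0 < ξ) (hξE : ξ ≤ E) (hE1 : E ≤ 1) (hK : 1 ≤ K)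
    (Pt : Finset ((ℤ × ℤ) × (ℤ × ℤ))) (hPt : ∀ p, p ∈ Pt ↔ ∃ ω ∈ W, re6Pc ξ E Z0 vel T ω = p) (k : ℤ) :
    (#(({p ∈ Pt | 0 < (μ (re6FcF ξ E Z0 vel T ⁻¹' {(p, k)} ∩ re6FcGood K W)).toReal}).image
      fun p => re6Rd (re6Pr ((k : ℝ) * ξ) p)) : ℝ) ≤ (4 * (10 * K) + 3) ^ 2 * #Pt / (1 / (2 * K ^ 2) / ξ) := by
  classical
  have hK0 : 0 < K := by linarith
  refine re6_fit_wit Pt _ (re6Pr ((k : ℝ) * ξ))
    {Wl | ∃ l : Λ, ⌊vel l / ξ⌋ = k ∧ ¬ volume {t : ℝ | (l, t) ∈ W} < ENNReal.ofReal (1 / (2 * K ^ 2)) ∧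
      Wl = Pt.filter fun p => ∃ t, (l, t) ∈ W ∧ re6Pc ξ E Z0 vel T (l, t) = p}
    (1 / (2 * K ^ 2) / ξ) (10 * K) (by positivity) (by positivity) ?_ ?_
  · rintro Wl ⟨l, hl, hgood, rfl⟩
    refine ⟨Finset.filter_subset _ _, ?_, ?_⟩
    · have key := re6_fit_time ξ (1 / (2 * K ^ 2)) hξ {t : ℝ | (l, t) ∈ W}
        ((Pt.filter fun p => ∃ t, (l, t) ∈ W ∧ re6Pc ξ E Z0 vel T (l, t) = p).image fun p => p.1.1) (by
          intro t ht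
          rw [Finset.mem_image]
          exact ⟨re6Pc ξ E Z0 vel T (l, t), Finset.mem_filter.2 ⟨(hPt _).2 ⟨(l, t), ht, rfl⟩, t, ht, rfl⟩, rfl⟩) (not_lt.1 hgood)
      refine key.trans ?_
      exact_mod_cast Finset.card_image_le
    · intro p hp p' hp'
      obtain ⟨-, t, ht, rfl⟩ := Finset.mem_filter.1 hp
      obtain ⟨-, t', ht', rfl⟩ := Finset.mem_filter.1 hp'
      have key := re6_fit_diam ξ E K S P Z0 vel cst T W μ pal h hK hξ (hξE.trans hE1) hξE l t t' ht ht'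
      rw [hl] at key
      exact key
  · intro p hp
    obtain ⟨hpPt, hpos⟩ := Finset.mem_filter.1 hp
    have hne : (re6FcF ξ E Z0 vel T ⁻¹' {(p, k)} ∩ re6FcGood K W).Nonempty := by
      by_contra hemp
      rw [Set.not_nonempty_iff_eq_empty] at hemp
      rw [hemp, measure_empty] at hpos
      simp at hpos
    obtain ⟨ω, hω1, hω2, hω3⟩ := hne
    have e1 : re6Pc ξ E Z0 vel T ω = p := congrArg Prod.fst hω1
    have e2 : ⌊vel ω.1 / ξ⌋ = k := congrArg Prod.snd hω1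
    exact ⟨_, ⟨ω.1, e2, hω3, rfl⟩, Finset.mem_filter.2 ⟨hpPt, ω.2, hω2, e1⟩⟩

end meas

theorem re6_fc_main (C : ℕ) (hC : 1000000 ≤ C) (ξ E K S : ℝ) (Λ : Type) [MeasurableSpace Λ] (P : Measure Λ) (Z0 vel cst : Λ → ℝ)
    (T : Λ × ℝ → ℝ × ℝ) (W : Set (Λ × ℝ)) (μ : Measure (Λ × ℝ)) (pal : Measure ℝ) (hξ : 0 < ξ) (hξE : ξ ≤ E) (hE1 : E ≤ 1) (hK : 1 ≤ K)
    (hS : 0 < S) (h : Re6Fit ξ E K S P Z0 vel cst T W μ pal) :
    ∃ (D : Type) (_ : Fintype D) (Pt : Finset ((ℤ × ℤ) × (ℤ × ℤ))) (vel' pal' : D → ℝ) (m : (ℤ × ℤ) × (ℤ × ℤ) → D → ℝ),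
      Re6Core (1 / ξ) (C * K ^ C) S Pt vel' pal' m ∧ (∀ p ∈ Pt, |(p.2.1 : ℝ)| ≤ K / E + 1 ∧ |(p.2.2 : ℝ)| ≤ K / E + 1) ∧
      ∀ Sel ⊆ Pt, ENNReal.ofReal (∑ p ∈ Sel, ∑ d, m p d) ≤ μ {ω | ω ∈ W ∧ re6Pc ξ E Z0 vel T ω ∈ Sel} := by
  classical
  have hfinμ := re6_fc_finite h
  have hE : 0 < E := lt_of_lt_of_le hξ hξE
  have hK0 : 0 < K := by linarith
  have hξ1 : ξ ≤ 1 := hξE.trans hE1
  have hCr : (1000000 : ℝ) ≤ (C : ℝ) := by exact_mod_cast hC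
  obtain ⟨Kc, hKc⟩ : ∃ Kc : ℝ, Kc = (C : ℝ) * K ^ C := ⟨_, rfl⟩
  rw [← hKc]
  have cst : ∀ (a : ℝ) (j : ℕ), a ≤ 1000000 → j ≤ 1000000 → a * K ^ j ≤ Kc := fun a j ha hj => by
    rw [hKc]
    exact re6_fc_const hK C a j (ha.trans hCr) (hj.trans hC)
  obtain ⟨L, hL⟩ : ∃ L : ℝ, L = 1 / ξ := ⟨_, rfl⟩
  have hξL : ξ = 1 / L := by rw [hL, one_div_one_div]
  have hL1 : 1 ≤ L := by
    rw [hL, le_div_iff₀ hξ]
    linarith
  have hL0 : 0 < L := by linarith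
  have hKL : K / ξ = K * L := by
    rw [hL]
    ring
  have hceil1 : K * L ≤ (⌈K / ξ⌉ : ℝ) := hKL ▸ Int.le_ceil _
  have hceil2 : (⌈K / ξ⌉ : ℝ) < K * L + 1 := hKL ▸ Int.ceil_lt_add_one _
  have hKL1 : 1 ≤ K * L := by nlinarith
  have hKc1 : 1 ≤ Kc := by
    have := cst 1 0 (by norm_num) (by norm_num)
    simpa using this
  have hKc0 : 0 < Kc := by linarith
  have hEξ : K / E ≤ K / ξ := div_le_div_of_nonneg_left hK0.le hξ hξE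
  have hfin : {p | ∃ ω ∈ W, re6Pc ξ E Z0 vel T ω = p}.Finite := by
    refine Set.Finite.subset (Finset.finite_toSet ((Finset.Icc (-(⌈K / ξ⌉ + 1)) (⌈K / ξ⌉ + 1) ×ˢ Finset.Icc (-(⌈K / ξ⌉ + 1)) (⌈K / ξ⌉ + 1)) ×ˢ
      (Finset.Icc (-(⌈K / ξ⌉ + 1)) (⌈K / ξ⌉ + 1) ×ˢ Finset.Icc (-(⌈K / ξ⌉ + 1)) (⌈K / ξ⌉ + 1)))) ?_
    rintro p ⟨ω, hω, rfl⟩
    obtain ⟨a1, a2, a3, a4, a5, -⟩ := re6_fc_cell h hξ hE ω hω
    rw [Finset.mem_coe, Finset.mem_product, Finset.mem_product, Finset.mem_product]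
    refine ⟨⟨re6_fc_mem_Icc _ _ ?_, re6_fc_mem_Icc _ _ a3⟩, re6_fc_mem_Icc _ _ (a4.trans (by linarith)),
      re6_fc_mem_Icc _ _ (a5.trans (by linarith))⟩
    rw [abs_of_nonneg (by exact_mod_cast a1)]
    have : (1 : ℝ) / ξ ≤ K / ξ := div_le_div_of_nonneg_right hK hξ.le
    linarith
  obtain ⟨Pt, hPt⟩ : ∃ Pt : Finset ((ℤ × ℤ) × (ℤ × ℤ)), ∀ p, p ∈ Pt ↔ ∃ ω ∈ W, re6Pc ξ E Z0 vel T ω = p :=
    ⟨hfin.toFinset, fun p => by rw [Set.Finite.mem_toFinset]; rfl⟩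
  have hPt' : ∀ p ∈ Pt, ∃ ω ∈ W, re6Pc ξ E Z0 vel T ω = p := fun p hp => (hPt p).1 hp
  obtain ⟨hp1, hpF⟩ := re6_fit_pal ξ K S pal (Finset.Icc (-(⌈K / ξ⌉ + 1)) (⌈K / ξ⌉ + 1)) hξ hξ1 hK hS h.hpal1 h.hpal
  have hpalfin : ∀ s : Set ℝ, pal s ≠ ⊤ := fun s =>
    ne_top_of_le_ne_top ENNReal.one_ne_top ((measure_mono (Set.subset_univ s)).trans h.hpal1)
  have hcardPt : (#Pt : ℝ) ≤ 252 * K ^ 3 * L ^ 2 := by
    refine (re6_fc_card h hξ hE hK Pt hPt').trans ?_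
    have b1 : (⌈K / ξ⌉ : ℝ) + 2 ≤ 4 * (K * L) := by linarith
    have b2 : 2 * (⌈K / ξ⌉ : ℝ) + 3 ≤ 7 * (K * L) := by linarith
    have b3 : 0 ≤ (⌈K / ξ⌉ : ℝ) + 2 := by linarith
    calc 9 * K * (((⌈K / ξ⌉ : ℝ) + 2) * (2 * (⌈K / ξ⌉ : ℝ) + 3)) ≤ 9 * K * ((4 * (K * L)) * (7 * (K * L))) := by
          refine mul_le_mul_of_nonneg_left (mul_le_mul b1 b2 (by linarith) (by positivity)) (by positivity)
      _ = 252 * K ^ 3 * L ^ 2 := by ring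
  refine ⟨{k // k ∈ Finset.Icc (-(⌈K / ξ⌉ + 1)) (⌈K / ξ⌉ + 1)}, Finset.Subtype.fintype _, Pt, fun k => ((k : ℤ) : ℝ) * ξ,
    fun k => (pal (Set.Ico ((k : ℤ) * ξ) (((k : ℤ) + 1) * ξ))).toReal,
    fun p d => (μ (re6FcF ξ E Z0 vel T ⁻¹' {(p, (d : ℤ))} ∩ re6FcGood K W)).toReal, ?_, ?_, ?_⟩
  · rw [← hL]
    refine ⟨fun p d => ENNReal.toReal_nonneg, ?_, ?_, ?_, ?_, ?_, ?_, fun d => ENNReal.toReal_nonneg, hp1, ?_, ?_⟩
    · -- hmass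
      rw [re6_fc_sum2 h Pt]
      have hsub : re6FcGood K W ⊆ re6FcF ξ E Z0 vel T ⁻¹'
          ((Pt ×ˢ Finset.Icc (-(⌈K / ξ⌉ + 1)) (⌈K / ξ⌉ + 1) : Finset _) : Set (((ℤ × ℤ) × (ℤ × ℤ)) × ℤ)) := by
        intro ω hω
        have hωW : ω ∈ W := hω.1
        obtain ⟨-, -, -, -, -, a6⟩ := re6_fc_cell h hξ hE ω hωW
        show re6FcF ξ E Z0 vel T ω ∈ ((Pt ×ˢ Finset.Icc (-(⌈K / ξ⌉ + 1)) (⌈K / ξ⌉ + 1) : Finset _) : Set (((ℤ × ℤ) × (ℤ × ℤ)) × ℤ))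
        rw [Finset.mem_coe, Finset.mem_product]
        exact ⟨(hPt _).2 ⟨ω, hωW, rfl⟩, re6_fc_mem_Icc _ _ a6⟩
      rw [Set.inter_eq_self_of_subset_right hsub]
      refine le_trans ?_ (re6_fc_massGood h hK)
      apply one_div_le_one_div_of_le (by positivity)
      have := cst 2 1 (by norm_num) (by norm_num)
      simpa using this
    · -- hbd
      intro p hp
      obtain ⟨ω, hω, rfl⟩ := hPt' p hp
      obtain ⟨a1, a2, a3, a4, a5, -⟩ := re6_fc_cell h hξ hE ω hω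
      have c2 : 2 * K ≤ Kc := by
        have := cst 2 1 (by norm_num) (by norm_num)
        simpa using this
      have c3 : K * L + 1 ≤ Kc * L := by nlinarith
      rw [hKL] at a3 hEξ
      refine ⟨?_, a3.trans c3, a4.trans (by linarith), a5.trans (by linarith)⟩
      have a1' : (0 : ℝ) ≤ ((re6Pc ξ E Z0 vel T ω).1.1 : ℝ) := by exact_mod_cast a1
      rw [abs_of_nonneg a1']
      rw [← hL] at a2
      nlinarith
    · -- hvel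
      rintro ⟨k, hk⟩
      rw [Finset.mem_Icc] at hk
      have k1 : ((-(⌈K / ξ⌉ + 1) : ℤ) : ℝ) ≤ (k : ℝ) := by exact_mod_cast hk.1
      have k2 : (k : ℝ) ≤ ((⌈K / ξ⌉ + 1 : ℤ) : ℝ) := by exact_mod_cast hk.2
      push_cast at k1 k2
      have c3 : 3 * K ≤ Kc := by
        have := cst 3 1 (by norm_num) (by norm_num)
        simpa using this
      have hLξ : L * ξ = 1 := by
        rw [hL]
        field_simp
      show |(k : ℝ) * ξ| ≤ Kc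
      rw [abs_mul, abs_of_pos hξ]
      have k3 : |(k : ℝ)| ≤ K * L + 2 := by
        rw [abs_le]
        constructor <;> linarith
      calc |(k : ℝ)| * ξ ≤ (K * L + 2) * ξ := mul_le_mul_of_nonneg_right k3 hξ.le
        _ = K * (L * ξ) + 2 * ξ := by ring
        _ ≤ 3 * K := by
          rw [hLξ]
          linarith
        _ ≤ Kc := c3
    · -- hD
      rw [Fintype.card_coe, re6_fc_card_Icc _ _ (by
        have := Int.ceil_nonneg (div_nonneg hK0.le hξ.le)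
        omega)]
      push_cast
      have c7 : 7 * K ≤ Kc := by
        have := cst 7 1 (by norm_num) (by norm_num)
        simpa using this
      nlinarith
    · -- hfib
      intro q
      refine (re6_fc_fib h hE Pt hPt' q).trans ?_
      have := cst 9 1 (by norm_num) (by norm_num)
      simpa using this
    · -- hcap
      rintro q ⟨k, hk⟩
      show ∑ p ∈ Pt with p.1 = q, (μ (re6FcF ξ E Z0 vel T ⁻¹' {(p, k)} ∩ re6FcGood K W)).toReal ≤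
        Kc * (pal (Set.Ico ((k : ℝ) * ξ) (((k : ℝ) + 1) * ξ))).toReal / L ^ 2
      rw [re6_fc_sum1 h]
      have hsub : re6FcF ξ E Z0 vel T ⁻¹' ((({p ∈ Pt | p.1 = q}) ×ˢ {k} : Finset _) : Set (((ℤ × ℤ) × (ℤ × ℤ)) × ℤ)) ∩ re6FcGood K W ⊆
          {ω | re6Zc ξ Z0 vel ω = q ∧ ⌊vel ω.1 / ξ⌋ = k} := by
        rintro ω ⟨hω, -⟩
        have hω' : re6FcF ξ E Z0 vel T ω ∈ ((({p ∈ Pt | p.1 = q}) ×ˢ {k} : Finset _) : Set (((ℤ × ℤ) × (ℤ × ℤ)) × ℤ)) := hω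
        rw [Finset.mem_coe, Finset.mem_product, Finset.mem_filter, Finset.mem_singleton] at hω'
        exact ⟨hω'.1.2, hω'.2⟩
      have hle := (measure_mono hsub).trans (h.hcap q k)
      have hle' := ENNReal.toReal_mono (ENNReal.mul_ne_top ENNReal.ofReal_ne_top (hpalfin _)) hle
      rw [ENNReal.toReal_mul, ENNReal.toReal_ofReal (by positivity)] at hle'
      refine hle'.trans ?_
      have cK : K ≤ Kc := by
        have := cst 1 1 (by norm_num) (by norm_num)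
        simpa using this
      have e : K * ξ ^ 2 = K / L ^ 2 := by
        rw [hξL]
        field_simp
      rw [e, div_mul_eq_mul_div]
      exact div_le_div_of_nonneg_right (mul_le_mul_of_nonneg_right cK ENNReal.toReal_nonneg) (by positivity)
    · -- hFr
      have e : 1 / L = ξ := by rw [hL, one_div_one_div]
      rw [e]
      intro z r hr1 hr2
      refine (hpF z r hr1 hr2).trans ?_
      have c3 : 3 * K ≤ Kc := by
        have := cst 3 1 (by norm_num) (by norm_num)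
        simpa using this
      exact mul_le_mul_of_nonneg_right c3 (Real.rpow_nonneg (hξ.le.trans hr1) _)
    · -- hcov
      rintro ⟨k, hk⟩
      refine (re6_fc_cov h hξ hξE hE1 hK Pt hPt k).trans ?_
      have a1 : (4 * (10 * K) + 3) ^ 2 ≤ 1849 * K ^ 2 := by nlinarith
      have a3 : 931896 * K ^ 7 ≤ Kc := cst 931896 7 (by norm_num) (by norm_num)
      have hn₀ : 1 / (2 * K ^ 2) / ξ = L / (2 * K ^ 2) := by
        rw [hξL]
        field_simp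
      rw [hn₀]
      calc (4 * (10 * K) + 3) ^ 2 * (#Pt : ℝ) / (L / (2 * K ^ 2)) ≤ (1849 * K ^ 2) * (252 * K ^ 3 * L ^ 2) / (L / (2 * K ^ 2)) := by
            refine div_le_div_of_nonneg_right (mul_le_mul a1 hcardPt (Nat.cast_nonneg _) (by positivity)) (by positivity)
        _ = 931896 * K ^ 7 * L := by
            field_simp
            ring
        _ ≤ Kc * L := mul_le_mul_of_nonneg_right a3 hL0.le
  · intro p hp
    obtain ⟨ω, hω, rfl⟩ := hPt' p hp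
    obtain ⟨-, -, -, a4, a5, -⟩ := re6_fc_cell h hξ hE ω hω
    exact ⟨a4, a5⟩
  · intro Sel _
    rw [re6_fc_sum2 h Sel, ENNReal.ofReal_toReal (measure_ne_top _ _)]
    refine measure_mono ?_
    rintro ω ⟨hω, hg⟩
    have hω' : re6FcF ξ E Z0 vel T ω ∈ ((Sel ×ˢ Finset.Icc (-(⌈K / ξ⌉ + 1)) (⌈K / ξ⌉ + 1) : Finset _) : Set (((ℤ × ℤ) × (ℤ × ℤ)) × ℤ)) := hω
    rw [Finset.mem_coe, Finset.mem_product] at hω'
    exact ⟨hg.1, hω'.1⟩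

theorem re6_fit_core : ∃ C : ℕ, 1 ≤ C ∧ ∀ (ξ E K S : ℝ) (Λ : Type) [MeasurableSpace Λ] (P : Measure Λ) (Z0 vel cst : Λ → ℝ) (T : Λ × ℝ → ℝ × ℝ)
    (W : Set (Λ × ℝ)) (μ : Measure (Λ × ℝ)) (pal : Measure ℝ), 0 < ξ → ξ ≤ E → E ≤ 1 → 1 ≤ K → 0 < S →
    Re6Fit ξ E K S P Z0 vel cst T W μ pal →
    ∃ (D : Type) (_ : Fintype D) (Pt : Finset ((ℤ × ℤ) × (ℤ × ℤ))) (vel' pal' : D → ℝ) (m : (ℤ × ℤ) × (ℤ × ℤ) → D → ℝ),
      Re6Core (1 / ξ) (C * K ^ C) S Pt vel' pal' m ∧ (∀ p ∈ Pt, |(p.2.1 : ℝ)| ≤ K / E + 1 ∧ |(p.2.2 : ℝ)| ≤ K / E + 1) ∧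
      ∀ Sel ⊆ Pt, ENNReal.ofReal (∑ p ∈ Sel, ∑ d, m p d) ≤ μ {ω | ω ∈ W ∧ re6Pc ξ E Z0 vel T ω ∈ Sel} :=
  ⟨1000000, by norm_num, fun ξ E K S Λ _ P Z0 vel cst T W μ pal hξ hξE hE1 hK hS h =>
    re6_fc_main 1000000 le_rfl ξ E K S Λ P Z0 vel cst T W μ pal hξ hξE hE1 hK hS h⟩

end Claimed.Agent.R252

end PkRe6FitCore

section PkRe6Fit

/-!
# Row 252, unit Re6.  CONTRACT `Fit`: **L a06:row-fit** (affine-skew row fit), THE EXPORT of Sec. 6a (used 07 l.999, 08 l.126-134).   Architect helper183.  GLUE (leaf L-252-RE6-FIT).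

"subpower" = `∀ τ' ∃ τ`:  data with `K ≤ ξ^(-τ)`  ⟹  `T = B + λ J z + O(ξ^(-τ') E)` on `μ`-mass `≥ ξ^τ'`, `|B| + |λ| ≤ ξ^(-τ')`;   `J (t, Z) = (-Z, t)`.
PROOF.  `E > 1`: `B = λ = 0`, the set contains `W`.   `E ≤ 1`: `re6_fit_core`, `re6_core S τ''` (`L = 1/ξ`): `Sel, B', λ₀`, `M = L^τ''`;  `re6_core_coeff` with `Rb = K/E + 1`: `|λ₀| ≤ K* Rb/L`, `|B'| ≤ K* Rb`.
On a cell of `Sel`: `T₁/E = p_V1 + g`, `Z/ξ = p_Z + f`:  `|T₁/E - B'₁ + λ₀ Z/ξ| ≤ M + 1 + |λ₀|`;  multiply by `E`:  `B = E B'`, `λ = E λ₀/ξ`, `|λ| ≤ K* E Rb ≤ K* (K + 1)`.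
-/

set_option autoImplicit false

namespace Claimed.Agent.R252

open Finset MeasureTheory

/-- undoing the scaling of one coordinate -/
theorem re6_fit_undo (ξ E M lam₀ B' x Tv : ℝ) (hξ : 0 < ξ) (hE : 0 < E)
    (h : |((⌊Tv / E⌋ : ℤ) : ℝ) - B' + lam₀ * ((⌊x / ξ⌋ : ℤ) : ℝ)| ≤ M) :
    |Tv - E * B' + E * lam₀ / ξ * x| ≤ (M + 1 + |lam₀|) * E := by
  have e1 : ((⌊Tv / E⌋ : ℤ) : ℝ) = Tv / E - Int.fract (Tv / E) := by
    rw [Int.fract]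
    ring
  have e2 : ((⌊x / ξ⌋ : ℤ) : ℝ) = x / ξ - Int.fract (x / ξ) := by
    rw [Int.fract]
    ring
  rw [e1, e2] at h
  have g0 := Int.fract_nonneg (Tv / E)
  have g1 := (Int.fract_lt_one (Tv / E)).le
  have f0 := Int.fract_nonneg (x / ξ)
  have f1 := (Int.fract_lt_one (x / ξ)).le
  have e3 : Tv - E * B' + E * lam₀ / ξ * x = E * ((Tv / E - Int.fract (Tv / E) - B' + lam₀ * (x / ξ - Int.fract (x / ξ))) +
      Int.fract (Tv / E) + lam₀ * Int.fract (x / ξ)) := by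
    field_simp
    ring
  rw [e3, abs_mul, abs_of_pos hE, mul_comm]
  refine mul_le_mul_of_nonneg_right ?_ hE.le
  have h1 : |lam₀ * Int.fract (x / ξ)| ≤ |lam₀| := by
    rw [abs_mul, abs_of_nonneg f0]
    exact mul_le_of_le_one_right (abs_nonneg _) f1
  have h2 : |Int.fract (Tv / E)| ≤ 1 := by
    rw [abs_of_nonneg g0]
    exact g1
  refine (abs_add_three _ _ _).trans ?_
  linarith

/-- the case `E > 1` -/
theorem re6_fit_triv {Λ : Type} [MeasurableSpace Λ] (ξ E K S X x : ℝ) (P : Measure Λ) (Z0 vel cst : Λ → ℝ) (T : Λ × ℝ → ℝ × ℝ)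
    (W : Set (Λ × ℝ)) (μ : Measure (Λ × ℝ)) (pal : Measure ℝ) (hfit : Re6Fit ξ E K S P Z0 vel cst T W μ pal)
    (hK : 1 ≤ K) (hKX : K ≤ X) (hx : x ≤ 1 / K) (hE : 1 < E) :
    ∃ B₁ B₂ lam : ℝ, |B₁| ≤ X ∧ |B₂| ≤ X ∧ |lam| ≤ X ∧
      ENNReal.ofReal x ≤ μ {ω | ω ∈ W ∧ |(T ω).1 - B₁ + lam * (Z0 ω.1 + vel ω.1 * ω.2)| ≤ X * E ∧
        |(T ω).2 - B₂ - lam * ω.2| ≤ X * E} := by
  have hX0 : 0 ≤ X := by linarith
  refine ⟨0, 0, 0, by rw [abs_zero]; exact hX0, by rw [abs_zero]; exact hX0, by rw [abs_zero]; exact hX0, ?_⟩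
  have h1 : μ Set.univ ≤ μ W := by
    calc μ Set.univ = μ (W ∪ Wᶜ) := by rw [Set.union_compl_self]
      _ ≤ μ W + μ Wᶜ := measure_union_le _ _
      _ = μ W := by rw [hfit.hW, add_zero]
  refine (ENNReal.ofReal_le_ofReal hx).trans (hfit.hmass.trans (h1.trans (measure_mono fun ω hω => ?_)))
  have h3 := hfit.hT ω hω
  have h4 : K ≤ X * E := by
    calc K ≤ X := hKX
      _ = X * 1 := (mul_one X).symm
      _ ≤ X * E := mul_le_mul_of_nonneg_left hE.le hX0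
  refine ⟨hω, ?_, ?_⟩
  · rw [sub_zero, zero_mul, add_zero]
    exact h3.1.trans h4
  · rw [sub_zero, zero_mul, sub_zero]
    exact h3.2.trans h4

/-- the case `E ≤ 1`: from the fit on the selected cells to the fit on incidences -/
theorem re6_fit_main {Λ : Type} [MeasurableSpace Λ] (ξ E K u X x Kst B₁ B₂ lam₀ mass : ℝ) (N : ℕ) (Z0 vel : Λ → ℝ)
    (T : Λ × ℝ → ℝ × ℝ) (W : Set (Λ × ℝ)) (μ : Measure (Λ × ℝ)) (Sel : Finset ((ℤ × ℤ) × (ℤ × ℤ)))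
    (hξ : 0 < ξ) (hξ1 : ξ ≤ 1) (hξE : ξ ≤ E) (hE1 : E ≤ 1) (hK : 1 ≤ K) (hu3 : 3 ≤ u) (hKu : K ≤ u)
    (hKst0 : 0 ≤ Kst) (hKst : Kst ≤ u ^ N) (hX : u ^ (N + 3) ≤ X)
    (hc1 : |lam₀| ≤ Kst * (K / E + 1) / (1 / ξ)) (hc2 : |B₁| ≤ Kst * (K / E + 1)) (hc3 : |B₂| ≤ Kst * (K / E + 1))
    (hx : x ≤ mass) (hsel : ENNReal.ofReal mass ≤ μ {ω | ω ∈ W ∧ re6Pc ξ E Z0 vel T ω ∈ Sel})
    (hfitp : ∀ p ∈ Sel, |(p.2.1 : ℝ) - B₁ + lam₀ * p.1.2| ≤ u ∧ |(p.2.2 : ℝ) - B₂ - lam₀ * p.1.1| ≤ u) :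
    ∃ B₁ B₂ lam : ℝ, |B₁| ≤ X ∧ |B₂| ≤ X ∧ |lam| ≤ X ∧
      ENNReal.ofReal x ≤ μ {ω | ω ∈ W ∧ |(T ω).1 - B₁ + lam * (Z0 ω.1 + vel ω.1 * ω.2)| ≤ X * E ∧
        |(T ω).2 - B₂ - lam * ω.2| ≤ X * E} := by
  have hE0 : 0 < E := hξ.trans_le hξE
  have hu1 : 1 ≤ u := by linarith
  have hu0 : 0 < u := by linarith
  have hu2 : K + 1 ≤ u * u := by
    have h1 : 3 * u ≤ u * u := mul_le_mul_of_nonneg_right hu3 hu0.le
    linarith
  have hERb : E * (K / E + 1) ≤ u * u := by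
    have e : E * (K / E + 1) = K + E := by
      field_simp
    rw [e]
    linarith
  have hbig : Kst * (u * u) ≤ u ^ (N + 2) := by
    calc Kst * (u * u) ≤ u ^ N * (u * u) := mul_le_mul_of_nonneg_right hKst (by positivity)
      _ = u ^ (N + 2) := by ring
  have hbigX : u ^ (N + 2) ≤ X := (pow_le_pow_right₀ hu1 (by omega)).trans hX
  have hEB : ∀ B : ℝ, |B| ≤ Kst * (K / E + 1) → |E * B| ≤ X := by
    intro B hB
    rw [abs_mul, abs_of_pos hE0]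
    calc E * |B| ≤ E * (Kst * (K / E + 1)) := mul_le_mul_of_nonneg_left hB hE0.le
      _ = Kst * (E * (K / E + 1)) := by ring
      _ ≤ Kst * (u * u) := mul_le_mul_of_nonneg_left hERb hKst0
      _ ≤ X := hbig.trans hbigX
  have hlam : |E * lam₀ / ξ| ≤ X := by
    have e : E * lam₀ / ξ = E * (lam₀ * (1 / ξ)) := by ring
    rw [e]
    refine hEB _ ?_
    rw [abs_mul, abs_of_pos (by positivity : (0 : ℝ) < 1 / ξ)]
    rwa [le_div_iff₀ (by positivity : (0 : ℝ) < 1 / ξ)] at hc1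
  have hlam₀ : |lam₀| ≤ u ^ (N + 2) := by
    have h1 : (K / E + 1) / (1 / ξ) ≤ u * u := by
      have e : (K / E + 1) / (1 / ξ) = K * (ξ / E) + ξ := by
        field_simp
      rw [e]
      have h2 : ξ / E ≤ 1 := (div_le_one hE0).2 hξE
      have h3 : K * (ξ / E) ≤ K * 1 := mul_le_mul_of_nonneg_left h2 (by linarith)
      linarith
    calc |lam₀| ≤ Kst * (K / E + 1) / (1 / ξ) := hc1
      _ = Kst * ((K / E + 1) / (1 / ξ)) := by ring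
      _ ≤ Kst * (u * u) := mul_le_mul_of_nonneg_left h1 hKst0
      _ ≤ _ := hbig
  have herr : u + 1 + |lam₀| ≤ X := by
    have h1 : u ≤ u ^ (N + 2) := le_self_pow₀ hu1 (by omega)
    have h2 : 1 ≤ u ^ (N + 2) := one_le_pow₀ hu1
    have h3 : u ^ (N + 3) = u * u ^ (N + 2) := by ring
    have h4 : 3 * u ^ (N + 2) ≤ u * u ^ (N + 2) := mul_le_mul_of_nonneg_right hu3 (by positivity)
    rw [h3] at hX
    linarith
  refine ⟨E * B₁, E * B₂, E * lam₀ / ξ, hEB _ hc2, hEB _ hc3, hlam, ?_⟩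
  refine (ENNReal.ofReal_le_ofReal hx).trans (hsel.trans (measure_mono fun ω hω => ?_))
  obtain ⟨hωW, hωS⟩ := hω
  obtain ⟨ha, hb⟩ := hfitp _ hωS
  refine ⟨hωW, ?_, ?_⟩
  · refine (re6_fit_undo ξ E u lam₀ B₁ (Z0 ω.1 + vel ω.1 * ω.2) (T ω).1 hξ hE0 ha).trans ?_
    exact mul_le_mul_of_nonneg_right herr hE0.le
  · have hb' : |((⌊(T ω).2 / E⌋ : ℤ) : ℝ) - B₂ + (-lam₀) * ((⌊ω.2 / ξ⌋ : ℤ) : ℝ)| ≤ u := by
      rw [neg_mul, ← sub_eq_add_neg]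
      exact hb
    have h2 := re6_fit_undo ξ E u (-lam₀) B₂ ω.2 (T ω).2 hξ hE0 hb'
    have e : (T ω).2 - E * B₂ + E * (-lam₀) / ξ * ω.2 = (T ω).2 - E * B₂ - E * lam₀ / ξ * ω.2 := by ring
    rw [e, abs_neg] at h2
    exact h2.trans (mul_le_mul_of_nonneg_right herr hE0.le)

/-- the numerology: `u = L^η` dominates all constants, `u^n` is still small -/
theorem re6_fit_num (τ' η η₂ τ₂ A L K : ℝ) (C₁ C₂ n : ℕ) (hC₁ : 1 ≤ C₁) (hη₂0 : 0 < η₂) (hη₂a : η₂ ≤ η) (hη₂b : η₂ ≤ τ₂)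
    (hηn1 : η * n ≤ τ') (hηn2 : η * n ≤ 1) (hA3 : 3 ≤ A) (hAC₁ : (C₁ : ℝ) ≤ A) (hAC₂ : (C₂ : ℝ) ≤ A) (hL1 : 1 ≤ L)
    (hAL : A ^ (2 / η₂) ≤ L) (hK : 1 ≤ K) (hKL : K ≤ L ^ (η₂ / (2 * C₁))) :
    3 ≤ L ^ η ∧ (C₂ : ℝ) ≤ L ^ η ∧ (∀ k : ℕ, k ≤ n → (L ^ η) ^ k ≤ L ^ τ' ∧ (L ^ η) ^ k ≤ L) ∧
      1 ≤ (C₁ : ℝ) * K ^ C₁ ∧ K ≤ (C₁ : ℝ) * K ^ C₁ ∧ (C₁ : ℝ) * K ^ C₁ ≤ L ^ η ∧ (C₁ : ℝ) * K ^ C₁ ≤ L ^ τ₂ := by
  have hL0 : 0 < L := by linarith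
  have hC₁r : (1 : ℝ) ≤ C₁ := by exact_mod_cast hC₁
  have hy : A ≤ L ^ (η₂ / 2) := by
    have h2 : 2 / η₂ * (η₂ / 2) = 1 := by field_simp
    calc A = (A ^ (2 / η₂)) ^ (η₂ / 2) := by rw [← Real.rpow_mul (by linarith), h2, Real.rpow_one]
      _ ≤ L ^ (η₂ / 2) := Real.rpow_le_rpow (by positivity) hAL (by positivity)
  have hyu : L ^ (η₂ / 2) ≤ L ^ η := Real.rpow_le_rpow_of_exponent_le hL1 (by linarith)
  have hu3 : 3 ≤ L ^ η := hA3.trans (hy.trans hyu)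
  have hu1 : 1 ≤ L ^ η := by linarith
  have hKpow : K ^ C₁ ≤ L ^ (η₂ / 2) := by
    calc K ^ C₁ ≤ (L ^ (η₂ / (2 * C₁))) ^ C₁ := pow_le_pow_left₀ (by linarith) hKL _
      _ = L ^ (η₂ / 2) := by
          rw [← Real.rpow_natCast, ← Real.rpow_mul hL0.le]
          congr 1
          field_simp
  have hK₁ : (C₁ : ℝ) * K ^ C₁ ≤ L ^ η₂ := by
    calc (C₁ : ℝ) * K ^ C₁ ≤ L ^ (η₂ / 2) * L ^ (η₂ / 2) :=
          mul_le_mul (hAC₁.trans hy) hKpow (by positivity) (by positivity)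
      _ = L ^ η₂ := by
          rw [← Real.rpow_add hL0]
          congr 1
          ring
  have hKp1 : 1 ≤ K ^ C₁ := one_le_pow₀ hK
  have hKp0 : 0 ≤ K ^ C₁ := by linarith
  have hmul : 1 * K ^ C₁ ≤ (C₁ : ℝ) * K ^ C₁ := mul_le_mul_of_nonneg_right hC₁r hKp0
  rw [one_mul] at hmul
  refine ⟨hu3, hAC₂.trans (hy.trans hyu), ?_, hKp1.trans hmul, (le_self_pow₀ hK (by omega)).trans hmul,
    hK₁.trans (Real.rpow_le_rpow_of_exponent_le hL1 hη₂a), hK₁.trans (Real.rpow_le_rpow_of_exponent_le hL1 hη₂b)⟩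
  intro k hk
  have h1 : (L ^ η) ^ k ≤ (L ^ η) ^ n := pow_le_pow_right₀ hu1 hk
  have h2 : (L ^ η) ^ n = L ^ (η * n) := by rw [← Real.rpow_natCast, ← Real.rpow_mul hL0.le]
  rw [h2] at h1
  refine ⟨h1.trans (Real.rpow_le_rpow_of_exponent_le hL1 hηn1), h1.trans ?_⟩
  calc L ^ (η * n) ≤ L ^ (1 : ℝ) := Real.rpow_le_rpow_of_exponent_le hL1 hηn2
    _ = L := Real.rpow_one L

/-- `re6_fit_core` with a positive constant -/
theorem re6_fit_core_pos : ∃ C : ℕ, 1 ≤ C ∧ ∀ (ξ E K S : ℝ) (Λ : Type) [MeasurableSpace Λ] (P : Measure Λ) (Z0 vel cst : Λ → ℝ) (T : Λ × ℝ → ℝ × ℝ)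
    (W : Set (Λ × ℝ)) (μ : Measure (Λ × ℝ)) (pal : Measure ℝ), 0 < ξ → ξ ≤ E → E ≤ 1 → 1 ≤ K → 0 < S →
    Re6Fit ξ E K S P Z0 vel cst T W μ pal →
    ∃ (D : Type) (_ : Fintype D) (Pt : Finset ((ℤ × ℤ) × (ℤ × ℤ))) (vel' pal' : D → ℝ) (m : (ℤ × ℤ) × (ℤ × ℤ) → D → ℝ),
      Re6Core (1 / ξ) (C * K ^ C) S Pt vel' pal' m ∧ (∀ p ∈ Pt, |(p.2.1 : ℝ)| ≤ K / E + 1 ∧ |(p.2.2 : ℝ)| ≤ K / E + 1) ∧
      ∀ Sel ⊆ Pt, ENNReal.ofReal (∑ p ∈ Sel, ∑ d, m p d) ≤ μ {ω | ω ∈ W ∧ re6Pc ξ E Z0 vel T ω ∈ Sel} :=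
  ⟨1000000, by norm_num, fun ξ E K S Λ _ P Z0 vel cst T W μ pal hξ hξE hE1 hK hS h =>
    re6_fc_main 1000000 le_rfl ξ E K S Λ P Z0 vel cst T W μ pal hξ hξE hE1 hK hS h⟩

/-- **L a06:row-fit** -/
theorem re6_row_fit (S τ' : ℝ) (hS : 0 < S) (hτ' : 0 < τ') :
    ∃ τ ξ₀ : ℝ, 0 < τ ∧ 0 < ξ₀ ∧ ∀ ξ E K : ℝ, 0 < ξ → ξ < ξ₀ → ξ ≤ E → 1 ≤ K → K ≤ ξ ^ (-τ) →
      ∀ (Λ : Type) [MeasurableSpace Λ] (P : Measure Λ) (Z0 vel cst : Λ → ℝ) (T : Λ × ℝ → ℝ × ℝ) (W : Set (Λ × ℝ)) (μ : Measure (Λ × ℝ))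
        (pal : Measure ℝ), Re6Fit ξ E K S P Z0 vel cst T W μ pal →
        ∃ B₁ B₂ lam : ℝ, |B₁| ≤ ξ ^ (-τ') ∧ |B₂| ≤ ξ ^ (-τ') ∧ |lam| ≤ ξ ^ (-τ') ∧
          ENNReal.ofReal (ξ ^ τ') ≤ μ {ω | ω ∈ W ∧ |(T ω).1 - B₁ + lam * (Z0 ω.1 + vel ω.1 * ω.2)| ≤ ξ ^ (-τ') * E ∧
            |(T ω).2 - B₂ - lam * ω.2| ≤ ξ ^ (-τ') * E} := by
  obtain ⟨C₁, hC₁, hfc⟩ := re6_fit_core_pos
  obtain ⟨C₂, hcc⟩ := re6_core_coeff
  -- the parameters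
  obtain ⟨n, hn⟩ : ∃ n : ℕ, n = 2 * C₂ + 4 := ⟨_, rfl⟩
  have hn1 : (1 : ℝ) ≤ n := by
    rw [hn]
    push_cast
    have : (0 : ℝ) ≤ C₂ := Nat.cast_nonneg _
    linarith
  have hn0 : (0 : ℝ) < n := by linarith
  obtain ⟨η, hη⟩ : ∃ η : ℝ, η = min τ' 1 / n := ⟨_, rfl⟩
  have hη0 : 0 < η := by
    rw [hη]
    exact div_pos (lt_min hτ' one_pos) hn0
  have hηn : η * n = min τ' 1 := by
    rw [hη]
    field_simp
  have hηn1 : η * n ≤ τ' := by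
    rw [hηn]
    exact min_le_left _ _
  have hηn2 : η * n ≤ 1 := by
    rw [hηn]
    exact min_le_right _ _
  have hητ : η ≤ τ' := by
    have h1 : η * 1 ≤ η * n := mul_le_mul_of_nonneg_left hn1 hη0.le
    linarith
  obtain ⟨τ₂, L₀, hτ₂, hL₀, hcore⟩ := re6_core S η hS hη0
  obtain ⟨η₂, hη₂⟩ : ∃ η₂ : ℝ, η₂ = min η τ₂ := ⟨_, rfl⟩
  have hη₂0 : 0 < η₂ := by
    rw [hη₂]
    exact lt_min hη0 hτ₂
  have hη₂a : η₂ ≤ η := by
    rw [hη₂]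
    exact min_le_left _ _
  have hη₂b : η₂ ≤ τ₂ := by
    rw [hη₂]
    exact min_le_right _ _
  obtain ⟨A, hA⟩ : ∃ A : ℝ, A = max (max (C₁ : ℝ) C₂) 3 := ⟨_, rfl⟩
  have hA3 : 3 ≤ A := by
    rw [hA]
    exact le_max_right _ _
  have hAC₁ : (C₁ : ℝ) ≤ A := by
    rw [hA]
    exact (le_max_left _ _).trans (le_max_left _ _)
  have hAC₂ : (C₂ : ℝ) ≤ A := by
    rw [hA]
    exact (le_max_right _ _).trans (le_max_left _ _)
  obtain ⟨L₁, hL₁⟩ : ∃ L₁ : ℝ, L₁ = max L₀ (A ^ (2 / η₂)) := ⟨_, rfl⟩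
  have hL₁a : L₀ ≤ L₁ := by
    rw [hL₁]
    exact le_max_left _ _
  have hL₁b : A ^ (2 / η₂) ≤ L₁ := by
    rw [hL₁]
    exact le_max_right _ _
  have hL₁1 : 1 ≤ L₁ := hL₀.trans hL₁a
  have hC₁r : (1 : ℝ) ≤ C₁ := by exact_mod_cast hC₁
  clear hη hηn hη₂ hA hL₁
  refine ⟨η₂ / (2 * C₁), 1 / L₁, by positivity, by positivity, ?_⟩
  intro ξ E K hξ hξ₀ hξE hK hKξ Λ _ P Z0 vel cst T W μ pal hfit
  obtain ⟨L, hL⟩ : ∃ L : ℝ, L = 1 / ξ := ⟨_, rfl⟩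
  have hLL₁ : L₁ < L := by
    rw [hL, lt_div_iff₀ hξ]
    have := (lt_div_iff₀ (by linarith : (0 : ℝ) < L₁)).1 hξ₀
    linarith
  have hL1 : 1 ≤ L := by linarith
  have hL0 : 0 < L := by linarith
  have hξ1 : ξ ≤ 1 := by
    have h1 : ξ = 1 / L := by
      rw [hL]
      field_simp
    rw [h1, div_le_one hL0]
    exact hL1
  have hLpow : ∀ a : ℝ, ξ ^ (-a) = L ^ a := by
    intro a
    rw [hL, one_div, Real.inv_rpow hξ.le, Real.rpow_neg hξ.le]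
  have hLpow' : ξ ^ τ' = L ^ (-τ') := by rw [← hLpow, neg_neg]
  rw [hLpow] at hKξ
  rw [hLpow τ', hLpow']
  obtain ⟨hu3, huC₂, hun, hK₁1, hKK₁, hK₁u, hK₁τ⟩ := re6_fit_num τ' η η₂ τ₂ A L K C₁ C₂ n hC₁ hη₂0 hη₂a hη₂b hηn1 hηn2 hA3
    hAC₁ hAC₂ hL1 (hL₁b.trans hLL₁.le) hK hKξ
  have hKu : K ≤ L ^ η := hKK₁.trans hK₁u
  have huτ : L ^ η ≤ L ^ τ' := Real.rpow_le_rpow_of_exponent_le hL1 hητ
  rcases lt_or_ge 1 E with hE1 | hE1
  · refine re6_fit_triv ξ E K S _ _ P Z0 vel cst T W μ pal hfit hK (hKu.trans huτ) ?_ hE1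
    rw [Real.rpow_neg hL0.le, one_div]
    exact inv_anti₀ (by linarith) (hKu.trans huτ)
  · obtain ⟨D, instD, Pt, vel', pal', m, hC, hbd, hsel⟩ := hfc ξ E K S Λ P Z0 vel cst T W μ pal hξ hξE hE1 hK hS hfit
    rw [← hL] at hC
    obtain ⟨B₁, B₂, lam₀, Sel, hSel, hmass, hfitp⟩ := hcore L ((C₁ : ℝ) * K ^ C₁) (hL₁a.trans hLL₁.le) hK₁1 hK₁τ D Pt vel' pal' m hC
    have hE0 : 0 < E := hξ.trans_le hξE
    have hu0 : 0 < L ^ η := by linarith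
    have hRb1 : 1 ≤ K / E + 1 := by
      have : 0 ≤ K / E := by positivity
      linarith
    have hKst : (C₂ : ℝ) * ((C₁ : ℝ) * K ^ C₁ * L ^ η) ^ C₂ ≤ (L ^ η) ^ (2 * C₂ + 1) := by
      have h1 : ((C₁ : ℝ) * K ^ C₁ * L ^ η) ^ C₂ ≤ (L ^ η * L ^ η) ^ C₂ :=
        pow_le_pow_left₀ (by positivity) (mul_le_mul_of_nonneg_right hK₁u hu0.le) _
      calc (C₂ : ℝ) * ((C₁ : ℝ) * K ^ C₁ * L ^ η) ^ C₂ ≤ L ^ η * (L ^ η * L ^ η) ^ C₂ :=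
            mul_le_mul huC₂ h1 (by positivity) hu0.le
        _ = (L ^ η) ^ (2 * C₂ + 1) := by
            rw [← pow_two, ← pow_mul]
            ring
    have hmass' : 1 / L ^ η ≤ ∑ p ∈ Sel, ∑ d, m p d := by
      rw [one_div, ← Real.rpow_neg hL0.le]
      exact hmass
    obtain ⟨hc1, hc2, hc3⟩ := hcc L ((C₁ : ℝ) * K ^ C₁) (L ^ η) (K / E + 1) S B₁ B₂ lam₀ D Pt Sel vel' pal' m hK₁1
      (by linarith) hRb1 (hKst.trans (hun _ (by omega)).2) hC hSel hmass' (fun p hp => hbd p (hSel hp)) hfitp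
    have hc1' : |lam₀| ≤ (C₂ : ℝ) * ((C₁ : ℝ) * K ^ C₁ * L ^ η) ^ C₂ * (K / E + 1) / (1 / ξ) := by
      rw [← hL]
      exact hc1
    refine re6_fit_main ξ E K (L ^ η) _ _ _ B₁ B₂ lam₀ (∑ p ∈ Sel, ∑ d, m p d) (2 * C₂ + 1) Z0 vel T W μ Sel hξ hξ1 hξE hE1 hK
      hu3 hKu (by positivity) hKst (hun _ (by omega)).1 hc1' hc2 hc3 (le_trans ?_ hmass) (hsel Sel hSel) hfitp
    exact Real.rpow_le_rpow_of_exponent_le hL1 (by linarith)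

end Claimed.Agent.R252

end PkRe6Fit
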